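import Crest.Agent.R078X.Defs

/-! Row 78 (X): resolutions of the identity, block sums, legs. -/

set_option autoImplicit false

open scoped InnerProductSpace

namespace Crest.Agent.R078X

variable {H : Type*} [NormedAddCommGroup H] [InnerProductSpace ℂ H] [CompleteSpace H]

theorem res_unitary_apply {u : H →L[ℂ] H} (hu : u ∈ unitary (H →L[ℂ] H)) (ξ : H) :
    ‖u ξ‖ = ‖ξ‖ := by
  have h2 : ∀ η : H, (⟪η, η⟫_ℂ).re = ‖η‖ ^ 2 := fun η => inner_self_eq_norm_sq (𝕜 := ℂ) η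
  have h : ‖u ξ‖ ^ 2 = ‖ξ‖ ^ 2 := by
    rw [← h2, ← h2, ← ContinuousLinearMap.adjoint_inner_right,
      ← ContinuousLinearMap.star_eq_adjoint, ← mul_apply_eq_comp,
      (Unitary.mem_iff.1 hu).1, one_apply_eq_self]
  exact (pow_left_inj₀ (norm_nonneg _) (norm_nonneg _) two_ne_zero).1 h

theorem res_unitary_norm_le {u : H →L[ℂ] H} (hu : u ∈ unitary (H →L[ℂ] H)) : ‖u‖ ≤ 1 :=
  u.opNorm_le_bound zero_le_one fun ξ => by rw [res_unitary_apply hu, one_mul]

namespace Res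

variable {ι : Type*} {f : ι → H →L[ℂ] H}

theorem mul_self (hf : Res f) (i : ι) : f i * f i = f i := (hf.proj i).isIdempotentElem.eq

theorem star_eq (hf : Res f) (i : ι) : star (f i) = f i := (hf.proj i).isSelfAdjoint.star_eq

theorem norm_le_one (hf : Res f) (i : ι) : ‖f i‖ ≤ 1 := (hf.proj i).norm_le

theorem commute (hf : Res f) (i j : ι) : Commute (f i) (f j) := by
  by_cases h : i = j
  · subst h; exact Commute.refl _
  · exact (hf.orth i j h).trans (hf.orth j i (Ne.symm h)).symm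

theorem hasSum_sq (hf : Res f) (ξ : H) : HasSum (fun i => ‖f i ξ‖ ^ 2) (‖ξ‖ ^ 2) := by
  have h1 := ((Complex.reCLM.hasSum ((innerSL ℂ ξ).hasSum (hf.sum ξ))))
  have h2 : ∀ η : H, (⟪η, η⟫_ℂ).re = ‖η‖ ^ 2 := fun η => inner_self_eq_norm_sq (𝕜 := ℂ) η
  simp only [innerSL_apply_apply, Complex.reCLM_apply, h2] at h1
  refine h1.congr_fun fun i => ?_
  rw [← h2, ← ContinuousLinearMap.adjoint_inner_right, ← ContinuousLinearMap.star_eq_adjoint,
    hf.star_eq, ← mul_apply_eq_comp, hf.mul_self]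

/-- Bessel. -/
theorem sum_sq_le (hf : Res f) (s : Finset ι) (ξ : H) : ∑ i ∈ s, ‖f i ξ‖ ^ 2 ≤ ‖ξ‖ ^ 2 := by
  exact sum_le_hasSum s (fun _ _ => sq_nonneg _) (hf.hasSum_sq ξ)

theorem vec_ext (hf : Res f) {ξ η : H} (h : ∀ i, f i ξ = f i η) : ξ = η := by
  have h1 := hf.sum ξ
  simp only [h] at h1
  exact h1.unique (hf.sum η)

theorem ext (hf : Res f) {A B : H →L[ℂ] H} (h : ∀ i, A * f i = B * f i) : A = B := by
  refine ContinuousLinearMap.ext fun ξ => ?_
  have h1 := A.hasSum (hf.sum ξ)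
  have h2 := B.hasSum (hf.sum ξ)
  simp only [← mul_apply_eq_comp, h] at h1 h2
  exact h1.unique h2

theorem ext_left (hf : Res f) {A B : H →L[ℂ] H} (h : ∀ i, f i * A = f i * B) : A = B := by
  refine ContinuousLinearMap.ext fun ξ => hf.vec_ext fun i => ?_
  rw [← mul_apply_eq_comp, h, mul_apply_eq_comp]

/-- The norm of a block diagonal operator is the supremum of the norms of its blocks. -/
theorem norm_le (hf : Res f) {A : H →L[ℂ] H} (hA : ∀ i, Commute A (f i)) {c : ℝ} (hc : 0 ≤ c)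
    (h : ∀ i, ‖A * f i‖ ≤ c) : ‖A‖ ≤ c := by
  refine A.opNorm_le_bound hc fun ξ => ?_
  have h1 : ‖A ξ‖ ^ 2 ≤ c ^ 2 * ‖ξ‖ ^ 2 := by
    refine hasSum_le (fun i => ?_) (hf.hasSum_sq (A ξ)) ((hf.hasSum_sq ξ).mul_left (c ^ 2))
    have e : f i (A ξ) = (A * f i) (f i ξ) := by
      rw [← mul_apply_eq_comp, ← mul_apply_eq_comp, mul_assoc,
        hf.mul_self, (hA i).eq]
    rw [e, ← mul_pow]
    exact pow_le_pow_left₀ (norm_nonneg _) ((A * f i).le_of_opNorm_le (h i) _) 2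
  rw [← mul_pow] at h1
  exact (pow_le_pow_iff_left₀ (norm_nonneg _) (by positivity) two_ne_zero).1 h1

theorem comp_equiv (hf : Res f) {ι' : Type*} (e : ι' ≃ ι) : Res fun i => f (e i) := by
  exact ⟨fun i => hf.proj _, fun i j h => hf.orth _ _ fun h' => h (e.injective h'),
    fun ξ => (e.hasSum_iff (f := fun i => f i ξ)).2 (hf.sum ξ)⟩

theorem res_pyth (hf : Res f) {v : ι → H} (hv : ∀ i, f i (v i) = v i) (s : Finset ι) :
    ‖∑ i ∈ s, v i‖ ^ 2 = ∑ i ∈ s, ‖v i‖ ^ 2 := by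
  classical
  have h1 : ∀ j, f j (∑ i ∈ s, v i) = if j ∈ s then v j else 0 := by
    intro j
    rw [map_sum]
    have : ∀ i, f j (v i) = if j = i then v j else 0 := by
      intro i
      split_ifs with h
      · subst h; exact hv j
      · rw [← hv i, ← mul_apply_eq_comp, hf.orth j i h, zero_apply]
    simp only [this, Finset.sum_ite_eq]
  refine (hf.hasSum_sq _).unique ?_
  have h2 : ∑ i ∈ s, ‖v i‖ ^ 2 = ∑ i ∈ s, ‖f i (∑ i ∈ s, v i)‖ ^ 2 :=
    Finset.sum_congr rfl fun i hi => by rw [h1, if_pos hi]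
  rw [h2]
  exact hasSum_sum_of_ne_finset_zero fun i hi => by rw [h1, if_neg hi]; simp

theorem res_summable (hf : Res f) {v : ι → H} (hv : ∀ i, f i (v i) = v i)
    (hs : Summable fun i => ‖v i‖ ^ 2) : Summable v := by
  rw [summable_iff_vanishing_norm] at hs ⊢
  intro ε hε
  obtain ⟨s, hs⟩ := hs (ε ^ 2) (by positivity)
  refine ⟨s, fun t ht => ?_⟩
  have := hs t ht
  rw [← hf.res_pyth hv, Real.norm_of_nonneg (sq_nonneg _)] at this
  exact lt_of_pow_lt_pow_left₀ 2 hε.le this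

theorem res_exists (hf : Res f) {T : ι → H →L[ℂ] H} (hT : Blk f T) :
    ∃ A : H →L[ℂ] H, ∀ i, A * f i = T i * f i := by
  classical
  obtain ⟨C₀, hC₀⟩ := hT.bdd
  set C := max C₀ 0
  have hC : ∀ i, ‖T i‖ ≤ C := fun i => (hC₀ i).trans (le_max_left _ _)
  have hC0 : 0 ≤ C := le_max_right _ _
  have hv : ∀ ξ i, f i (T i (f i ξ)) = T i (f i ξ) := fun ξ i => by
    rw [← mul_apply_eq_comp (f i) (T i), ← (hT.comm i).eq,
      mul_apply_eq_comp, ← mul_apply_eq_comp (f i) (f i), hf.mul_self]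
  have hb : ∀ ξ i, ‖T i (f i ξ)‖ ^ 2 ≤ C ^ 2 * ‖f i ξ‖ ^ 2 := fun ξ i => by
    rw [← mul_pow]
    exact pow_le_pow_left₀ (norm_nonneg _) ((T i).le_of_opNorm_le (hC i) _) 2
  have hs : ∀ ξ, Summable fun i => T i (f i ξ) := fun ξ =>
    hf.res_summable (hv ξ) (Summable.of_nonneg_of_le (fun _ => sq_nonneg _) (hb ξ)
      ((hf.hasSum_sq ξ).mul_left (C ^ 2)).summable)
  have hfj : ∀ ξ j, f j (∑' i, T i (f i ξ)) = T j (f j ξ) := fun ξ j => by
    rw [(f j).map_tsum (hs ξ), tsum_eq_single j, hv]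
    intro i hi
    rw [← hv, ← mul_apply_eq_comp, hf.orth j i (Ne.symm hi),
      zero_apply]
  let A₀ : H →ₗ[ℂ] H :=
    { toFun := fun ξ => ∑' i, T i (f i ξ)
      map_add' := fun ξ η => by
        simp only [map_add]
        exact (hs ξ).tsum_add (hs η)
      map_smul' := fun a ξ => by
        simp only [map_smul, RingHom.id_apply]
        exact (hs ξ).tsum_const_smul a }
  have hA : ∀ ξ, ‖A₀ ξ‖ ≤ C * ‖ξ‖ := fun ξ => by
    have h1 : ‖A₀ ξ‖ ^ 2 ≤ C ^ 2 * ‖ξ‖ ^ 2 := by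
      refine hasSum_le (fun i => ?_) (hf.hasSum_sq (A₀ ξ)) ((hf.hasSum_sq ξ).mul_left (C ^ 2))
      have : f i (A₀ ξ) = T i (f i ξ) := hfj ξ i
      rw [this]
      exact hb ξ i
    rw [← mul_pow] at h1
    exact (pow_le_pow_iff_left₀ (norm_nonneg _) (by positivity) two_ne_zero).1 h1
  refine ⟨A₀.mkContinuous C hA, fun i => ContinuousLinearMap.ext fun ξ => ?_⟩
  change ∑' j, T j (f j (f i ξ)) = T i (f i ξ)
  rw [tsum_eq_single i, ← mul_apply_eq_comp (f i) (f i), hf.mul_self]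
  intro j hj
  rw [← mul_apply_eq_comp (f j) (f i), hf.orth j i hj, zero_apply,
    map_zero]

theorem bsum_mul (hf : Res f) {T : ι → H →L[ℂ] H} (hT : Blk f T) (i : ι) :
    bsum f T * f i = T i * f i := by
  have h := hf.res_exists hT
  rw [bsum, dif_pos h]
  exact h.choose_spec i

theorem bsum_comm (hf : Res f) {T : ι → H →L[ℂ] H} (hT : Blk f T) (i : ι) :
    Commute (bsum f T) (f i) := by
  refine hf.ext fun j => ?_
  by_cases h : i = j
  · subst h
    rw [mul_assoc, mul_assoc, hf.mul_self, hf.bsum_mul hT, ← mul_assoc, ← (hT.comm i).eq,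
      mul_assoc, hf.mul_self]
  · rw [mul_assoc, mul_assoc, hf.orth i j h, hf.bsum_mul hT, (hT.comm j).eq, ← mul_assoc,
      hf.orth i j h, zero_mul, mul_zero]

theorem mul_bsum (hf : Res f) {T : ι → H →L[ℂ] H} (hT : Blk f T) (i : ι) :
    f i * bsum f T = f i * T i := by
  rw [← (hf.bsum_comm hT i).eq, hf.bsum_mul hT, (hT.comm i).eq]

theorem norm_bsum_le (hf : Res f) {T : ι → H →L[ℂ] H} (hT : ∀ i, Commute (T i) (f i)) {C : ℝ}
    (hC : 0 ≤ C) (h : ∀ i, ‖T i‖ ≤ C) : ‖bsum f T‖ ≤ C := by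
  have hB : Blk f T := ⟨hT, C, h⟩
  refine hf.norm_le (hf.bsum_comm hB) hC fun i => ?_
  rw [hf.bsum_mul hB]
  exact (norm_mul_le _ _).trans ((mul_le_of_le_one_right (norm_nonneg _) (hf.norm_le_one i)).trans
    (h i))

theorem blk_star (hf : Res f) {T : ι → H →L[ℂ] H} (hT : Blk f T) :
    Blk f fun i => star (T i) := by
  obtain ⟨C, hC⟩ := hT.bdd
  refine ⟨fun i => ?_, C, fun i => by rw [norm_star]; exact hC i⟩
  have := (hT.comm i).star_star
  rwa [hf.star_eq] at this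

theorem star_bsum (hf : Res f) {T : ι → H →L[ℂ] H} (hT : Blk f T) :
    star (bsum f T) = bsum f fun i => star (T i) := by
  refine hf.ext fun i => ?_
  rw [hf.bsum_mul (hf.blk_star hT)]
  have := congrArg star (hf.mul_bsum hT i)
  rwa [star_mul, star_mul, hf.star_eq] at this

theorem commute_bsum (hf : Res f) {T : ι → H →L[ℂ] H} (hT : Blk f T) {y : H →L[ℂ] H}
    (h1 : ∀ i, Commute y (f i)) (h2 : ∀ i, Commute y (T i)) : Commute y (bsum f T) := by
  refine hf.ext fun i => ?_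
  rw [mul_assoc, mul_assoc, hf.bsum_mul hT, (h1 i).eq, ← mul_assoc, ← mul_assoc, hf.bsum_mul hT,
    (h2 i).eq, mul_assoc, mul_assoc, (h1 i).eq]

theorem bsum_unitary (hf : Res f) {T : ι → H →L[ℂ] H} (hT : ∀ i, Commute (T i) (f i))
    (hu : ∀ i, T i ∈ unitary (H →L[ℂ] H)) : bsum f T ∈ unitary (H →L[ℂ] H) := by
  have hB : Blk f T := ⟨hT, 1, fun i => res_unitary_norm_le (hu i)⟩
  have hB' := hf.blk_star hB
  rw [Unitary.mem_iff, hf.star_bsum hB]
  constructor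
  · refine hf.ext fun i => ?_
    rw [mul_assoc, hf.bsum_mul hB, (hT i).eq, ← mul_assoc, hf.bsum_mul hB', mul_assoc,
      ← (hT i).eq, ← mul_assoc, (Unitary.mem_iff.1 (hu i)).1]
  · refine hf.ext fun i => ?_
    rw [mul_assoc, hf.bsum_mul hB', (hB'.comm i).eq, ← mul_assoc, hf.bsum_mul hB, mul_assoc,
      ← (hB'.comm i).eq, ← mul_assoc, (Unitary.mem_iff.1 (hu i)).2]

theorem norm_bsum_sub (hf : Res f) {T T' : ι → H →L[ℂ] H} (hT : Blk f T) (hT' : Blk f T')
    {y : H →L[ℂ] H} (hy : ∀ i, Commute y (f i)) {c : ℝ} (hc : 0 ≤ c)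
    (h : ∀ i, ‖T i * y - y * T' i‖ ≤ c) : ‖bsum f T * y - y * bsum f T'‖ ≤ c := by
  refine hf.norm_le (fun i => ((hf.bsum_comm hT i).mul_left (hy i)).sub_left
    ((hy i).mul_left (hf.bsum_comm hT' i))) hc fun i => ?_
  have e : (bsum f T * y - y * bsum f T') * f i = (T i * y - y * T' i) * f i := by
    rw [sub_mul, sub_mul, mul_assoc, mul_assoc, mul_assoc, mul_assoc, hf.bsum_mul hT', (hy i).eq,
      ← mul_assoc, hf.bsum_mul hT, mul_assoc]
  rw [e]
  exact (norm_mul_le _ _).trans ((mul_le_of_le_one_right (norm_nonneg _) (hf.norm_le_one i)).trans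
    (h i))

theorem blk_dg (f : ι → H →L[ℂ] H) {c : ι → ℂ} {C : ℝ} (hc : ∀ i, ‖c i‖ ≤ C) :
    Blk f fun i => c i • (1 : H →L[ℂ] H) := by
  refine ⟨fun i => (Commute.one_left _).smul_left _, C, fun i => ?_⟩
  rw [norm_smul]
  exact (mul_le_of_le_one_right (norm_nonneg _) ContinuousLinearMap.norm_id_le).trans (hc i)

theorem dg_mul (hf : Res f) {c : ι → ℂ} {C : ℝ} (hc : ∀ i, ‖c i‖ ≤ C) (i : ι) :
    dg f c * f i = c i • f i := by
  rw [dg, hf.bsum_mul (blk_dg f hc), smul_mul_assoc, one_mul]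

theorem mul_dg (hf : Res f) {c : ι → ℂ} {C : ℝ} (hc : ∀ i, ‖c i‖ ≤ C) (i : ι) :
    f i * dg f c = c i • f i := by
  rw [dg, hf.mul_bsum (blk_dg f hc), mul_smul_comm, mul_one]

theorem norm_dg_le (hf : Res f) {c : ι → ℂ} {C : ℝ} (hC : 0 ≤ C) (hc : ∀ i, ‖c i‖ ≤ C) :
    ‖dg f c‖ ≤ C := by
  refine hf.norm_bsum_le (blk_dg f hc).comm hC fun i => ?_
  rw [norm_smul]
  exact (mul_le_of_le_one_right (norm_nonneg _) ContinuousLinearMap.norm_id_le).trans (hc i)

theorem star_dg (hf : Res f) {c : ι → ℂ} {C : ℝ} (hc : ∀ i, ‖c i‖ ≤ C) :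
    star (dg f c) = dg f fun i => star (c i) := by
  rw [dg, hf.star_bsum (blk_dg f hc), dg]
  simp only [star_smul, star_one]

theorem commute_dg (hf : Res f) {c : ι → ℂ} {C : ℝ} (hc : ∀ i, ‖c i‖ ≤ C) {y : H →L[ℂ] H}
    (hy : ∀ i, Commute y (f i)) : Commute y (dg f c) := by
  exact hf.commute_bsum (blk_dg f hc) hy fun i => (Commute.one_right _).smul_right _

theorem dg_mul_dg (hf : Res f) {c c' : ι → ℂ} {C C' : ℝ} (hc : ∀ i, ‖c i‖ ≤ C)
    (hc' : ∀ i, ‖c' i‖ ≤ C') : dg f c * dg f c' = dg f fun i => c i * c' i := by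
  refine hf.ext fun i => ?_
  have h : ∀ i, ‖c i * c' i‖ ≤ C * C' := fun i => by
    rw [norm_mul]
    exact mul_le_mul (hc i) (hc' i) (norm_nonneg _) ((norm_nonneg _).trans (hc i))
  rw [hf.dg_mul h, mul_assoc, hf.dg_mul hc', mul_smul_comm, hf.dg_mul hc, smul_smul, mul_comm]

theorem dg_one (hf : Res f) : dg f (fun _ => 1) = 1 := by
  refine hf.ext fun i => ?_
  rw [hf.dg_mul (C := 1) (fun _ => by simp), one_smul, one_mul]

theorem dg_unitary (hf : Res f) {c : ι → ℂ} (hc : ∀ i, ‖c i‖ = 1) :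
    dg f c ∈ unitary (H →L[ℂ] H) := by
  refine hf.bsum_unitary (blk_dg f fun i => (hc i).le).comm fun i => ?_
  have h : c i * star (c i) = 1 := by
    rw [Complex.star_def, Complex.mul_conj, Complex.normSq_eq_norm_sq, hc]; simp
  rw [Unitary.mem_iff]
  simp only [star_smul, star_one, smul_mul_assoc, one_mul, smul_smul]
  rw [mul_comm (star (c i)), h, one_smul]
  exact ⟨rfl, rfl⟩

end Res

/-- A unitary representation takes unitary values. -/
theorem rep_unitary {Γ : Type*} [Group Γ] {π : Γ →* (H →L[ℂ] H)}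
    (hπ : ∀ g, star (π g) = π g⁻¹) (g : Γ) : π g ∈ unitary (H →L[ℂ] H) := by
  rw [Unitary.mem_iff, hπ, ← map_mul, ← map_mul, inv_mul_cancel, mul_inv_cancel, map_one]
  exact ⟨rfl, rfl⟩

theorem rep_norm_le {Γ : Type*} [Group Γ] {π : Γ →* (H →L[ℂ] H)}
    (hπ : ∀ g, star (π g) = π g⁻¹) (g : Γ) : ‖π g‖ ≤ 1 := by
  exact res_unitary_norm_le (rep_unitary hπ g)

theorem rep_norm_apply {Γ : Type*} [Group Γ] {π : Γ →* (H →L[ℂ] H)}
    (hπ : ∀ g, star (π g) = π g⁻¹) (g : Γ) (ξ : H) : ‖π g ξ‖ = ‖ξ‖ := by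
  exact res_unitary_apply (rep_unitary hπ g) ξ

theorem unitary_norm_le {u : H →L[ℂ] H} (hu : u ∈ unitary (H →L[ℂ] H)) : ‖u‖ ≤ 1 := by
  exact res_unitary_norm_le hu

theorem commute_star_of_unitary {u y : H →L[ℂ] H} (hu : u ∈ unitary (H →L[ℂ] H))
    (h : Commute y u) : Commute y (star u) := by
  obtain ⟨h1, h2⟩ := Unitary.mem_iff.1 hu
  calc y * star u = (star u * u) * y * star u := by rw [h1, one_mul]
    _ = star u * (y * u) * star u := by rw [h.eq, mul_assoc (star u)]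
    _ = star u * y * (u * star u) := by simp only [mul_assoc]
    _ = star u * y := by rw [h2, mul_one]

/-- Conjugation by close unitaries. -/
theorem norm_conj_sub {u v x : H →L[ℂ] H} (hu : u ∈ unitary (H →L[ℂ] H))
    (hv : v ∈ unitary (H →L[ℂ] H)) :
    ‖u * x * star u - v * x * star v‖ ≤ 2 * ‖u - v‖ * ‖x‖ := by
  have e : u * x * star u - v * x * star v =
      (u - v) * x * star u + v * x * star (u - v) := by
    rw [star_sub]; noncomm_ring
  have h1 : ‖star u‖ ≤ 1 := by rw [norm_star]; exact unitary_norm_le hu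
  have h2 := unitary_norm_le hv
  rw [e]
  have h3 : ‖(u - v) * x * star u‖ ≤ ‖u - v‖ * ‖x‖ :=
    (norm_mul_le _ _).trans ((mul_le_of_le_one_right (norm_nonneg _) h1).trans (norm_mul_le _ _))
  have h4 : ‖v * x * star (u - v)‖ ≤ ‖x‖ * ‖u - v‖ := by
    refine (norm_mul_le _ _).trans ?_
    rw [norm_star]
    exact mul_le_mul_of_nonneg_right ((norm_mul_le _ _).trans
      (mul_le_of_le_one_left (norm_nonneg _) h2)) (norm_nonneg _)
  linarith [norm_add_le ((u - v) * x * star u) (v * x * star (u - v)), mul_comm ‖x‖ ‖u - v‖]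

namespace Leg

variable {Γ : Type*} [Group Γ] (L : Leg Γ H)

theorem f_lam (g x : Γ) : L.f x * L.lam g = L.lam g * L.f (g⁻¹ * x) := by
  rw [L.lam_f, mul_inv_cancel_left]

theorem f_eq (x : Γ) : L.f x = L.lam x * L.f 1 * L.lam x⁻¹ := by
  rw [L.lam_f, mul_one, mul_assoc, ← map_mul, mul_inv_cancel, map_one, mul_one]

theorem f_lam_f {g : Γ} (hg : g ≠ 1) : L.f 1 * L.lam g * L.f 1 = 0 := by
  rw [mul_assoc, L.lam_f, mul_one, ← mul_assoc, L.res.orth 1 g hg.symm, zero_mul]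

theorem fix' (g : Γ) : L.f 1 * (L.lam g * L.rho g) = L.f 1 := by
  have := congrArg star (L.fix g⁻¹)
  rwa [star_mul, star_mul, L.res.star_eq, L.star_lam, L.star_rho, inv_inv,
    ← (L.lam_rho g g).eq] at this

theorem norm_f_lam (g : Γ) (ξ : H) : ‖(L.f 1 * L.lam g) ξ‖ = ‖L.f g⁻¹ ξ‖ := by
  rw [L.f_lam, mul_one, mul_apply_eq_comp, rep_norm_apply L.star_lam]

theorem commute_f {y : H →L[ℂ] H} (h1 : Commute y (L.f 1)) (h2 : ∀ g, Commute y (L.lam g))
    (x : Γ) : Commute y (L.f x) := by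
  rw [L.f_eq]
  exact (((h2 x).mul_right h1).mul_right (h2 _))

theorem Indep.symm {Γ' : Type*} [Group Γ'] {L : Leg Γ H} {L' : Leg Γ' H} (h : L.Indep L') :
    L'.Indep L := by
  exact ⟨fun x => ⟨fun y => ((h.f y).f x).symm, fun g => ((h.lam g).f x).symm,
      fun g => ((h.rho g).f x).symm⟩,
    fun x => ⟨fun y => ((h.f y).lam x).symm, fun g => ((h.lam g).lam x).symm,
      fun g => ((h.rho g).lam x).symm⟩,
    fun x => ⟨fun y => ((h.f y).rho x).symm, fun g => ((h.lam g).rho x).symm,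
      fun g => ((h.rho g).rho x).symm⟩⟩

/-- Fell absorption. -/
theorem fell {π : Γ →* (H →L[ℂ] H)} (hπ : ∀ g, star (π g) = π g⁻¹)
    (h1 : ∀ g x, Commute (π g) (L.f x)) (h2 : ∀ g h, Commute (π g) (L.lam h)) :
    bsum L.f π ∈ unitary (H →L[ℂ] H) ∧
      ∀ g, bsum L.f π * L.lam g * star (bsum L.f π) = L.lam g * π g := by
  have hB : Blk L.f π := ⟨fun g => h1 g g, 1, rep_norm_le hπ⟩
  have hu := L.res.bsum_unitary hB.comm (rep_unitary hπ)
  refine ⟨hu, fun g => ?_⟩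
  have e : bsum L.f π * L.lam g = L.lam g * π g * bsum L.f π := by
    refine L.res.ext fun y => ?_
    rw [mul_assoc, L.lam_f, ← mul_assoc, L.res.bsum_mul hB, mul_assoc, ← L.lam_f, ← mul_assoc,
      (h2 _ _).eq, mul_assoc (L.lam g * π g), L.res.bsum_mul hB, map_mul]
    simp only [mul_assoc]
  rw [e, mul_assoc, (Unitary.mem_iff.1 hu).2, mul_one]

theorem blk_rep {π : Γ →* (H →L[ℂ] H)} (hπ : ∀ g, star (π g) = π g⁻¹)
    (h1 : ∀ g x, Commute (π g) (L.f x)) : Blk L.f π := by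
  exact ⟨fun g => h1 g g, 1, rep_norm_le hπ⟩

end Leg

namespace Model

variable {κ Γ : Type*} [Group Γ] (M : Model κ Γ H)

theorem res_r : Res M.r := by
  exact M.Z.res.comp_equiv Multiplicative.ofAdd

theorem V_unitary : M.V ∈ unitary (H →L[ℂ] H) := by
  exact rep_unitary M.Z.star_lam _

theorem V_r (n : ℤ) : M.V * M.r n = M.r (n + 1) * M.V := by
  rw [V, r, r, M.Z.lam_f, ← ofAdd_add, add_comm]

theorem r_apply_dl (n : ℤ) : M.r n (M.dl n) = M.dl n := M.r_dl n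

/-- An operator commuting with the `ℤ`-leg has the norm of each of its blocks. -/
theorem norm_le_block {c : H →L[ℂ] H} (hc : M.Z.Com c) (n : ℤ) : ‖c‖ ≤ ‖c * M.r n‖ := by
  refine M.res_r.norm_le (fun m => hc.f _) (norm_nonneg _) fun m => ?_
  have e : c * M.r m = M.Z.lam (Multiplicative.ofAdd (m - n)) * (c * M.r n) *
      M.Z.lam (Multiplicative.ofAdd (m - n))⁻¹ := by
    rw [← mul_assoc, ← (hc.lam _).eq, mul_assoc c, r, r, M.Z.lam_f, ← ofAdd_add, sub_add_cancel,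
      mul_assoc, mul_assoc, ← map_mul, mul_inv_cancel, map_one, mul_one]
  rw [e]
  exact (norm_mul_le _ _).trans ((mul_le_of_le_one_right (norm_nonneg _)
    (rep_norm_le M.Z.star_lam _)).trans ((norm_mul_le _ _).trans
      (mul_le_of_le_one_left (norm_nonneg _) (rep_norm_le M.Z.star_lam _))))

end Model

end Crest.Agent.R078X
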