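import Crest.Agent.R078X.PP

/-! Row 78 (X): the slice map and the upper bound of S0105. -/

set_option autoImplicit false

open scoped InnerProductSpace

namespace Crest.Agent.R078X

variable {H : Type*} [NormedAddCommGroup H] [InnerProductSpace ℂ H] [CompleteSpace H]

variable {Γ : Type*} [Group Γ] (M : Model (Fin 2) Γ H)

section slice

variable (G : Leg Γ H) (z : H →L[ℂ] H)

/-- The blocks of the slice map. -/
noncomputable def slT (x : H →L[ℂ] H) (g : Γ) : H →L[ℂ] H :=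
  G.lam g * (G.f 1 * (z * (x * (z * (G.f 1 * G.lam g⁻¹)))))

/-- The slice map. -/
noncomputable def slPhi (x : H →L[ℂ] H) : H →L[ℂ] H := bsum G.f (slT G z x)

theorem sl_inv_mul (g : Γ) (a : H →L[ℂ] H) : G.lam g⁻¹ * (G.lam g * a) = a := by
  rw [← mul_assoc, ← map_mul, inv_mul_cancel, map_one, one_mul]

theorem sl_ff (a : H →L[ℂ] H) : G.f 1 * (G.f 1 * a) = G.f 1 * a := by
  rw [← mul_assoc, G.res.mul_self]

theorem slT_mul_f (x : H →L[ℂ] H) (g : Γ) : slT G z x g * G.f g = slT G z x g := by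
  rw [G.f_eq g]
  simp only [slT, mul_assoc, sl_inv_mul, sl_ff]

theorem f_mul_slT (x : H →L[ℂ] H) (g : Γ) : G.f g * slT G z x g = slT G z x g := by
  rw [G.f_eq g]
  simp only [slT, mul_assoc, sl_inv_mul, sl_ff]

theorem slT_comm (x : H →L[ℂ] H) (g : Γ) : Commute (slT G z x g) (G.f g) :=
  (slT_mul_f G z x g).trans (f_mul_slT G z x g).symm

theorem sl_norm_left {a : H →L[ℂ] H} (ha : ‖a‖ ≤ 1) (b : H →L[ℂ] H) : ‖a * b‖ ≤ ‖b‖ :=
  (norm_mul_le a b).trans (mul_le_of_le_one_left (norm_nonneg _) ha)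

theorem sl_norm_right {a : H →L[ℂ] H} (ha : ‖a‖ ≤ 1) (b : H →L[ℂ] H) : ‖b * a‖ ≤ ‖b‖ :=
  (norm_mul_le b a).trans (mul_le_of_le_one_right (norm_nonneg _) ha)

theorem sl_norm_app {a : H →L[ℂ] H} (ha : ‖a‖ ≤ 1) (ξ : H) : ‖a ξ‖ ≤ ‖ξ‖ :=
  (a.le_opNorm ξ).trans (mul_le_of_le_one_left (norm_nonneg _) ha)

variable {z}

theorem slT_norm (hz : IsStarProjection z) (x : H →L[ℂ] H) (g : Γ) :
    ‖slT G z x g‖ ≤ ‖x * z‖ := by
  have e : slT G z x g = G.lam g * (G.f 1 * (z * (x * z * G.f 1 * G.lam g⁻¹))) := by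
    simp only [slT, mul_assoc]
  rw [e]
  exact (sl_norm_left (rep_norm_le G.star_lam _) _).trans <|
    (sl_norm_left (G.res.norm_le_one _) _).trans <| (sl_norm_left hz.norm_le _).trans <|
    (sl_norm_right (rep_norm_le G.star_lam _) _).trans (sl_norm_right (G.res.norm_le_one _) _)

theorem slT_blk (hz : IsStarProjection z) (x : H →L[ℂ] H) : Blk G.f (slT G z x) :=
  ⟨slT_comm G z x, _, slT_norm G hz x⟩

theorem slPhi_mul_f (hz : IsStarProjection z) (x : H →L[ℂ] H) (g : Γ) :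
    slPhi G z x * G.f g = slT G z x g :=
  (G.res.bsum_mul (slT_blk G hz x) g).trans (slT_mul_f G z x g)

theorem f_mul_slPhi (hz : IsStarProjection z) (x : H →L[ℂ] H) (g : Γ) :
    G.f g * slPhi G z x = slT G z x g :=
  (G.res.mul_bsum (slT_blk G hz x) g).trans (f_mul_slT G z x g)

theorem slPhi_norm (hz : IsStarProjection z) (x : H →L[ℂ] H) : ‖slPhi G z x‖ ≤ ‖x * z‖ :=
  G.res.norm_bsum_le (slT_comm G z x) (norm_nonneg _) (slT_norm G hz x)

theorem slPhi_add (hz : IsStarProjection z) (x y : H →L[ℂ] H) :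
    slPhi G z (x + y) = slPhi G z x + slPhi G z y := by
  refine G.res.ext fun g => ?_
  rw [add_mul, slPhi_mul_f G hz, slPhi_mul_f G hz, slPhi_mul_f G hz]
  simp only [slT, add_mul, mul_add]

theorem slPhi_comm_f (hz : IsStarProjection z) (x : H →L[ℂ] H) (g : Γ) :
    Commute (slPhi G z x) (G.f g) := G.res.bsum_comm (slT_blk G hz x) g

theorem slPhi_comm_lam (hz : IsStarProjection z) (x : H →L[ℂ] H) (h : Γ) :
    Commute (slPhi G z x) (G.lam h) := by
  refine G.res.ext fun g => ?_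
  rw [mul_assoc, G.lam_f, ← mul_assoc, slPhi_mul_f G hz, mul_assoc, slPhi_mul_f G hz]
  have e : G.lam (h * g)⁻¹ * G.lam h = G.lam g⁻¹ := by
    rw [← map_mul]; congr 1; group
  simp only [slT, mul_assoc, e, map_mul]

theorem slPhi_star (hz : IsStarProjection z) (x : H →L[ℂ] H) :
    star (slPhi G z x) = slPhi G z (star x) := by
  refine G.res.ext fun g => ?_
  rw [slPhi_mul_f G hz, ← G.res.star_eq g, ← star_mul, f_mul_slPhi G hz]
  simp only [slT, star_mul, G.star_lam, G.res.star_eq, hz.isSelfAdjoint.star_eq, inv_inv,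
    mul_assoc]

theorem slPhi_col (hz : IsStarProjection z) {σ : Type*} [Fintype σ] {k : σ → H →L[ℂ] H}
    (hk : Col k) : Col fun s => slPhi G z (k s) := by
  intro ξ
  have h1 : HasSum (fun g => ∑ s, ‖G.f g (slPhi G z (k s) ξ)‖ ^ 2)
      (∑ s, ‖slPhi G z (k s) ξ‖ ^ 2) :=
    hasSum_sum fun s _ => G.res.hasSum_sq (slPhi G z (k s) ξ)
  refine hasSum_le (fun g => ?_) h1 (G.res.hasSum_sq ξ)
  have h2 : ∀ s, ‖G.f g (slPhi G z (k s) ξ)‖ ≤ ‖k s (z ((G.f 1 * G.lam g⁻¹) ξ))‖ := by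
    intro s
    have e : G.f g (slPhi G z (k s) ξ) =
        G.lam g (G.f 1 (z (k s (z ((G.f 1 * G.lam g⁻¹) ξ))))) := by
      rw [← ContinuousLinearMap.mul_apply, f_mul_slPhi G hz]
      rfl
    rw [e]
    exact (sl_norm_app (rep_norm_le G.star_lam _) _).trans <|
      (sl_norm_app (G.res.norm_le_one _) _).trans (sl_norm_app hz.norm_le _)
  calc _ ≤ ∑ s, ‖k s (z ((G.f 1 * G.lam g⁻¹) ξ))‖ ^ 2 :=
        Finset.sum_le_sum fun s _ => pow_le_pow_left₀ (norm_nonneg _) (h2 s) 2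
    _ ≤ ‖z ((G.f 1 * G.lam g⁻¹) ξ)‖ ^ 2 := hk _
    _ ≤ ‖(G.f 1 * G.lam g⁻¹) ξ‖ ^ 2 :=
        pow_le_pow_left₀ (norm_nonneg _) (sl_norm_app hz.norm_le _) 2
    _ = _ := by rw [G.norm_f_lam, inv_inv]

theorem slPhi_row (hz : IsStarProjection z) {σ : Type*} [Fintype σ] {r : σ → H →L[ℂ] H}
    (hr : Row r) : Row fun s => slPhi G z (r s) := by
  intro ξ
  have := slPhi_col G hz (k := fun s => star (r s)) hr ξ
  simpa only [slPhi_star G hz] using this

theorem slPhi_mul_z (hz : IsStarProjection z) (h1 : ∀ g, Commute (G.f g) z)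
    (h2 : ∀ g, Commute (G.lam g) z) (x : H →L[ℂ] H) : slPhi G z x * z = slPhi G z x := by
  refine G.res.ext fun g => ?_
  rw [mul_assoc, ← (h1 g).eq, ← mul_assoc, slPhi_mul_f G hz]
  have e : z * (G.f 1 * (G.lam g⁻¹ * z)) = z * (G.f 1 * G.lam g⁻¹) := by
    rw [(h2 _).eq, (h1 1).left_comm, ← mul_assoc, hz.isIdempotentElem.eq]
  simp only [slT, mul_assoc, e]

theorem z_mul_slPhi (hz : IsStarProjection z) (h1 : ∀ g, Commute (G.f g) z)
    (h2 : ∀ g, Commute (G.lam g) z) (x : H →L[ℂ] H) : z * slPhi G z x = slPhi G z x := by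
  refine G.res.ext fun g => ?_
  rw [mul_assoc, slPhi_mul_f G hz, slT, ← (h2 g).left_comm, ← (h1 1).left_comm, ← mul_assoc z z,
    hz.isIdempotentElem.eq]

theorem slPhi_eq (hz : IsStarProjection z) (h1 : ∀ g, Commute (G.f g) z)
    (h2 : ∀ g, Commute (G.lam g) z) {c : H →L[ℂ] H} (hc1 : ∀ g, Commute c (G.f g))
    (hc2 : ∀ g, Commute c (G.lam g)) (hc3 : Commute c z) : slPhi G z c = c * z := by
  refine G.res.ext fun g => ?_
  rw [slPhi_mul_f G hz, slT, ← hc3.left_comm, ← (hc1 1).left_comm, ← (hc2 g).left_comm,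
    ← mul_assoc z z, hz.isIdempotentElem.eq, (h1 1).left_comm, sl_ff, (h2 g).left_comm,
    G.f_eq g]
  simp only [mul_assoc]

end slice

theorem sl_rank (n : ℤ) (ζ : H) :
    ∃ β : ℂ, (M.L 0).f 1 ((M.L 1).f 1 (M.r n ζ)) = β • M.dl n := by
  have fp : Commute ((M.L 0).f 1) ((M.L 1).f 1) := ((M.indep 0 1 (by decide)).f 1).f 1
  have fz : Commute ((M.L 0).f 1) (M.r n) := ((M.indepZ 0).f 1).f _
  have pz : Commute ((M.L 1).f 1) (M.r n) := ((M.indepZ 1).f 1).f _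
  refine ⟨_, M.rank n _ (fun i => ?_) ?_⟩
  · change ((M.L i).f 1 * ((M.L 0).f 1 * ((M.L 1).f 1 * M.r n))) ζ =
      ((M.L 0).f 1 * ((M.L 1).f 1 * M.r n)) ζ
    congr 1
    fin_cases i
    · exact sl_ff _ _
    · change (M.L 1).f 1 * _ = _
      rw [← fp.left_comm, sl_ff]
  · change (M.r n * ((M.L 0).f 1 * ((M.L 1).f 1 * M.r n))) ζ =
      ((M.L 0).f 1 * ((M.L 1).f 1 * M.r n)) ζ
    rw [← fz.left_comm, ← pz.left_comm, M.res_r.mul_self]

theorem sl_core (n : ℤ) {y e : H →L[ℂ] H} (hy1 : Commute y ((M.L 1).f 1))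
    (hy3 : Commute y (M.r n)) (he1 : Commute e ((M.L 0).f 1)) (he3 : Commute e (M.r n)) :
    ((M.L 0).f 1 * ((M.L 1).f 1 * (M.r n * (y * e - e * y)))) (M.dl n) = 0 := by
  have fp : Commute ((M.L 0).f 1) ((M.L 1).f 1) := ((M.indep 0 1 (by decide)).f 1).f 1
  have fz : Commute ((M.L 0).f 1) (M.r n) := ((M.indepZ 0).f 1).f _
  have pz : Commute ((M.L 1).f 1) (M.r n) := ((M.indepZ 1).f 1).f _
  set f := (M.L 0).f 1 with hf
  set p := (M.L 1).f 1 with hp
  set z := M.r n with hz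
  set δ := M.dl n with hδ
  have fδ : f δ = δ := M.f_dl 0 n
  have pδ : p δ = δ := M.f_dl 1 n
  have zδ : z δ = δ := M.r_dl n
  obtain ⟨β, hβ⟩ := sl_rank M n (e δ)
  obtain ⟨γ, hγ⟩ := sl_rank M n (y δ)
  rw [← hf, ← hp, ← hz, ← hδ] at hβ hγ
  have h1 : p (e δ) = β • δ := by
    rw [← hβ]
    have e1 : f * (p * (z * e)) = p * (e * (z * f)) := by
      rw [fp.left_comm, fz.left_comm, ← he1.eq, ← he3.left_comm]
    change _ = (f * (p * (z * e))) δ
    rw [e1]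
    change _ = p (e (z (f δ)))
    rw [fδ, zδ]
  have h2 : f (y δ) = γ • δ := by
    rw [← hγ]
    have e1 : f * (p * (z * y)) = f * (y * (z * p)) := by
      rw [pz.left_comm, ← hy1.eq, ← hy3.left_comm]
    change _ = (f * (p * (z * y))) δ
    rw [e1]
    change _ = f (y (z (p δ)))
    rw [pδ, zδ]
  have e1 : f * (p * (z * (y * e))) = z * (f * (y * (p * e))) := by
    rw [pz.left_comm, ← hy1.left_comm, fz.left_comm]
  have e2 : f * (p * (z * (e * y))) = z * (p * (e * (f * y))) := by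
    rw [fp.left_comm, fz.left_comm, ← he1.left_comm, pz.left_comm]
  rw [mul_sub, mul_sub, mul_sub, e1, e2]
  change z (f (y (p (e δ)))) - z (p (e (f (y δ)))) = 0
  rw [h1, h2]
  simp only [map_smul, h1, h2]
  rw [smul_comm, sub_self]

/-- Commutation lemma: on one block, `B(ℓ²Γ) ⊗ 1` and `1 ⊗ B(ℓ²Γ)` commute. -/
theorem commute_of_legs (n : ℤ) {y e : H →L[ℂ] H} (hy1 : ∀ x, Commute y ((M.L 1).f x))
    (hy2 : ∀ g, Commute y ((M.L 1).lam g)) (hy3 : Commute y (M.r n))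
    (he1 : ∀ x, Commute e ((M.L 0).f x)) (he2 : ∀ g, Commute e ((M.L 0).lam g))
    (he3 : e * M.r n = e) (he4 : M.r n * e = e) : Commute y e := by
  have I := M.indep 0 1 (by decide)
  have fz : ∀ x, Commute ((M.L 0).f x) (M.r n) := fun x => ((M.indepZ 0).f x).f _
  have pz : ∀ x, Commute ((M.L 1).f x) (M.r n) := fun x => ((M.indepZ 1).f x).f _
  have gz : ∀ g, Commute ((M.L 0).lam g) (M.r n) := fun x => ((M.indepZ 0).lam x).f _
  have tz : ∀ g, Commute ((M.L 1).lam g) (M.r n) := fun x => ((M.indepZ 1).lam x).f _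
  have gp : ∀ g x, Commute ((M.L 0).lam g) ((M.L 1).f x) := fun g x => (I.lam g).f x
  have ft : ∀ x g, Commute ((M.L 0).f x) ((M.L 1).lam g) := fun x g => (I.f x).lam g
  have gt : ∀ g h, Commute ((M.L 0).lam g) ((M.L 1).lam h) := fun g h => (I.lam g).lam h
  have ez : Commute e (M.r n) := he3.trans he4.symm
  set w := y * e - e * y with hw
  have zw : M.r n * w = w := by
    rw [hw, mul_sub, ← hy3.left_comm, he4, ← mul_assoc, he4]
  have wz : w * M.r n = w := by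
    rw [hw, sub_mul, mul_assoc, he3, mul_assoc, hy3.eq, ← mul_assoc, he3]
  have key : ∀ a b, (M.L 0).f a * ((M.L 1).f b * M.r n) =
      (M.L 0).lam a * ((M.L 1).lam b * ((M.L 0).f 1 * ((M.L 1).f 1 * (M.r n *
        ((M.L 0).lam a⁻¹ * (M.L 1).lam b⁻¹))))) := by
    intro a b
    rw [(M.L 0).f_eq a, (M.L 1).f_eq b]
    simp only [mul_assoc]
    rw [(tz _).eq, (gt _ _).left_comm, (gp _ _).left_comm, (gz _).left_comm, (ft _ _).left_comm]
  have h1 : ∀ c d, w ((M.L 0).lam c ((M.L 1).lam d (M.dl n))) = 0 := by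
    intro c d
    refine (M.L 1).res.vec_ext fun b => ?_
    refine (M.L 0).res.vec_ext fun a => ?_
    have h2 := sl_core M n (y := (M.L 0).lam a⁻¹ * (y * (M.L 0).lam c))
      (e := (M.L 1).lam b⁻¹ * (e * (M.L 1).lam d))
      ((gp _ _).mul_left ((hy1 _).mul_left (gp _ _)))
      ((gz _).mul_left (hy3.mul_left (gz _)))
      ((ft _ _).symm.mul_left ((he1 _).mul_left (ft _ _).symm))
      ((tz _).mul_left (ez.mul_left (tz _)))
    have e1 : (M.L 0).lam a⁻¹ * (y * (M.L 0).lam c) * ((M.L 1).lam b⁻¹ * (e * (M.L 1).lam d)) -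
        (M.L 1).lam b⁻¹ * (e * (M.L 1).lam d) * ((M.L 0).lam a⁻¹ * (y * (M.L 0).lam c)) =
        (M.L 0).lam a⁻¹ * ((M.L 1).lam b⁻¹ * (w * ((M.L 0).lam c * (M.L 1).lam d))) := by
      rw [hw]
      simp only [mul_assoc, sub_mul, mul_sub]
      congr 1
      · rw [(gt c b⁻¹).left_comm, (hy2 b⁻¹).left_comm, ← (he2 c).left_comm]
      · rw [← (gt a⁻¹ d).left_comm, (he2 a⁻¹).left_comm, ← (gt a⁻¹ b⁻¹).left_comm,
          ← (hy2 d).left_comm, ← (gt c d).eq]
    rw [e1] at h2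
    have e2 : (M.L 0).f a * ((M.L 1).f b * (w * ((M.L 0).lam c * (M.L 1).lam d))) =
        (M.L 0).lam a * ((M.L 1).lam b * ((M.L 0).f 1 * ((M.L 1).f 1 * (M.r n *
          ((M.L 0).lam a⁻¹ * ((M.L 1).lam b⁻¹ * (w * ((M.L 0).lam c * (M.L 1).lam d)))))))) := by
      have := congrArg (· * (w * ((M.L 0).lam c * (M.L 1).lam d))) (key a b)
      simp only [mul_assoc] at this
      rw [← this, ← mul_assoc (M.r n), zw]
    change ((M.L 0).f a * ((M.L 1).f b * (w * ((M.L 0).lam c * (M.L 1).lam d)))) (M.dl n) = _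
    rw [e2, ContinuousLinearMap.mul_apply, ContinuousLinearMap.mul_apply, h2]
    simp only [map_zero]
  have h3 : w = 0 := by
    refine (M.L 0).res.ext fun c => (M.L 1).res.ext fun d => ?_
    have e3 : w * (M.L 0).f c * (M.L 1).f d = w * ((M.L 0).f c * ((M.L 1).f d * M.r n)) := by
      rw [(pz d).eq, (fz c).left_comm, ← mul_assoc w (M.r n), wz, mul_assoc]
    rw [e3, key, zero_mul, zero_mul]
    ext ξ
    obtain ⟨β, hβ⟩ := sl_rank M n (((M.L 0).lam c⁻¹ * (M.L 1).lam d⁻¹) ξ)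
    change w ((M.L 0).lam c ((M.L 1).lam d ((M.L 0).f 1 ((M.L 1).f 1 (M.r n
      (((M.L 0).lam c⁻¹ * (M.L 1).lam d⁻¹) ξ)))))) = 0
    rw [hβ]
    simp only [map_smul, h1, smul_zero]
  exact sub_eq_zero.1 h3

theorem slice_bound {σ : Type*} [Fintype σ] (n : ℤ) {c y r k : σ → H →L[ℂ] H}
    (hc1 : ∀ s x, Commute (c s) ((M.L 0).f x)) (hc2 : ∀ s g, Commute (c s) ((M.L 0).lam g))
    (hc3 : ∀ s, Commute (c s) (M.r n))
    (hy1 : ∀ s x, Commute (y s) ((M.L 1).f x)) (hy2 : ∀ s g, Commute (y s) ((M.L 1).lam g))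
    (hy3 : ∀ s, Commute (y s) (M.r n)) (hy4 : ∀ s, ‖y s‖ ≤ 1) (hr : Row r) (hk : Col k) {η : ℝ}
    (hη : ∀ s, ‖(c s - r s - k s) * M.r n‖ ≤ η) :
    ‖(∑ s, c s * y s) * M.r n‖ ≤ 2 * √(Fintype.card σ : ℝ) + Fintype.card σ * η := by
  have fz : ∀ x, Commute ((M.L 0).f x) (M.r n) := fun x => ((M.indepZ 0).f x).f _
  have gz : ∀ g, Commute ((M.L 0).lam g) (M.r n) := fun x => ((M.indepZ 0).lam x).f _
  have hz : IsStarProjection (M.r n) := M.res_r.proj n
  set Φ := slPhi (M.L 0) (M.r n) with hΦ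
  have e1 : ∀ s, c s * y s * M.r n =
      Φ (r s) * y s + y s * Φ (k s) + Φ (c s - r s - k s) * y s := by
    intro s
    have h1 : Commute (y s) (Φ (k s)) := commute_of_legs M n (hy1 s) (hy2 s) (hy3 s)
      (slPhi_comm_f _ hz _) (slPhi_comm_lam _ hz _) (slPhi_mul_z _ hz fz gz _)
      (z_mul_slPhi _ hz fz gz _)
    have h2 : Φ (c s) = c s * M.r n := slPhi_eq _ hz fz gz (hc1 s) (hc2 s) (hc3 s)
    have h3 : Φ (c s) = Φ (r s) + Φ (k s) + Φ (c s - r s - k s) := by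
      rw [hΦ, ← slPhi_add _ hz, ← slPhi_add _ hz]
      congr 1
      abel
    rw [mul_assoc, (hy3 s).eq, ← mul_assoc, ← h2, h3, h1.eq, add_mul, add_mul]
  rw [Finset.sum_mul, Finset.sum_congr rfl fun s _ => e1 s, Finset.sum_add_distrib,
    Finset.sum_add_distrib]
  have b1 := (slPhi_row (M.L 0) hz hr).norm_sum_le hy4
  have b2 := (slPhi_col (M.L 0) hz hk).norm_sum_le hy4
  have b3 : ‖∑ s, Φ (c s - r s - k s) * y s‖ ≤ Fintype.card σ * η := by
    refine (norm_sum_le _ _).trans ?_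
    have := Finset.sum_le_card_nsmul Finset.univ (fun s => ‖Φ (c s - r s - k s) * y s‖) η
      fun s _ => (sl_norm_right (hy4 s) _).trans ((slPhi_norm _ hz _).trans (hη s))
    simpa using this
  have b4 := norm_add₃_le (a := ∑ s, Φ (r s) * y s) (b := ∑ s, y s * Φ (k s))
    (c := ∑ s, Φ (c s - r s - k s) * y s)
  linarith

end Crest.Agent.R078X
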