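import Crest.Agent.R078X.Res

/-! Row 78 (X): the algebras of S0105. -/

set_option autoImplicit false

open scoped InnerProductSpace

namespace Crest.Agent.R078X

variable {H : Type*} [NormedAddCommGroup H] [InnerProductSpace ℂ H] [CompleteSpace H]

variable {Γ : Type*} [Group Γ] {M : Model (Fin 2) Γ H} {π π' : Γ →* (H →L[ℂ] H)}

theorem alg_commute_adjoin {S : Set (H →L[ℂ] H)} {y : H →L[ℂ] H} (h : ∀ s ∈ S, Commute y s)
    (h' : ∀ s ∈ S, Commute y (star s)) {e : H →L[ℂ] H} (he : e ∈ StarAlgebra.adjoin ℂ S) :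
    Commute y e := by
  have key : Commute y e ∧ Commute y (star e) := by
    induction he using StarAlgebra.adjoin_induction with
    | mem x hx => exact ⟨h x hx, h' x hx⟩
    | algebraMap r =>
      rw [← algebraMap_star_comm]
      exact ⟨(Algebra.commutes r y).symm, (Algebra.commutes (star r) y).symm⟩
    | add a b _ _ ha hb => rw [star_add]; exact ⟨ha.1.add_right hb.1, ha.2.add_right hb.2⟩
    | mul a b _ _ ha hb => rw [star_mul]; exact ⟨ha.1.mul_right hb.1, hb.2.mul_right ha.2⟩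
    | star a _ ha => rw [star_star]; exact ⟨ha.2, ha.1⟩
  exact key.1

theorem alg_com_good (h : Good M π) {y : H →L[ℂ] H} (hy : (M.L 1).Com y) (g : Γ) :
    Commute (π g) y := by
  refine (alg_commute_adjoin ?_ ?_ (h.mem g)).symm
  · rintro s (⟨k, rfl⟩ | rfl)
    · exact hy.lam k
    · exact hy.f 1
  · rintro s (⟨k, rfl⟩ | rfl)
    · rw [(M.L 1).star_lam]; exact hy.lam _
    · rw [(M.L 1).res.star_eq]; exact hy.f 1

theorem good_lam (M : Model (Fin 2) Γ H) : Good M (M.L 1).lam := by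
  exact ⟨(M.L 1).star_lam, fun g => StarAlgebra.subset_adjoin ℂ _ (Or.inl ⟨g, rfl⟩)⟩

theorem Good.com (h : Good M π) (g : Γ) : (M.L 0).Com (π g) := by
  have hi := M.indep 0 1 (by decide)
  exact ⟨fun x => alg_com_good h (hi.f x) g, fun k => alg_com_good h (hi.lam k) g,
    fun k => alg_com_good h (hi.rho k) g⟩

theorem Good.comZ (h : Good M π) (g : Γ) : M.Z.Com (π g) := by
  have hi := (M.indepZ 1).symm
  exact ⟨fun x => alg_com_good h (hi.f x) g, fun k => alg_com_good h (hi.lam k) g,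
    fun k => alg_com_good h (hi.rho k) g⟩

theorem Good.mem_Eo (h : Good M π) (g : Γ) : π g ∈ Eo M := by
  refine StarAlgebra.adjoin_mono ?_ (h.mem g)
  rintro s (hs | hs)
  · exact Or.inl (Or.inl (Or.inr hs))
  · exact Or.inl (Or.inr hs)

/-- An operator commuting with the generators commutes with the ambient algebra. -/
theorem commute_Eo {y : H →L[ℂ] H} (h1 : ∀ g, Commute y ((M.L 0).lam g))
    (h2 : ∀ g, Commute y ((M.L 1).lam g)) (h3 : Commute y ((M.L 1).f 1))
    (h4 : ∀ n, Commute y (M.r n)) {e : H →L[ℂ] H} (he : e ∈ Eo M) : Commute y e := by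
  refine alg_commute_adjoin ?_ ?_ he
  · rintro s (((⟨k, rfl⟩ | ⟨k, rfl⟩) | rfl) | ⟨n, rfl⟩)
    · exact h1 k
    · exact h2 k
    · exact h3
    · exact h4 n
  · rintro s (((⟨k, rfl⟩ | ⟨k, rfl⟩) | rfl) | ⟨n, rfl⟩)
    · rw [(M.L 0).star_lam]; exact h1 _
    · rw [(M.L 1).star_lam]; exact h2 _
    · rw [(M.L 1).res.star_eq]; exact h3
    · rw [M.res_r.star_eq]; exact h4 n

theorem alg_r_Eo (n : ℤ) : M.r n ∈ Eo M := StarAlgebra.subset_adjoin ℂ _ (Or.inr ⟨n, rfl⟩)

theorem alg_lam_Eo (g : Γ) : (M.L 0).lam g ∈ Eo M :=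
  StarAlgebra.subset_adjoin ℂ _ (Or.inl (Or.inl (Or.inl ⟨g, rfl⟩)))

theorem alg_r_comm (n : ℤ) {e : H →L[ℂ] H} (he : e ∈ Eo M) : Commute (M.r n) e :=
  commute_Eo (fun g => (((M.indepZ 0).lam g).f _).symm) (fun g => (((M.indepZ 1).lam g).f _).symm)
    (((M.indepZ 1).f 1).f _).symm (fun m => M.res_r.commute n m) he

theorem alg_Jo_zero : (0 : H →L[ℂ] H) ∈ Jo M := ⟨zero_mem _, ∅, fun _ _ => zero_mul _⟩

theorem alg_Jo_add {j j' : H →L[ℂ] H} (h : j ∈ Jo M) (h' : j' ∈ Jo M) : j + j' ∈ Jo M := by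
  obtain ⟨h1, s, hs⟩ := h
  obtain ⟨h2, t, ht⟩ := h'
  refine ⟨add_mem h1 h2, s ∪ t, fun n hn => ?_⟩
  rw [Finset.mem_union, not_or] at hn
  rw [add_mul, hs n hn.1, ht n hn.2, add_zero]

theorem alg_Jo_left {e j : H →L[ℂ] H} (he : e ∈ Eo M) (h : j ∈ Jo M) : e * j ∈ Jo M := by
  obtain ⟨h1, s, hs⟩ := h
  exact ⟨mul_mem he h1, s, fun n hn => by rw [mul_assoc, hs n hn, mul_zero]⟩

theorem alg_Jo_right {e j : H →L[ℂ] H} (h : j ∈ Jo M) (he : e ∈ Eo M) : j * e ∈ Jo M := by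
  obtain ⟨h1, s, hs⟩ := h
  exact ⟨mul_mem h1 he, s, fun n hn => by
    rw [mul_assoc, ← (alg_r_comm n he).eq, ← mul_assoc, hs n hn, zero_mul]⟩

theorem alg_Jo_star {j : H →L[ℂ] H} (h : j ∈ Jo M) : star j ∈ Jo M := by
  obtain ⟨h1, s, hs⟩ := h
  refine ⟨star_mem h1, s, fun n hn => ?_⟩
  rw [← M.res_r.star_eq n, ← star_mul, (alg_r_comm n h1).eq, hs n hn, star_zero]

theorem alg_r_Jo (n : ℤ) : M.r n ∈ Jo M :=
  ⟨alg_r_Eo n, {n}, fun m hm => M.res_r.orth n m fun h => hm (Finset.mem_singleton.2 h.symm)⟩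

theorem alg_Jo_At (π : Γ →* (H →L[ℂ] H)) {j : H →L[ℂ] H} (h : j ∈ Jo M) : j ∈ At M π :=
  StarSubalgebra.le_topologicalClosure _ (StarAlgebra.subset_adjoin ℂ _ (Or.inr h))

theorem alg_Do_At (π : Γ →* (H →L[ℂ] H)) {c : H →L[ℂ] H} (h : c ∈ Do M π) : c ∈ At M π :=
  StarSubalgebra.le_topologicalClosure _ (StarAlgebra.adjoin_mono Set.subset_union_left h)

theorem alg_Do_Eo (h : Good M π) : Do M π ≤ Eo M := by
  refine StarAlgebra.adjoin_le ?_
  rintro _ ⟨g, rfl⟩
  exact mul_mem (alg_lam_Eo g) (h.mem_Eo g)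

theorem alg_adj_Eo (h : Good M π) :
    StarAlgebra.adjoin ℂ ((Set.range fun g => (M.L 0).lam g * π g) ∪ Jo M) ≤ Eo M := by
  refine StarAlgebra.adjoin_le ?_
  rintro _ (⟨g, rfl⟩ | hj)
  · exact mul_mem (alg_lam_Eo g) (h.mem_Eo g)
  · exact hj.1

theorem alg_At_sub (h : Good M π) :
    (At M π : Set (H →L[ℂ] H)) ⊆ closure (Eo M : Set (H →L[ℂ] H)) :=
  closure_mono (alg_adj_Eo h)

theorem alg_decomp (h : Good M π) {x : H →L[ℂ] H}
    (hx : x ∈ StarAlgebra.adjoin ℂ ((Set.range fun g => (M.L 0).lam g * π g) ∪ Jo M)) :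
    ∃ c ∈ Do M π, ∃ j ∈ Jo M, x = c + j := by
  induction hx using StarAlgebra.adjoin_induction with
  | mem x hx =>
    rcases hx with hx | hx
    · exact ⟨x, StarAlgebra.subset_adjoin ℂ _ hx, 0, alg_Jo_zero, (add_zero x).symm⟩
    · exact ⟨0, zero_mem _, x, hx, (zero_add x).symm⟩
  | algebraMap r => exact ⟨_, (Do M π).algebraMap_mem r, 0, alg_Jo_zero, (add_zero _).symm⟩
  | add a b _ _ ha hb =>
    obtain ⟨c, hc, j, hj, rfl⟩ := ha
    obtain ⟨c', hc', j', hj', rfl⟩ := hb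
    exact ⟨c + c', add_mem hc hc', j + j', alg_Jo_add hj hj', by abel⟩
  | mul a b _ _ ha hb =>
    obtain ⟨c, hc, j, hj, rfl⟩ := ha
    obtain ⟨c', hc', j', hj', rfl⟩ := hb
    refine ⟨c * c', mul_mem hc hc', c * j' + j * (c' + j'),
      alg_Jo_add (alg_Jo_left (alg_Do_Eo h hc) hj')
        (alg_Jo_right hj (add_mem (alg_Do_Eo h hc') hj'.1)), ?_⟩
    rw [add_mul, mul_add c, add_assoc]
  | star a _ ha =>
    obtain ⟨c, hc, j, hj, rfl⟩ := ha
    exact ⟨star c, star_mem hc, star j, alg_Jo_star hj, star_add c j⟩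

theorem r_mem_At (π : Γ →* (H →L[ℂ] H)) (n : ℤ) : M.r n ∈ At M π := by
  exact alg_Jo_At π (alg_r_Jo n)

theorem tau_mem_At (π : Γ →* (H →L[ℂ] H)) (g : Γ) : (M.L 0).lam g * π g ∈ At M π := by
  exact alg_Do_At π (StarAlgebra.subset_adjoin ℂ _ ⟨g, rfl⟩)

theorem At_approx (h : Good M π) {x : H →L[ℂ] H} (hx : x ∈ At M π) {η : ℝ} (hη : 0 < η) :
    ∃ c ∈ Do M π, ∃ j ∈ Jo M, ‖x - (c + j)‖ < η := by
  obtain ⟨y, hy, hd⟩ := Metric.mem_closure_iff.1 hx η hη
  obtain ⟨c, hc, j, hj, rfl⟩ := alg_decomp h hy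
  exact ⟨c, hc, j, hj, by rwa [dist_eq_norm] at hd⟩

theorem At_closed (π : Γ →* (H →L[ℂ] H)) : IsClosed (At M π : Set (H →L[ℂ] H)) := by
  exact StarSubalgebra.isClosed_topologicalClosure _

theorem alg_sep {S : Set (H →L[ℂ] H)} (hS : S.Countable) :
    TopologicalSpace.IsSeparable (StarAlgebra.adjoin ℂ S : Set (H →L[ℂ] H)) := by
  have h1 : (S ∪ star S).Countable :=
    hS.union (hS.preimage_of_injOn star_injective.injOn)
  have h2 : (Submonoid.closure (S ∪ star S) : Set (H →L[ℂ] H)).Countable := by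
    have := h1.to_subtype
    rw [Submonoid.closure_eq_mrange, MonoidHom.coe_mrange]
    exact Set.countable_range _
  have h3 := h2.isSeparable.span (R := ℂ)
  rw [← StarAlgebra.adjoin_eq_span] at h3
  exact h3

theorem At_sep [Countable Γ] (h : Good M π) :
    TopologicalSpace.IsSeparable (At M π : Set (H →L[ℂ] H)) := by
  refine (alg_sep ?_).closure.mono (alg_At_sub h)
  exact (((Set.countable_range _).union (Set.countable_range _)).union
    (Set.countable_singleton _)).union (Set.countable_range _)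

theorem centralizer_At (h : Good M π) :
    Set.centralizer (At M π : Set (H →L[ℂ] H)) = Set.centralizer (Eo M : Set (H →L[ℂ] H)) := by
  ext y
  simp only [Set.mem_centralizer_iff]
  constructor
  · intro hy e he
    refine M.res_r.ext fun n => ?_
    have h1 := hy _ (r_mem_At π n)
    have h2 := hy _ (alg_Jo_At π (alg_Jo_left he (alg_r_Jo n)))
    rw [mul_assoc, ← h1, ← mul_assoc, h2, mul_assoc]
  · intro hy a ha
    have hc : IsClosed {a : H →L[ℂ] H | a * y = y * a} :=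
      isClosed_eq (continuous_mul_const y) (continuous_const_mul y)
    exact closure_minimal (fun e he => hy e he) hc (alg_At_sub h ha)

theorem alg_Do_comZ (h : Good M π) {c : H →L[ℂ] H} (hc : c ∈ Do M π) : M.Z.Com c := by
  have key : ∀ y : H →L[ℂ] H, (∀ g, Commute ((M.L 0).lam g) y) → (∀ g, Commute (π g) y) →
      Commute c y := by
    intro y h1 h2
    refine (alg_commute_adjoin ?_ ?_ hc).symm
    · rintro _ ⟨g, rfl⟩
      exact ((h1 g).mul_left (h2 g)).symm
    · rintro _ ⟨g, rfl⟩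
      rw [star_mul, h.star_eq, (M.L 0).star_lam]
      exact ((h2 _).mul_left (h1 _)).symm
  exact ⟨fun x => key _ (fun g => ((M.indepZ 0).lam g).f x) fun g => (h.comZ g).f x,
    fun k => key _ (fun g => ((M.indepZ 0).lam g).lam k) fun g => (h.comZ g).lam k,
    fun k => key _ (fun g => ((M.indepZ 0).lam g).rho k) fun g => (h.comZ g).rho k⟩

theorem alg_unitary (h : Good M π) (h' : Good M π') {κ : ℝ} (hκ : ∀ g, ‖π g - π' g‖ ≤ κ) :
    ∃ U ∈ unitary (H →L[ℂ] H), ‖U - 1‖ ≤ κ ∧ ∀ c ∈ Do M π, U * c * star U ∈ Do M π' := by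
  have hκ0 : 0 ≤ κ := (norm_nonneg _).trans (hκ 1)
  obtain ⟨hW, hWl⟩ := (M.L 0).fell h.star_eq (fun g x => (h.com g).f x) fun g k => (h.com g).lam k
  obtain ⟨hW', hWl'⟩ :=
    (M.L 0).fell h'.star_eq (fun g x => (h'.com g).f x) fun g k => (h'.com g).lam k
  have hd := (M.L 0).res.norm_bsum_sub ((M.L 0).blk_rep h'.star_eq fun g x => (h'.com g).f x)
    ((M.L 0).blk_rep h.star_eq fun g x => (h.com g).f x) (y := 1) (fun i => Commute.one_left _) hκ0
    (fun g => by rw [mul_one, one_mul, norm_sub_rev]; exact hκ g)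
  rw [mul_one, one_mul] at hd
  generalize bsum (M.L 0).f π = W at hW hWl hd
  generalize bsum (M.L 0).f π' = W' at hW' hWl' hd
  have hU : W' * star W ∈ unitary (H →L[ℂ] H) := mul_mem hW' (Unitary.star_mem hW)
  have e1 : star W * W = 1 := hW.1
  have e2 : W * star W = 1 := hW.2
  refine ⟨W' * star W, hU, ?_, ?_⟩
  · rw [← e2, ← sub_mul]
    calc _ ≤ ‖W' - W‖ * ‖star W‖ := norm_mul_le _ _
      _ ≤ κ * 1 := mul_le_mul hd (unitary_norm_le (Unitary.star_mem hW)) (norm_nonneg _) hκ0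
      _ = κ := mul_one κ
  · have hgen : ∀ g, W' * star W * ((M.L 0).lam g * π g) * star (W' * star W) =
        (M.L 0).lam g * π' g := by
      intro g
      rw [← hWl g, ← hWl' g, star_mul, star_star]
      calc _ = W' * (star W * W) * (M.L 0).lam g * (star W * W) * star W' := by
            simp only [mul_assoc]
        _ = _ := by rw [e1, mul_one, mul_one]
    generalize W' * star W = U at hU hgen
    have u1 : star U * U = 1 := hU.1
    have u2 : U * star U = 1 := hU.2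
    intro c hc
    induction hc using StarAlgebra.adjoin_induction with
    | mem x hx =>
      obtain ⟨g, rfl⟩ := hx
      rw [hgen]
      exact StarAlgebra.subset_adjoin ℂ _ ⟨g, rfl⟩
    | algebraMap r =>
      rw [← Algebra.commutes, mul_assoc, u2, mul_one]
      exact (Do M π').algebraMap_mem r
    | add a b _ _ ha hb => rw [mul_add, add_mul]; exact add_mem ha hb
    | mul a b _ _ ha hb =>
      have : U * (a * b) * star U = U * a * star U * (U * b * star U) := by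
        calc _ = U * a * (star U * U) * b * star U := by rw [u1, mul_one]; simp only [mul_assoc]
          _ = _ := by simp only [mul_assoc]
      rw [this]; exact mul_mem ha hb
    | star a _ ha =>
      have : U * star a * star U = star (U * a * star U) := by
        rw [star_mul, star_mul, star_star, mul_assoc]
      rw [this]; exact star_mem ha

theorem At_close (h : Good M π) (h' : Good M π') {κ ε : ℝ} (hκ : ∀ g, ‖π g - π' g‖ ≤ κ)
    (hε : 4 * κ < ε) {a : H →L[ℂ] H} (ha : a ∈ At M π) (ha1 : ‖a‖ ≤ 1) :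
    ∃ b ∈ At M π', ‖b‖ ≤ 1 ∧ ‖a - b‖ < ε := by
  have hκ0 : 0 ≤ κ := (norm_nonneg _).trans (hκ 1)
  obtain ⟨U, hU, hU1, hUc⟩ := alg_unitary h h' hκ
  obtain ⟨η, hη⟩ : ∃ η, η = (ε - 4 * κ) / (4 * (1 + 2 * κ)) := ⟨_, rfl⟩
  have hη0 : 0 < η := by rw [hη]; exact div_pos (by linarith) (by positivity)
  have hη1 : η * (4 * (1 + 2 * κ)) = ε - 4 * κ := by rw [hη]; field_simp
  obtain ⟨c, hc, j, hj, hd⟩ := At_approx h ha hη0
  have n1 : ‖c + j‖ ≤ 1 + η := by
    have := norm_sub_norm_le (c + j) a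
    rw [norm_sub_rev] at this
    linarith
  have n2 : ‖c‖ ≤ 1 + η := by
    obtain ⟨s, hs⟩ := hj.2
    obtain ⟨n, hn⟩ := Infinite.exists_notMem_finset s
    have e : c * M.r n = (c + j) * M.r n := by rw [add_mul, hs n hn, add_zero]
    calc ‖c‖ ≤ ‖c * M.r n‖ := M.norm_le_block (alg_Do_comZ h hc) n
      _ ≤ ‖c + j‖ * ‖M.r n‖ := by rw [e]; exact norm_mul_le _ _
      _ ≤ (1 + η) * 1 := mul_le_mul n1 (M.res_r.norm_le_one n) (norm_nonneg _) (by linarith)
      _ = 1 + η := mul_one _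
  have n3 : ‖U * c * star U - c‖ ≤ 2 * κ * (1 + η) := by
    have := norm_conj_sub (x := c) hU (one_mem _)
    rw [one_mul, star_one, mul_one] at this
    exact this.trans (by gcongr)
  obtain ⟨θ, hθ⟩ : ∃ θ, θ = η + 2 * κ * (1 + η) := ⟨_, rfl⟩
  have hθ0 : 0 < θ := by rw [hθ]; positivity
  have hy : U * c * star U + j ∈ At M π' := add_mem (alg_Do_At π' (hUc c hc)) (alg_Jo_At π' hj)
  have n4 : ‖a - (U * c * star U + j)‖ ≤ θ := by
    have e : a - (U * c * star U + j) = (a - (c + j)) - (U * c * star U - c) := by abel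
    rw [e]
    exact (norm_sub_le _ _).trans (by linarith)
  generalize U * c * star U + j = y at hy n4
  have n5 : ‖y‖ ≤ 1 + θ := by
    have := norm_sub_norm_le y a
    rw [norm_sub_rev] at this
    linarith
  have p0 : 0 < 1 + θ := by linarith
  have hn : ∀ t : ℝ, 0 ≤ t → ‖(t : ℂ) • y‖ ≤ t * (1 + θ) := fun t ht => by
    rw [norm_smul, Complex.norm_real, Real.norm_of_nonneg ht]
    exact mul_le_mul_of_nonneg_left n5 ht
  refine ⟨(((1 + θ)⁻¹ : ℝ) : ℂ) • y, SMulMemClass.smul_mem _ hy, ?_, ?_⟩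
  · exact (hn _ (by positivity)).trans (inv_mul_cancel₀ p0.ne').le
  · have e : a - (((1 + θ)⁻¹ : ℝ) : ℂ) • y = (a - y) + ((θ / (1 + θ) : ℝ) : ℂ) • y := by
      have : θ / (1 + θ) = 1 - (1 + θ)⁻¹ := by field_simp; ring
      rw [this, Complex.ofReal_sub, sub_smul, Complex.ofReal_one, one_smul]
      abel
    have n6 := hn (θ / (1 + θ)) (by positivity)
    rw [div_mul_cancel₀ _ p0.ne'] at n6
    rw [e]
    refine (norm_add_le _ _).trans_lt ?_
    nlinarith [mul_nonneg hκ0 hη0.le]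

end Crest.Agent.R078X
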