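import Crest.Agent.R078X.Res

/-! Row 78 (X): tree representations and the uniform Lipschitz estimate. -/

set_option autoImplicit false

open scoped InnerProductSpace

namespace Crest.Agent.R078X

variable {H : Type*} [NormedAddCommGroup H] [InnerProductSpace ℂ H] [CompleteSpace H]

variable {σ : Type*} {T : Leg (FreeGroup σ) H}

section Alg

variable {a : H →L[ℂ] H} {w : ℝ}

theorem TreePar.star (h : TreePar T a w) : TreePar T (star a) w where
  comm_p := by simpa [T.res.star_eq] using h.comm_p.star_star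
  comm_lam g := by simpa [T.star_lam] using (h.comm_lam g⁻¹).star_star
  star_mul_self := by rw [star_star, h.self_mul_star]
  self_mul_star := by rw [star_star, h.star_mul_self]
  norm_le := by rw [norm_star]; exact h.norm_le
  w_nonneg := h.w_nonneg
  w_le := h.w_le

theorem tree_star_rot (h : TreePar T a w) (g : FreeGroup σ) :
    star (rot (T.f 1) (T.lam g) a w) = rot (T.f 1) (T.lam g⁻¹) (star a) w := by
  have e1 : T.f 1 * star a = star a * T.f 1 := h.star.comm_p.eq.symm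
  have e2 : T.lam g⁻¹ * (T.f 1 * T.lam g⁻¹) * a = a * (T.lam g⁻¹ * T.f 1 * T.lam g⁻¹) := by
    rw [← mul_assoc]
    exact (((h.comm_lam _).mul_right h.comm_p).mul_right (h.comm_lam _)).eq.symm
  simp only [rot, star_sub, star_add, star_smul, star_mul, star_star, T.star_lam, T.res.star_eq,
    Complex.star_def, Complex.conj_ofReal, e1, e2]
  rw [add_comm (T.lam g⁻¹ * T.f 1)]

/-- left multiplication of the rotation by `p λ_y`. -/
theorem tree_left (h : TreePar T a w) (y g : FreeGroup σ) :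
    T.f 1 * T.lam y * rot (T.f 1) (T.lam g) a w =
      T.f 1 * T.lam (y * g) - ((1 - w : ℝ) : ℂ) •
        (T.f 1 * T.lam y * T.f 1 * T.lam g + T.f 1 * T.lam (y * g) * T.f 1) +
        a * (T.f 1 * T.lam y * T.f 1) - star a * (T.f 1 * T.lam (y * g) * T.f 1 * T.lam g) := by
  have e1 : T.f 1 * T.lam y * (a * T.f 1) = a * (T.f 1 * T.lam y * T.f 1) := by
    rw [← mul_assoc, ← (h.comm_p.mul_right (h.comm_lam y)).eq, mul_assoc]
  have e2 : T.f 1 * T.lam y * (star a * (T.lam g * T.f 1 * T.lam g)) =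
      star a * (T.f 1 * T.lam (y * g) * T.f 1 * T.lam g) := by
    rw [← mul_assoc, ← (h.star.comm_p.mul_right (h.star.comm_lam y)).eq, map_mul]
    simp only [mul_assoc]
  rw [rot, mul_sub, mul_add, mul_sub, e1, e2, mul_smul_comm, mul_add, map_mul]
  simp only [mul_assoc]

theorem tree_far (h : TreePar T a w) {y g : FreeGroup σ} (hy : y ≠ 1) (hyg : y * g ≠ 1) :
    T.f 1 * T.lam y * rot (T.f 1) (T.lam g) a w = T.f 1 * T.lam (y * g) := by
  rw [tree_left h, T.f_lam_f hy, T.f_lam_f hyg]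
  simp

theorem tree_p (h : TreePar T a w) {g : FreeGroup σ} (hg : g ≠ 1) :
    T.f 1 * rot (T.f 1) (T.lam g) a w = (w : ℂ) • (T.f 1 * T.lam g) + a * T.f 1 := by
  have := tree_left h 1 g
  simp only [map_one, mul_one, one_mul, T.f_lam_f hg, T.res.mul_self, zero_mul, mul_zero] at this
  rw [this]
  push_cast
  module

theorem tree_pl (h : TreePar T a w) {g : FreeGroup σ} (hg : g ≠ 1) :
    T.f 1 * T.lam g⁻¹ * rot (T.f 1) (T.lam g) a w =
      (w : ℂ) • T.f 1 - star a * (T.f 1 * T.lam g) := by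
  have := tree_left h g⁻¹ g
  simp only [inv_mul_cancel, map_one, mul_one, T.f_lam_f (inv_ne_one.2 hg), T.res.mul_self,
    zero_mul, mul_zero] at this
  rw [this]
  push_cast
  module

theorem tree_rot_mul (h : TreePar T a w) {g : FreeGroup σ} (hg : g ≠ 1) :
    rot (T.f 1) (T.lam g⁻¹) (star a) w * rot (T.f 1) (T.lam g) a w = 1 := by
  have e0 : T.lam g⁻¹ * T.lam g = 1 := by rw [← map_mul, inv_mul_cancel, map_one]
  have e1 : T.lam g⁻¹ * rot (T.f 1) (T.lam g) a w =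
      1 - ((1 - w : ℝ) : ℂ) • (T.lam g⁻¹ * (T.f 1 * T.lam g) + T.f 1) +
        a * (T.lam g⁻¹ * T.f 1) - star a * (T.f 1 * T.lam g) := by
    have a1 : T.lam g⁻¹ * (a * T.f 1) = a * (T.lam g⁻¹ * T.f 1) := by
      rw [← mul_assoc, ← (h.comm_lam _).eq, mul_assoc]
    have a2 : T.lam g⁻¹ * (star a * (T.lam g * T.f 1 * T.lam g)) =
        star a * (T.f 1 * T.lam g) := by
      rw [← mul_assoc, ← (h.star.comm_lam _).eq, mul_assoc, mul_assoc, ← mul_assoc (T.lam g⁻¹), e0,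
        one_mul]
    rw [rot, mul_sub, mul_add, mul_sub, a1, a2, mul_smul_comm, mul_add, e0,
      ← mul_assoc (T.lam g⁻¹) (T.lam g), e0, one_mul]
  have e2 := tree_p h hg
  have e3 := tree_pl h hg
  have a3 : star a * (a * T.f 1) = ((1 - w ^ 2 : ℝ) : ℂ) • T.f 1 := by
    rw [← mul_assoc, h.star_mul_self, smul_mul_assoc, one_mul]
  have a4 : a * (T.lam g⁻¹ * (star a * (T.f 1 * T.lam g))) =
      ((1 - w ^ 2 : ℝ) : ℂ) • (T.lam g⁻¹ * (T.f 1 * T.lam g)) := by
    rw [← mul_assoc (T.lam g⁻¹), ← (h.star.comm_lam _).eq, mul_assoc, ← mul_assoc a,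
      h.self_mul_star, smul_mul_assoc, one_mul]
  have a5 : T.lam g⁻¹ * (a * T.f 1) = a * (T.lam g⁻¹ * T.f 1) := by
    rw [← mul_assoc, ← (h.comm_lam _).eq, mul_assoc]
  generalize rot (T.f 1) (T.lam g) a w = R at *
  have : rot (T.f 1) (T.lam g⁻¹) (star a) w * R = T.lam g⁻¹ * R - ((1 - w : ℝ) : ℂ) •
      (T.f 1 * T.lam g⁻¹ * R + T.lam g⁻¹ * (T.f 1 * R)) + star a * (T.f 1 * R) -
      a * (T.lam g⁻¹ * (T.f 1 * T.lam g⁻¹ * R)) := by
    simp only [rot, sub_mul, add_mul, smul_mul_assoc, star_star, mul_assoc]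
  rw [this, e1, e2, e3]
  simp only [mul_add, mul_sub, mul_smul_comm, a3, a4, a5]
  push_cast
  module

theorem tree_rot_unitary (h : TreePar T a w) {g : FreeGroup σ} (hg : g ≠ 1) :
    rot (T.f 1) (T.lam g) a w ∈ unitary (H →L[ℂ] H) := by
  rw [Unitary.mem_iff, tree_star_rot h]
  refine ⟨tree_rot_mul h hg, ?_⟩
  simpa using tree_rot_mul h.star (inv_ne_one.2 hg)

end Alg

theorem exists_tree {a : H →L[ℂ] H} {w : ℝ} (h : TreePar T a w) : ∃ α, IsTree T a w α := by
  classical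
  let F : σ → unitary (H →L[ℂ] H) := fun s =>
    ⟨_, tree_rot_unitary h (FreeGroup.of_ne_one s)⟩
  refine ⟨(unitary (H →L[ℂ] H)).subtype.comp (FreeGroup.lift F), h, fun g => ?_, fun s => ?_⟩
  · simp only [MonoidHom.comp_apply, map_inv, Submonoid.subtype_apply]
    rfl
  · simp [F]

theorem isTree_zero (T : Leg (FreeGroup σ) H) : IsTree T 0 1 T.lam where
  par := ⟨Commute.zero_left _, fun _ => Commute.zero_left _, by simp, by simp, by simp,
    zero_le_one, le_rfl⟩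
  star_eq := T.star_lam
  of_eq s := by simp [rot]

theorem treePar_unitary {U : H →L[ℂ] H} (hU : U ∈ unitary (H →L[ℂ] H)) (h1 : Commute U (T.f 1))
    (h2 : ∀ g, Commute U (T.lam g)) : TreePar T ((1 / 2 : ℂ) • U) (√3 / 2) := by
  have e : ((1 - (√3 / 2) ^ 2 : ℝ) : ℂ) = star (1 / 2 : ℂ) * (1 / 2 : ℂ) := by
    rw [div_pow, Real.sq_sqrt (by norm_num)]
    simp only [one_div, star_inv₀, star_ofNat]
    push_cast
    norm_num
  have h3 : √3 ≤ 2 := Real.sqrt_le_iff.2 ⟨by norm_num, by norm_num⟩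
  refine ⟨h1.smul_left _, fun g => (h2 g).smul_left _, ?_, ?_, ?_, by positivity, by linarith⟩
  · rw [star_smul, smul_mul_smul_comm, (Unitary.mem_iff.1 hU).1, e]
  · rw [star_smul, smul_mul_smul_comm, (Unitary.mem_iff.1 hU).2, e, mul_comm]
  · rw [norm_smul]
    have := unitary_norm_le hU
    simp only [one_div, norm_inv, Complex.norm_ofNat]
    linarith

theorem treePar_scalar (T : Leg (FreeGroup σ) H) {t : ℝ} (h0 : 0 ≤ t) (h1 : t ≤ 1 / 2) :
    TreePar T ((t : ℂ) • (1 : H →L[ℂ] H)) (√(1 - t ^ 2)) := by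
  have h2 : 0 ≤ 1 - t ^ 2 := by nlinarith
  have e : ((1 - √(1 - t ^ 2) ^ 2 : ℝ) : ℂ) = (t : ℂ) * t := by
    rw [Real.sq_sqrt h2]
    push_cast
    ring
  refine ⟨(Commute.one_left _).smul_left _, fun g => (Commute.one_left _).smul_left _, ?_, ?_, ?_,
    Real.sqrt_nonneg _, Real.sqrt_le_one.2 (by nlinarith)⟩
  · rw [e, star_smul, star_one, smul_mul_smul_comm, one_mul, Complex.star_def,
      Complex.conj_ofReal]
  · rw [e, star_smul, star_one, smul_mul_smul_comm, one_mul, Complex.star_def,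
      Complex.conj_ofReal]
  · have h1 : ‖(1 : H →L[ℂ] H)‖ ≤ 1 := ContinuousLinearMap.norm_id_le
    rw [norm_smul, Complex.norm_real, Real.norm_of_nonneg h0]
    nlinarith

/-- the parameter of a letter -/
noncomputable def treeLa (a : H →L[ℂ] H) (b : Bool) : H →L[ℂ] H := if b then a else star a

theorem TreePar.la {a : H →L[ℂ] H} {w : ℝ} (h : TreePar T a w) (b : Bool) :
    TreePar T (treeLa a b) w := by
  cases b
  · exact h.star
  · exact h

theorem tree_mk_ne_one {l : List (σ × Bool)} (hl : FreeGroup.IsReduced l) (h : l ≠ []) :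
    FreeGroup.mk l ≠ 1 := by
  classical
  intro e
  have := congrArg FreeGroup.toWord e
  rw [FreeGroup.toWord_mk, hl.reduce_eq, FreeGroup.toWord_one] at this
  exact h this

theorem tree_letter_ne (x : σ × Bool) : FreeGroup.mk [x] ≠ 1 :=
  tree_mk_ne_one FreeGroup.IsReduced.singleton (by simp)

/-- the energy along a word -/
noncomputable def treeEn (T : Leg (FreeGroup σ) H) (α : FreeGroup σ →* (H →L[ℂ] H)) (ξ : H) :
    List (σ × Bool) → ℝ
  | [] => 0
  | x :: l => treeEn T α ξ l + (‖T.f 1 (α (FreeGroup.mk l) ξ)‖ ^ 2 +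
      ‖(T.f 1 * T.lam (FreeGroup.mk [x])) (α (FreeGroup.mk l) ξ)‖ ^ 2)

theorem tree_norm_p {a : H →L[ℂ] H} {w : ℝ} (h : TreePar T a w) {g : FreeGroup σ} (hg : g ≠ 1)
    (ζ : H) : ‖T.f 1 (rot (T.f 1) (T.lam g) a w ζ)‖ ≤
      ‖(T.f 1 * T.lam g) ζ‖ + 1 / 2 * ‖T.f 1 ζ‖ := by
  rw [← mul_apply_eq_comp, tree_p h hg, add_apply,
    smul_apply]
  refine (norm_add_le _ _).trans (add_le_add ?_ ?_)
  · rw [norm_smul, Complex.norm_real, Real.norm_of_nonneg h.w_nonneg]
    exact mul_le_of_le_one_left (norm_nonneg _) h.w_le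
  · exact (a.le_opNorm _).trans (mul_le_mul_of_nonneg_right h.norm_le (norm_nonneg _))

theorem tree_norm_pl {a : H →L[ℂ] H} {w : ℝ} (h : TreePar T a w) {g : FreeGroup σ} (hg : g ≠ 1)
    (ζ : H) : ‖(T.f 1 * T.lam g⁻¹) (rot (T.f 1) (T.lam g) a w ζ)‖ ≤
      ‖T.f 1 ζ‖ + 1 / 2 * ‖(T.f 1 * T.lam g) ζ‖ := by
  rw [← mul_apply_eq_comp, tree_pl h hg, sub_apply,
    smul_apply]
  refine (norm_sub_le _ _).trans (add_le_add ?_ ?_)
  · rw [norm_smul, Complex.norm_real, Real.norm_of_nonneg h.w_nonneg]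
    exact mul_le_of_le_one_left (norm_nonneg _) h.w_le
  · exact ((star a).le_opNorm _).trans
      (mul_le_mul_of_nonneg_right h.star.norm_le (norm_nonneg _))

theorem tree_inner_le (X e Y : H →L[ℂ] H) (ζ ξ : H) {d : ℝ} (he : ‖e‖ ≤ d) :
    ‖⟪ζ, (star X * e * Y) ξ⟫_ℂ‖ ≤ d * (‖X ζ‖ * ‖Y ξ‖) := by
  rw [mul_apply_eq_comp, mul_apply_eq_comp,
    ContinuousLinearMap.star_eq_adjoint, ContinuousLinearMap.adjoint_inner_right]
  calc _ ≤ ‖X ζ‖ * ‖e (Y ξ)‖ := norm_inner_le_norm _ _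
    _ ≤ ‖X ζ‖ * (d * ‖Y ξ‖) := by
      gcongr
      exact (e.le_opNorm _).trans (mul_le_mul_of_nonneg_right he (norm_nonneg _))
    _ = _ := by ring

/-- the one-step estimate -/
theorem tree_step {a a' : H →L[ℂ] H} {w w' : ℝ} (h : TreePar T a w) (h' : TreePar T a' w')
    {y : H →L[ℂ] H} (hp : Commute y (T.f 1)) (hl : ∀ g, Commute y (T.lam g)) {d : ℝ}
    (h1 : ‖a * y - y * a'‖ ≤ d) (h2 : ‖star a * y - y * star a'‖ ≤ d)
    (h3 : |w - w'| * ‖y‖ ≤ d) {g : FreeGroup σ} (hg : g ≠ 1) (η ξ : H) :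
    ‖⟪rot (T.f 1) (T.lam g) a w η,
        (rot (T.f 1) (T.lam g) a w * y - y * rot (T.f 1) (T.lam g) a' w') ξ⟫_ℂ‖ ≤
      2 * d * ((‖T.f 1 η‖ ^ 2 + ‖(T.f 1 * T.lam g) η‖ ^ 2) +
        (‖T.f 1 ξ‖ ^ 2 + ‖(T.f 1 * T.lam g) ξ‖ ^ 2)) := by
  have hd : 0 ≤ d := (norm_nonneg _).trans h1
  have hc : ‖((w - w' : ℝ) : ℂ) • y‖ ≤ d := by
    rwa [norm_smul, Complex.norm_real, Real.norm_eq_abs]
  have pp := T.res.mul_self 1
  have e : rot (T.f 1) (T.lam g) a w * y - y * rot (T.f 1) (T.lam g) a' w' =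
      star (T.f 1) * (((w - w' : ℝ) : ℂ) • y) * (T.f 1 * T.lam g) +
      star (T.f 1 * T.lam g⁻¹) * (((w - w' : ℝ) : ℂ) • y) * T.f 1 +
      star (T.f 1) * (a * y - y * a') * T.f 1 -
      star (T.f 1 * T.lam g⁻¹) * (star a * y - y * star a') * (T.f 1 * T.lam g) := by
    have c1 : Commute (a * y - y * a') (T.f 1) :=
      (h.comm_p.mul_left hp).sub_left (hp.mul_left h'.comm_p)
    have c2 : Commute (star a * y - y * star a') (T.lam g * T.f 1) :=
      (((h.star.comm_lam g).mul_right h.star.comm_p).mul_left ((hl g).mul_right hp)).sub_left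
        (((hl g).mul_right hp).mul_left ((h'.star.comm_lam g).mul_right h'.star.comm_p))
    have b1 : T.f 1 * y * (T.f 1 * T.lam g) = y * (T.f 1 * T.lam g) := by
      rw [← hp.eq, mul_assoc, ← mul_assoc (T.f 1), pp]
    have b2 : T.lam g * T.f 1 * y * T.f 1 = y * (T.lam g * T.f 1) := by
      rw [← ((hl g).mul_right hp).eq, mul_assoc, mul_assoc, pp]
    have b3 : T.f 1 * (a * y - y * a') * T.f 1 = (a * y - y * a') * T.f 1 := by
      rw [← c1.eq, mul_assoc, pp]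
    have b4 : T.lam g * T.f 1 * (star a * y - y * star a') * (T.f 1 * T.lam g) =
        (star a * y - y * star a') * (T.lam g * T.f 1 * T.lam g) := by
      rw [← c2.eq, mul_assoc, mul_assoc (T.lam g), ← mul_assoc (T.f 1), pp, mul_assoc (T.lam g)]
    have b5 : (T.f 1 * T.lam g + T.lam g * T.f 1) * y = y * (T.f 1 * T.lam g + T.lam g * T.f 1) :=
      ((hp.mul_right (hl g)).add_right ((hl g).mul_right hp)).eq.symm
    have b6 : a * T.f 1 * y = a * y * T.f 1 := by rw [mul_assoc, ← hp.eq, mul_assoc]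
    have b7 : star a * (T.lam g * T.f 1 * T.lam g) * y =
        star a * y * (T.lam g * T.f 1 * T.lam g) := by
      rw [mul_assoc, ← (((hl g).mul_right hp).mul_right (hl g)).eq, mul_assoc (star a)]
    rw [star_mul, T.star_lam, inv_inv, T.res.star_eq, mul_smul_comm, smul_mul_assoc,
      mul_smul_comm, smul_mul_assoc, b1, b2, b3, b4, rot, rot]
    rw [sub_mul, add_mul, sub_mul, smul_mul_assoc, b5, b6, b7, ← (hl g).eq]
    simp only [sub_mul, mul_sub, mul_add, mul_smul_comm, ← mul_assoc]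
    push_cast
    module
  have n1 := tree_norm_p h hg η
  have n2 := tree_norm_pl h hg η
  generalize rot (T.f 1) (T.lam g) a w η = ζ at *
  rw [e]
  simp only [add_apply, sub_apply, inner_add_right,
    inner_sub_right]
  have t1 := tree_inner_le (T.f 1) _ (T.f 1 * T.lam g) ζ ξ hc
  have t2 := tree_inner_le (T.f 1 * T.lam g⁻¹) _ (T.f 1) ζ ξ hc
  have t3 := tree_inner_le (T.f 1) _ (T.f 1) ζ ξ h1
  have t4 := tree_inner_le (T.f 1 * T.lam g⁻¹) _ (T.f 1 * T.lam g) ζ ξ h2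
  refine (norm_sub_le_of_le (norm_add_le_of_le (norm_add_le_of_le t1 t2) t3) t4).trans ?_
  have p1 := norm_nonneg (T.f 1 η)
  have p2 := norm_nonneg ((T.f 1 * T.lam g) η)
  have p3 := norm_nonneg (T.f 1 ξ)
  have p4 := norm_nonneg ((T.f 1 * T.lam g) ξ)
  generalize ‖T.f 1 η‖ = x1 at *
  generalize ‖(T.f 1 * T.lam g) η‖ = y1 at *
  generalize ‖T.f 1 ξ‖ = x2 at *
  generalize ‖(T.f 1 * T.lam g) ξ‖ = y2 at *
  generalize ‖T.f 1 ζ‖ = A at *
  generalize ‖(T.f 1 * T.lam g⁻¹) ζ‖ = B at *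
  have k1 : (A + B) * (x2 + y2) ≤ 2 * (x1 + y1) * (x2 + y2) :=
    mul_le_mul_of_nonneg_right (by linarith) (by linarith)
  have k2 : (A + B) * (x2 + y2) ≤ 2 * ((x1 ^ 2 + y1 ^ 2) + (x2 ^ 2 + y2 ^ 2)) := by
    nlinarith [sq_nonneg (x1 - y1), sq_nonneg (x2 - y2), sq_nonneg (x1 + y1 - x2 - y2)]
  nlinarith [mul_le_mul_of_nonneg_left k2 hd]

namespace IsTree

variable {a a' : H →L[ℂ] H} {w w' : ℝ} {α α' : FreeGroup σ →* (H →L[ℂ] H)}

theorem letter (h : IsTree T a w α) (x : σ × Bool) :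
    α (FreeGroup.mk [x]) = rot (T.f 1) (T.lam (FreeGroup.mk [x])) (treeLa a x.2) w := by
  obtain ⟨s, b⟩ := x
  cases b
  · change α (FreeGroup.of s)⁻¹ = rot _ (T.lam (FreeGroup.of s)⁻¹) (star a) w
    rw [← h.star_eq, h.of_eq, tree_star_rot h.par]
  · exact h.of_eq s

omit [CompleteSpace H] in
theorem cons (α : FreeGroup σ →* (H →L[ℂ] H)) (x : σ × Bool) (l : List (σ × Bool)) :
    α (FreeGroup.mk (x :: l)) = α (FreeGroup.mk [x]) * α (FreeGroup.mk l) := by
  rw [← map_mul, FreeGroup.mul_mk, List.singleton_append]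

theorem far (h : IsTree T a w α) (l m : List (σ × Bool)) (hm : m ≠ [])
    (hr : FreeGroup.IsReduced (m ++ l)) :
    T.f 1 * T.lam (FreeGroup.mk m) * α (FreeGroup.mk l) = T.f 1 * T.lam (FreeGroup.mk (m ++ l)) := by
  induction l generalizing m with
  | nil => rw [← FreeGroup.one_eq_mk, map_one, mul_one, List.append_nil]
  | cons x l ih =>
    have e : m ++ x :: l = (m ++ [x]) ++ l := by simp
    have h1 : FreeGroup.mk m ≠ 1 := tree_mk_ne_one (hr.infix ⟨[], x :: l, by simp⟩) hm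
    have h2 : FreeGroup.mk m * FreeGroup.mk [x] ≠ 1 := by
      rw [FreeGroup.mul_mk]
      exact tree_mk_ne_one (hr.infix ⟨[], l, by simp⟩) (by simp)
    rw [cons α, ← mul_assoc, h.letter, tree_far (h.par.la _) h1 h2, FreeGroup.mul_mk, e]
    exact ih _ (by simp) (e ▸ hr)

theorem en_aux [DecidableEq σ] (h : IsTree T a w α) (ξ : H) (l : List (σ × Bool))
    (hr : FreeGroup.IsReduced l) :
    ∃ S : Finset (FreeGroup σ), (∀ g ∈ S, FreeGroup.norm g ≤ l.length) ∧
      treeEn T α ξ l + 2 * ‖T.f 1 (α (FreeGroup.mk l) ξ)‖ ^ 2 ≤ 5 * ∑ g ∈ S, ‖T.f g ξ‖ ^ 2 := by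
  induction l with
  | nil =>
    refine ⟨{1}, by simp, ?_⟩
    rw [← FreeGroup.one_eq_mk, map_one, Finset.sum_singleton, treeEn,
      one_apply_eq_self]
    nlinarith [sq_nonneg ‖T.f 1 ξ‖]
  | cons x l ih =>
    obtain ⟨S, hS, hle⟩ := ih (hr.infix ⟨[x], [], by simp⟩)
    have hn : FreeGroup.norm (FreeGroup.mk (x :: l))⁻¹ = l.length + 1 := by
      rw [FreeGroup.norm_inv_eq, FreeGroup.norm, FreeGroup.toWord_mk, hr.reduce_eq,
        List.length_cons]
    have hnot : (FreeGroup.mk (x :: l))⁻¹ ∉ S := fun hm => by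
      have := hS _ hm
      omega
    refine ⟨insert (FreeGroup.mk (x :: l))⁻¹ S, fun g hg => ?_, ?_⟩
    · rcases Finset.mem_insert.1 hg with rfl | hg
      · rw [hn, List.length_cons]
      · exact (hS g hg).trans (by simp)
    · have e1 : ‖(T.f 1 * T.lam (FreeGroup.mk [x])) (α (FreeGroup.mk l) ξ)‖ =
          ‖T.f (FreeGroup.mk (x :: l))⁻¹ ξ‖ := by
        rw [← mul_apply_eq_comp, h.far l [x] (by simp) hr, T.norm_f_lam,
          List.singleton_append]
      have e2 := tree_norm_p (h.par.la x.2) (tree_letter_ne x) (α (FreeGroup.mk l) ξ)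
      rw [← h.letter, ← mul_apply_eq_comp (α _), ← cons α, e1] at e2
      rw [Finset.sum_insert hnot, treeEn, e1]
      have p1 := norm_nonneg (T.f 1 (α (FreeGroup.mk (x :: l)) ξ))
      have p2 := pow_le_pow_left₀ p1 e2 2
      nlinarith [sq_nonneg (‖T.f (FreeGroup.mk (x :: l))⁻¹ ξ‖ -
        1 / 2 * ‖T.f 1 (α (FreeGroup.mk l) ξ)‖)]

theorem en_le (h : IsTree T a w α) (ξ : H) {l : List (σ × Bool)} (hr : FreeGroup.IsReduced l) :
    treeEn T α ξ l ≤ 5 * ‖ξ‖ ^ 2 := by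
  classical
  obtain ⟨S, -, hS⟩ := h.en_aux ξ l hr
  nlinarith [T.res.sum_sq_le S ξ, sq_nonneg ‖T.f 1 (α (FreeGroup.mk l) ξ)‖]

theorem pair_le (h : IsTree T a w α) (h' : IsTree T a' w' α') {y : H →L[ℂ] H}
    (hp : Commute y (T.f 1)) (hl : ∀ g, Commute y (T.lam g)) {d : ℝ}
    (h1 : ‖a * y - y * a'‖ ≤ d) (h2 : ‖star a * y - y * star a'‖ ≤ d)
    (h3 : |w - w'| * ‖y‖ ≤ d) (η ξ : H) (l : List (σ × Bool)) :
    ‖⟪α (FreeGroup.mk l) η, (α (FreeGroup.mk l) * y - y * α' (FreeGroup.mk l)) ξ⟫_ℂ‖ ≤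
      2 * d * (treeEn T α η l + treeEn T α' ξ l) := by
  induction l with
  | nil => simp [← FreeGroup.one_eq_mk, treeEn]
  | cons x l ih =>
    have k1 : ‖treeLa a x.2 * y - y * treeLa a' x.2‖ ≤ d := by
      cases x.2
      · exact h2
      · exact h1
    have k2 : ‖star (treeLa a x.2) * y - y * star (treeLa a' x.2)‖ ≤ d := by
      cases x.2
      · simpa [treeLa] using h1
      · exact h2
    have st := tree_step (h.par.la x.2) (h'.par.la x.2) hp hl k1 k2 h3 (tree_letter_ne x)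
      (α (FreeGroup.mk l) η) (α' (FreeGroup.mk l) ξ)
    rw [← h.letter, ← h'.letter] at st
    have e : α (FreeGroup.mk (x :: l)) * y - y * α' (FreeGroup.mk (x :: l)) =
        α (FreeGroup.mk [x]) * (α (FreeGroup.mk l) * y - y * α' (FreeGroup.mk l)) +
        (α (FreeGroup.mk [x]) * y - y * α' (FreeGroup.mk [x])) * α' (FreeGroup.mk l) := by
      rw [cons α, cons α']
      noncomm_ring
    have u : ∀ ζ ζ' : H, ⟪α (FreeGroup.mk [x]) ζ, α (FreeGroup.mk [x]) ζ'⟫_ℂ = ⟪ζ, ζ'⟫_ℂ :=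
      fun ζ ζ' => by
        rw [← ContinuousLinearMap.adjoint_inner_right, ← ContinuousLinearMap.star_eq_adjoint,
          ← mul_apply_eq_comp, (Unitary.mem_iff.1 (rep_unitary h.star_eq _)).1,
          one_apply_eq_self]
    rw [e, add_apply, inner_add_right, cons α, mul_apply_eq_comp,
      mul_apply_eq_comp, mul_apply_eq_comp, u, treeEn, treeEn]
    refine (norm_add_le_of_le ih st).trans (le_of_eq ?_)
    ring

/-- The uniform Lipschitz estimate. -/
theorem lip (h : IsTree T a w α) (h' : IsTree T a' w' α') {y : H →L[ℂ] H}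
    (hp : Commute y (T.f 1)) (hl : ∀ g, Commute y (T.lam g)) {d : ℝ}
    (h1 : ‖a * y - y * a'‖ ≤ d) (h2 : ‖star a * y - y * star a'‖ ≤ d)
    (h3 : |w - w'| * ‖y‖ ≤ d) (g : FreeGroup σ) : ‖α g * y - y * α' g‖ ≤ 20 * d := by
  classical
  have hd : 0 ≤ d := (norm_nonneg _).trans h1
  refine ContinuousLinearMap.opNorm_le_of_re_inner_le (by positivity) fun ξ η hξ hη => ?_
  have k := h.pair_le h' hp hl h1 h2 h3 (α g⁻¹ η) ξ g.toWord
  have k1 := h.en_le (α g⁻¹ η) (FreeGroup.isReduced_toWord (x := g))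
  have k2 := h'.en_le ξ (FreeGroup.isReduced_toWord (x := g))
  rw [rep_norm_apply h.star_eq, hη] at k1
  rw [hξ] at k2
  rw [FreeGroup.mk_toWord, ← mul_apply_eq_comp (α g), ← map_mul, mul_inv_cancel,
    map_one, one_apply_eq_self, norm_inner_symm] at k
  refine ((RCLike.re_le_norm _).trans k).trans ?_
  nlinarith [mul_le_mul_of_nonneg_left (add_le_add k1 k2) hd]

theorem mem (h : IsTree T a w α) {S : StarSubalgebra ℂ (H →L[ℂ] H)} (hp : T.f 1 ∈ S)
    (hl : ∀ g, T.lam g ∈ S) (ha : a ∈ S) (g : FreeGroup σ) : α g ∈ S := by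
  induction g with
  | C1 => rw [map_one]; exact one_mem S
  | of s =>
    rw [h.of_eq, rot]
    exact sub_mem (add_mem (sub_mem (hl _) (SMulMemClass.smul_mem _ (add_mem (mul_mem hp (hl _))
      (mul_mem (hl _) hp)))) (mul_mem ha hp))
      (mul_mem (star_mem ha) (mul_mem (mul_mem (hl _) hp) (hl _)))
  | inv_of s ih => rw [← h.star_eq]; exact star_mem ih
  | mul x y hx hy => rw [map_mul]; exact mul_mem hx hy

theorem commute (h : IsTree T a w α) {y : H →L[ℂ] H} (hp : Commute y (T.f 1))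
    (hl : ∀ g, Commute y (T.lam g)) (h1 : Commute y a) (h2 : Commute y (star a))
    (g : FreeGroup σ) : Commute y (α g) := by
  have := h.lip h hp hl (d := 0) (by rw [h1.eq, sub_self, norm_zero])
    (by rw [h2.eq, sub_self, norm_zero]) (by simp) g
  rw [mul_zero, norm_le_zero_iff, sub_eq_zero] at this
  exact this.symm

theorem diag (h : IsTree T a w α) (s : σ) :
    T.f 1 * α (FreeGroup.of s) * T.f 1 = a * T.f 1 := by
  classical
  rw [h.of_eq, tree_p h.par (FreeGroup.of_ne_one s), add_mul, smul_mul_assoc,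
    T.f_lam_f (FreeGroup.of_ne_one s), smul_zero, zero_add, mul_assoc, T.res.mul_self]

end IsTree

end Crest.Agent.R078X
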