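import Crest.Agent.R078X.PP
import Crest.Agent.R078X.Tree

/-! Row 78 (X): the averaging lemma. -/

set_option autoImplicit false

open scoped InnerProductSpace

namespace Crest.Agent.R078X

variable {H : Type*} [NormedAddCommGroup H] [InnerProductSpace ℂ H] [CompleteSpace H]

theorem avg_tree {σ : Type*} [Fintype σ] {G T : Leg (FreeGroup σ) H} (hGT : G.Indep T)
    {a : H →L[ℂ] H} {w : ℝ} {α : FreeGroup σ →* (H →L[ℂ] H)} (hα : IsTree T a w α)
    (ha : G.Com a) :
    ‖(∑ s, G.lam (FreeGroup.of s) * G.rho (FreeGroup.of s) * α (FreeGroup.of s)) -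
        (Fintype.card σ : ℂ) • (a * (G.f 1 * T.f 1))‖ ≤ 8 * √(Fintype.card σ : ℝ) := by
  set D : ℝ := √(Fintype.card σ : ℝ) with hD
  have hD0 : 0 ≤ D := Real.sqrt_nonneg _
  let U : σ → H →L[ℂ] H := fun s => G.lam (FreeGroup.of s) * G.rho (FreeGroup.of s)
  let l : σ → H →L[ℂ] H := fun s => T.lam (FreeGroup.of s)
  set p : H →L[ℂ] H := T.f 1 with hp
  set q : H →L[ℂ] H := G.f 1 with hq
  have hUf : ∀ s x, Commute (U s) (T.f x) := fun s x =>
    Commute.mul_left ((hGT.lam _).f x) ((hGT.rho _).f x)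
  have hUl : ∀ s g, Commute (U s) (T.lam g) := fun s g =>
    Commute.mul_left ((hGT.lam _).lam g) ((hGT.rho _).lam g)
  have hUa : ∀ s, Commute (U s) a := fun s =>
    Commute.mul_left (ha.lam _).symm (ha.rho _).symm
  have hUa' : ∀ s, Commute (U s) (star a) := fun s => by
    refine Commute.mul_left ?_ ?_
    · have := (ha.lam (FreeGroup.of s)⁻¹).star_star
      rw [G.star_lam, inv_inv] at this
      exact this.symm
    · have := (ha.rho (FreeGroup.of s)⁻¹).star_star
      rw [G.star_rho, inv_inv] at this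
      exact this.symm
  have hUn : ∀ s, ‖U s‖ ≤ 1 := fun s =>
    (norm_mul_le _ _).trans (mul_le_one₀ (rep_norm_le G.star_lam _) (norm_nonneg _)
      (rep_norm_le G.star_rho _))
  have hln : ∀ s, ‖l s‖ ≤ 1 := fun s => rep_norm_le T.star_lam _
  have hpn : ‖p‖ ≤ 1 := T.res.norm_le_one 1
  have han : ‖a‖ ≤ 1 / 2 := hα.par.norm_le
  have han' : ‖star a‖ ≤ 1 / 2 := by rw [norm_star]; exact han
  set c : ℂ := ((1 - w : ℝ) : ℂ) with hc
  have hcn : ‖c‖ ≤ 1 := by
    rw [hc, Complex.norm_real, Real.norm_eq_abs, abs_le]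
    constructor <;> linarith [hα.par.w_nonneg, hα.par.w_le]
  let A : H →L[ℂ] H := ∑ s, l s * U s
  let B : H →L[ℂ] H := (∑ s, U s) - (Fintype.card σ : ℂ) • q
  let C : H →L[ℂ] H := ∑ s, (l s * p) * (l s * U s)
  have hA : ‖A‖ ≤ 2 * D := norm_sum_lam T hUf hUn
  have hB : ‖B‖ ≤ 2 * D := norm_sum_conj G
  have hC : ‖C‖ ≤ D := (row_lam_f T).norm_sum_le fun s =>
    (norm_mul_le _ _).trans (mul_le_one₀ (hln s) (norm_nonneg _) (hUn s))
  have hterm : ∀ s, U s * α (FreeGroup.of s) =
      l s * U s - c • (p * (l s * U s) + (l s * U s) * p) + a * p * U s -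
        star a * ((l s * p) * (l s * U s)) := by
    intro s
    have h1 : U s * l s = l s * U s := (hUl s _).eq
    have h2 : Commute (U s) p := hUf s 1
    have h3 : U s * (p * l s) = p * (l s * U s) := by
      rw [← mul_assoc, h2.eq, mul_assoc, h1]
    have h4 : U s * (l s * p) = l s * U s * p := by
      rw [← mul_assoc, h1]
    have h5 : U s * (a * p) = a * p * U s := ((hUa s).mul_right h2).eq
    have h6 : U s * (star a * (l s * p * l s)) = star a * ((l s * p) * (l s * U s)) := by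
      rw [((hUa' s).mul_right (((hUl s _).mul_right h2).mul_right (hUl s _))).eq]
      simp only [mul_assoc, l]
    rw [hα.of_eq, rot]
    change U s * (l s - c • (p * l s + l s * p) + a * p - star a * (l s * p * l s)) = _
    rw [mul_sub, mul_add, mul_sub, mul_smul_comm, mul_add, h1, h3, h4, h5, h6]
  have hpq : p * q = q * p := ((hGT.f 1).f 1).eq.symm
  have key : (∑ s, U s * α (FreeGroup.of s)) - (Fintype.card σ : ℂ) • (a * (q * p)) =
      A - c • (p * A + A * p) + a * p * B - star a * C := by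
    simp only [hterm, Finset.sum_sub_distrib, Finset.sum_add_distrib, ← Finset.smul_sum,
      ← Finset.mul_sum, ← Finset.sum_mul, A, B, C, mul_sub, mul_smul_comm]
    rw [mul_assoc a p q, hpq]
    abel
  change ‖(∑ s, U s * α (FreeGroup.of s)) - (Fintype.card σ : ℂ) • (a * (q * p))‖ ≤ 8 * D
  rw [key]
  have e1 : ‖c • (p * A + A * p)‖ ≤ 4 * D := by
    rw [norm_smul]
    have h1 : ‖p * A‖ ≤ 2 * D := (norm_mul_le _ _).trans (by nlinarith [norm_nonneg A])
    have h2 : ‖A * p‖ ≤ 2 * D := (norm_mul_le _ _).trans (by nlinarith [norm_nonneg A])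
    have h3 : ‖p * A + A * p‖ ≤ 4 * D := (norm_add_le _ _).trans (by linarith)
    nlinarith [norm_nonneg (p * A + A * p)]
  have e2 : ‖a * p * B‖ ≤ D := by
    have h1 : ‖a * p‖ ≤ 1 / 2 := (norm_mul_le _ _).trans (by nlinarith [norm_nonneg a])
    exact (norm_mul_le _ _).trans (by nlinarith [norm_nonneg B, norm_nonneg (a * p)])
  have e3 : ‖star a * C‖ ≤ D / 2 :=
    (norm_mul_le _ _).trans (by nlinarith [norm_nonneg C, norm_nonneg (star a)])
  have e4 := norm_sub_le (A - c • (p * A + A * p) + a * p * B) (star a * C)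
  have e5 := norm_add_le (A - c • (p * A + A * p)) (a * p * B)
  have e6 := norm_sub_le A (c • (p * A + A * p))
  linarith

end Crest.Agent.R078X
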