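import Mathlib

/-! Row 78 (S0104, S0105): common definitions.

Everything happens in `B(H)`.  A *resolution* is a family of orthogonal projections summing
strongly to `1`; a *leg* is a copy of `B(ℓ²Γ) ⊗ 1` given by its position projections and its left
and right regular representations; a *tree representation* is the Pytlik–Szwarc / Valette
deformation of the left regular representation of a free group. -/

set_option autoImplicit false

open scoped InnerProductSpace

namespace Crest.Agent.R078X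

variable {H : Type*} [NormedAddCommGroup H] [InnerProductSpace ℂ H] [CompleteSpace H]

/-- A resolution of the identity. -/
structure Res {ι : Type*} (f : ι → H →L[ℂ] H) : Prop where
  proj : ∀ i, IsStarProjection (f i)
  orth : ∀ i j, i ≠ j → f i * f j = 0
  sum : ∀ ξ, HasSum (fun i => f i ξ) ξ

/-- A bounded family of blocks for the resolution `f`. -/
structure Blk {ι : Type*} (f T : ι → H →L[ℂ] H) : Prop where
  comm : ∀ i, Commute (T i) (f i)
  bdd : ∃ C : ℝ, ∀ i, ‖T i‖ ≤ C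

open Classical in
/-- The block diagonal operator `∑ i, T i * f i` (junk value if it does not exist). -/
noncomputable def bsum {ι : Type*} (f T : ι → H →L[ℂ] H) : H →L[ℂ] H :=
  if h : ∃ A : H →L[ℂ] H, ∀ i, A * f i = T i * f i then h.choose else 0

/-- The diagonal operator `∑ i, c i • f i`. -/
noncomputable def dg {ι : Type*} (f : ι → H →L[ℂ] H) (c : ι → ℂ) : H →L[ℂ] H :=
  bsum f fun i => c i • (1 : H →L[ℂ] H)

/-- Row contraction: `∑ r s * star (r s) ≤ 1`. -/
def Row {σ : Type*} [Fintype σ] (r : σ → H →L[ℂ] H) : Prop :=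
  ∀ η : H, ∑ s, ‖star (r s) η‖ ^ 2 ≤ ‖η‖ ^ 2

/-- Column contraction: `∑ star (k s) * k s ≤ 1`. -/
def Col {σ : Type*} [Fintype σ] (k : σ → H →L[ℂ] H) : Prop :=
  ∀ ξ : H, ∑ s, ‖k s ξ‖ ^ 2 ≤ ‖ξ‖ ^ 2

/-- A copy of `B(ℓ²Γ) ⊗ 1`: position projections, left and right regular representations. -/
structure Leg (Γ : Type*) [Group Γ] (H : Type*) [NormedAddCommGroup H] [InnerProductSpace ℂ H]
    [CompleteSpace H] where
  f : Γ → H →L[ℂ] H
  lam : Γ →* (H →L[ℂ] H)
  rho : Γ →* (H →L[ℂ] H)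
  res : Res f
  star_lam : ∀ g, star (lam g) = lam g⁻¹
  star_rho : ∀ g, star (rho g) = rho g⁻¹
  lam_f : ∀ g x, lam g * f x = f (g * x) * lam g
  rho_f : ∀ g x, rho g * f x = f (x * g⁻¹) * rho g
  lam_rho : ∀ g h, Commute (lam g) (rho h)
  fix : ∀ g, lam g * rho g * f 1 = f 1

/-- `y` commutes with the leg `L`. -/
structure Leg.Com {Γ : Type*} [Group Γ] (L : Leg Γ H) (y : H →L[ℂ] H) : Prop where
  f : ∀ x, Commute y (L.f x)
  lam : ∀ g, Commute y (L.lam g)
  rho : ∀ g, Commute y (L.rho g)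

/-- Two commuting legs. -/
structure Leg.Indep {Γ Γ' : Type*} [Group Γ] [Group Γ'] (L : Leg Γ H) (L' : Leg Γ' H) : Prop where
  f : ∀ x, L'.Com (L.f x)
  lam : ∀ g, L'.Com (L.lam g)
  rho : ∀ g, L'.Com (L.rho g)

/-- `ℓ²(Γ^κ × ℤ)` with its legs. -/
structure Model (κ Γ : Type*) [Group Γ] (H : Type*) [NormedAddCommGroup H] [InnerProductSpace ℂ H]
    [CompleteSpace H] where
  L : κ → Leg Γ H
  Z : Leg (Multiplicative ℤ) H
  indep : ∀ i j, i ≠ j → (L i).Indep (L j)
  indepZ : ∀ i, (L i).Indep Z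
  dl : ℤ → H
  norm_dl : ∀ n, ‖dl n‖ = 1
  f_dl : ∀ i n, (L i).f 1 (dl n) = dl n
  r_dl : ∀ n, Z.f (Multiplicative.ofAdd n) (dl n) = dl n
  rank : ∀ n ξ, (∀ i, (L i).f 1 ξ = ξ) → Z.f (Multiplicative.ofAdd n) ξ = ξ →
    ξ = ⟪dl n, ξ⟫_ℂ • dl n

/-- The position projections of the `ℤ`-leg. -/
def Model.r {κ Γ : Type*} [Group Γ] (M : Model κ Γ H) (n : ℤ) : H →L[ℂ] H :=
  M.Z.f (Multiplicative.ofAdd n)

/-- The bilateral shift of the `ℤ`-leg. -/
def Model.V {κ Γ : Type*} [Group Γ] (M : Model κ Γ H) : H →L[ℂ] H :=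
  M.Z.lam (Multiplicative.ofAdd 1)

/-- The unitary `l` (a translation of the tree) followed by the rotation of the edge from the
root to its image. -/
noncomputable def rot (p l a : H →L[ℂ] H) (w : ℝ) : H →L[ℂ] H :=
  l - ((1 - w : ℝ) : ℂ) • (p * l + l * p) + a * p - star a * (l * p * l)

/-- Admissible parameters of a tree representation. -/
structure TreePar {σ : Type*} (T : Leg (FreeGroup σ) H) (a : H →L[ℂ] H) (w : ℝ) : Prop where
  comm_p : Commute a (T.f 1)
  comm_lam : ∀ g, Commute a (T.lam g)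
  star_mul_self : star a * a = ((1 - w ^ 2 : ℝ) : ℂ) • (1 : H →L[ℂ] H)
  self_mul_star : a * star a = ((1 - w ^ 2 : ℝ) : ℂ) • (1 : H →L[ℂ] H)
  norm_le : ‖a‖ ≤ 1 / 2
  w_nonneg : 0 ≤ w
  w_le : w ≤ 1

/-- `α` is the tree representation with parameters `a`, `w`. -/
structure IsTree {σ : Type*} (T : Leg (FreeGroup σ) H) (a : H →L[ℂ] H) (w : ℝ)
    (α : FreeGroup σ →* (H →L[ℂ] H)) : Prop where
  par : TreePar T a w
  star_eq : ∀ g, star (α g) = α g⁻¹
  of_eq : ∀ s, α (FreeGroup.of s) = rot (T.f 1) (T.lam (FreeGroup.of s)) a w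

/-- The slowly rotating phase from `I` to `1`. -/
structure Phase (k : ℕ) (u : ℤ → ℂ) : Prop where
  norm_eq : ∀ n, ‖u n‖ = 1
  left : ∀ n, n ≤ 0 → u n = Complex.I
  right : ∀ n, (k : ℤ) ≤ n → u n = 1
  step : ∀ n, ‖u (n + 1) - u n‖ ≤ 2 / (k : ℝ)

/-! ### The algebras of S0105 (leg `0` is the group leg, leg `1` the tree leg) -/

section S0105

variable {Γ : Type*} [Group Γ] (M : Model (Fin 2) Γ H)

/-- The ambient `⋆`-algebra. -/
noncomputable def Eo : StarSubalgebra ℂ (H →L[ℂ] H) :=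
  StarAlgebra.adjoin ℂ (Set.range (M.L 0).lam ∪ Set.range (M.L 1).lam ∪ {(M.L 1).f 1} ∪
    Set.range M.r)

/-- The elements of the ambient algebra supported on finitely many blocks. -/
def Jo : Set (H →L[ℂ] H) := {j | j ∈ Eo M ∧ ∃ s : Finset ℤ, ∀ n ∉ s, j * M.r n = 0}

/-- The algebra generated by `λ ⊗ π`. -/
noncomputable def Do (π : Γ →* (H →L[ℂ] H)) : StarSubalgebra ℂ (H →L[ℂ] H) :=
  StarAlgebra.adjoin ℂ (Set.range fun g => (M.L 0).lam g * π g)

/-- The C⋆-algebra of S0105. -/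
noncomputable def At (π : Γ →* (H →L[ℂ] H)) : StarSubalgebra ℂ (H →L[ℂ] H) :=
  (StarAlgebra.adjoin ℂ ((Set.range fun g => (M.L 0).lam g * π g) ∪ Jo M)).topologicalClosure

/-- A unitary representation living on the tree leg. -/
structure Good (π : Γ →* (H →L[ℂ] H)) : Prop where
  star_eq : ∀ g, star (π g) = π g⁻¹
  mem : ∀ g, π g ∈ StarAlgebra.adjoin ℂ (Set.range (M.L 1).lam ∪ {(M.L 1).f 1})

end S0105

end Crest.Agent.R078X
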