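import Crest.Agent.R078X.Res

/-! Row 78 (X): the Fredholm index obstruction. -/

set_option autoImplicit false

open scoped InnerProductSpace

namespace Crest.Agent.R078X

variable {H : Type*} [NormedAddCommGroup H] [InnerProductSpace ℂ H] [CompleteSpace H]

omit [CompleteSpace H] in
theorem index_cmp_left {A : H →L[ℂ] H} (hA : IsCompactOperator ⇑A) (B : H →L[ℂ] H) :
    IsCompactOperator ⇑(B * A) := hA.clm_comp B

omit [CompleteSpace H] in
theorem index_cmp_right {A : H →L[ℂ] H} (hA : IsCompactOperator ⇑A) (B : H →L[ℂ] H) :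
    IsCompactOperator ⇑(A * B) := hA.comp_clm B

omit [CompleteSpace H] in
theorem index_cmp_add {A B : H →L[ℂ] H} (hA : IsCompactOperator ⇑A) (hB : IsCompactOperator ⇑B) :
    IsCompactOperator ⇑(A + B) := hA.add hB

omit [CompleteSpace H] in
theorem index_cmp_sum {ι : Type*} (s : Finset ι) {A : ι → H →L[ℂ] H} (c : ι → ℂ)
    (hA : ∀ i, IsCompactOperator ⇑(A i)) : IsCompactOperator ⇑(∑ i ∈ s, c i • A i) := by
  classical
  induction s using Finset.induction_on with
  | empty => simpa using (isCompactOperator_zero (M₁ := H) (M₂ := H))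
  | insert i s hi ih =>
    rw [Finset.sum_insert hi]
    exact index_cmp_add ((hA i).smul (c i)) ih

theorem index_unit {A : H →L[ℂ] H} (h : ‖A‖ < 1) : IsUnit (1 + A) := by
  have := (Units.oneSub (-A) (by rwa [norm_neg])).isUnit
  simpa using this

theorem index_norm_le {S : H →L[ℂ] H} (hS : star S * S = 1) : ‖S‖ ≤ 1 := by
  have h1 : ‖S‖ * ‖S‖ ≤ 1 := by
    rw [← CStarRing.norm_star_mul_self, hS]
    exact ContinuousLinearMap.norm_id_le
  nlinarith [norm_nonneg S]

/-- A normal operator is not a small plus compact perturbation of a proper isometry. -/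
theorem index_false {S K N : H →L[ℂ] H} (hS : star S * S = 1) {ξ : H} (hξ : ξ ≠ 0)
    (hSξ : star S ξ = 0) (hK : IsCompactOperator ⇑K) (hK' : IsCompactOperator ⇑(star K))
    (hN : IsStarNormal N) (h : ‖N - (S + K)‖ < 1) : False := by
  set D := N - (S + K) with hD
  have hNe : N = S + K + D := by rw [hD]; abel
  have hS1 := index_norm_le hS
  have hu1 : IsUnit (1 + star S * D) := index_unit (by
    refine (norm_mul_le _ _).trans_lt ?_
    rw [norm_star]
    nlinarith [norm_nonneg D, norm_nonneg S])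
  have hu2 : IsUnit (1 + star D * S) := index_unit (by
    refine (norm_mul_le _ _).trans_lt ?_
    rw [norm_star]
    nlinarith [norm_nonneg D, norm_nonneg S])
  set U : Submodule ℂ H := LinearMap.ker (N : H →ₗ[ℂ] H) with hU
  have : CompleteSpace U := (N.isClosed_ker).completeSpace_coe
  set P : H →L[ℂ] H := U.starProjection with hP
  have hNP : N * P = 0 := by
    ext η
    exact (U.starProjection_apply_mem η)
  have hPc : IsCompactOperator ⇑P := by
    obtain ⟨u, hu⟩ := hu1
    have e1 : (1 + star S * D) * P = -(star S * K * P) := by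
      have : star S * (N * P) = 0 := by rw [hNP, mul_zero]
      rw [hNe, ← mul_assoc, mul_add, mul_add, hS] at this
      rw [eq_neg_iff_add_eq_zero, ← this]
      noncomm_ring
    have e2 : P = (-(↑u⁻¹ * star S)) * K * P := by
      have : P = ↑u⁻¹ * ((1 + star S * D) * P) := by
        rw [← hu, ← mul_assoc, Units.inv_mul, one_mul]
      rw [e1] at this
      rw [neg_mul, neg_mul, mul_assoc, mul_assoc, ← mul_assoc (star S), ← mul_neg]
      exact this
    rw [e2]
    exact index_cmp_right (index_cmp_left hK _) _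
  have hinj : ∀ η, (star N + P) η = 0 → η = 0 := by
    intro η hη
    have h1 : star N η = -P η := eq_neg_of_add_eq_zero_left hη
    have h2 : N (P η) = 0 := U.starProjection_apply_mem η
    have h3 : P η = 0 := by
      have : ⟪P η, star N η⟫_ℂ = 0 := by
        rw [ContinuousLinearMap.star_eq_adjoint, ContinuousLinearMap.adjoint_inner_right, h2,
          inner_zero_left]
      rw [h1, inner_neg_right, neg_eq_zero, inner_self_eq_zero] at this
      exact this
    have h4 : star N η = 0 := by rw [h1, h3, neg_zero]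
    have h5 : N η = 0 := by
      have e : star N (N η) = N (star N η) := congrArg (fun T : H →L[ℂ] H => T η) hN.star_comm_self.eq
      rw [h4, map_zero] at e
      have : ⟪N η, N η⟫_ℂ = 0 := by
        rw [← ContinuousLinearMap.adjoint_inner_right, ← ContinuousLinearMap.star_eq_adjoint, e,
          inner_zero_right]
      exact inner_self_eq_zero.1 this
    have h6 : P η = η := Submodule.starProjection_eq_self_iff.2 h5
    rw [← h6, h3]
  have hSinj : ∀ η, S η = 0 → η = 0 := by
    intro η hη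
    have : (star S * S) η = η := by rw [hS]; rfl
    rw [← this]
    show star S (S η) = 0
    rw [hη, map_zero]
  obtain ⟨R, hR⟩ := hu2
  set C : H →L[ℂ] H := ↑R⁻¹ * ((star K + P) * S) with hC
  have hCc : IsCompactOperator ⇑C := index_cmp_left (index_cmp_right (index_cmp_add hK' hPc) _) _
  have hfac : (star N + P) * S = ↑R * (1 + C) := by
    rw [hC, mul_add (R : H →L[ℂ] H), ← mul_assoc (R : H →L[ℂ] H), Units.mul_inv, one_mul, mul_one,
      hR, hNe, star_add, star_add]
    have : (star S + star K + star D + P) * S = star S * S + star D * S + (star K + P) * S := by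
      noncomm_ring
    rw [this, hS]
  have hunit : IsUnit (1 + C) := by
    rcases hCc.hasEigenvalue_or_mem_resolventSet (μ := -1) (by norm_num) with he | hr
    · exfalso
      obtain ⟨η, hη⟩ := he.exists_hasEigenvector
      have h1 : C η = (-1 : ℂ) • η := hη.apply_eq_smul
      have h2 : ((star N + P) * S) η = 0 := by
        rw [hfac]
        show (R : H →L[ℂ] H) (η + C η) = 0
        rw [h1]; simp
      exact hη.2 (hSinj _ (hinj _ h2))
    · rw [resolventSet, Set.mem_ofPred_eq] at hr
      have := hr.neg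
      simpa [Algebra.algebraMap_eq_smul_one, add_comm] using this
  obtain ⟨T, hT⟩ := R.isUnit.mul hunit
  set ζ := (↑T⁻¹ : H →L[ℂ] H) ((star N + P) ξ) with hζ
  have h1 : (star N + P) (S ζ) = (star N + P) ξ := by
    show ((star N + P) * S) ζ = _
    rw [hfac, ← hT, hζ]
    show ((T : H →L[ℂ] H) * ↑T⁻¹) _ = _
    rw [Units.mul_inv]; rfl
  have h2 : S ζ = ξ := by
    have := hinj (S ζ - ξ) (by rw [map_sub, h1, sub_self])
    exact sub_eq_zero.1 this
  have h3 : ζ = 0 := by
    have : (star S * S) ζ = ζ := by rw [hS]; rfl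
    rw [← this]
    show star S (S ζ) = 0
    rw [h2, hSξ]
  exact hξ (by rw [← h2, h3, map_zero])

theorem index_inv_sqrt {A : Type*} [CStarAlgebra A] {k : A} (hsa : IsSelfAdjoint k)
    (hk : ‖k - 1‖ ≤ 41 / 400) : ∃ c : A, c * k * c = 1 ∧ IsSelfAdjoint c ∧ ‖c - 1‖ ≤ 1 / 10 ∧
      ∀ y : A, Commute y k → Commute y c := by
  have hsp : ∀ x ∈ spectrum ℝ k, |x - 1| ≤ 41 / 400 := fun x hx => by
    have h1 := norm_apply_le_norm_cfc (fun x : ℝ => x - 1) k hx
    rw [cfc_sub _ _ _, cfc_id' ℝ _, cfc_const_one ℝ _] at h1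
    exact h1.trans hk
  have hpos : ∀ x ∈ spectrum ℝ k, 0 < x := fun x hx => by
    linarith [(abs_le.1 (hsp x hx)).1]
  have hcont : ContinuousOn (fun x : ℝ => (√x)⁻¹) (spectrum ℝ k) :=
    Real.continuous_sqrt.continuousOn.inv₀ fun x hx => (Real.sqrt_pos.2 (hpos x hx)).ne'
  refine ⟨cfc (fun x : ℝ => (√x)⁻¹) k, ?_, cfc_predicate _ _, ?_,
    fun y hy => (Commute.cfc_real hy.symm _).symm⟩
  · conv_lhs => enter [1, 2]; rw [← cfc_id' ℝ k]
    rw [← cfc_mul _ _ k, ← cfc_mul _ _ k, ← cfc_const_one ℝ k]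
    refine cfc_congr fun x hx => ?_
    have h1 := Real.sqrt_pos.2 (hpos x hx)
    have h2 := Real.mul_self_sqrt (hpos x hx).le
    field_simp
    linarith
  · rw [← cfc_const_one ℝ k, ← cfc_sub _ _ _]
    refine norm_cfc_le (by norm_num) fun x hx => ?_
    obtain ⟨a1, a2⟩ := abs_le.1 (hsp x hx)
    have b1 := Real.sqrt_pos.2 (hpos x hx)
    have b2 := Real.mul_self_sqrt (hpos x hx).le
    rw [Real.norm_eq_abs, abs_le, le_sub_iff_add_le, sub_le_iff_le_add, inv_eq_one_div,
      le_div_iff₀ b1, div_le_iff₀ b1]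
    generalize √x = y at b1 b2
    subst b2
    constructor <;> nlinarith

theorem polar_near {V b : H →L[ℂ] H} (hV : V ∈ unitary (H →L[ℂ] H)) (h : ‖b - V‖ ≤ 1 / 20) :
    ∃ W ∈ unitary (H →L[ℂ] H), ‖W - V‖ ≤ 3 / 10 ∧
      ∀ y : H →L[ℂ] H, Commute y b → Commute y (star b) → Commute y W := by
  have hV1 : ‖V‖ ≤ 1 := unitary_norm_le hV
  have hVV : star V * V = 1 := Unitary.star_mul_self_of_mem hV
  have hb : ‖b‖ ≤ 21 / 20 := by
    have := norm_add_le (b - V) V
    rw [sub_add_cancel] at this
    linarith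
  have hk : ‖star b * b - 1‖ ≤ 41 / 400 := by
    have e : star b * b - 1 = star (b - V) * b + star V * (b - V) := by
      rw [star_sub, ← hVV]; noncomm_ring
    rw [e]
    refine (norm_add_le _ _).trans ?_
    have a1 : ‖star (b - V) * b‖ ≤ 1 / 20 * (21 / 20) := by
      refine (norm_mul_le _ _).trans ?_
      rw [norm_star]
      exact mul_le_mul h hb (norm_nonneg _) (by norm_num)
    have a2 : ‖star V * (b - V)‖ ≤ 1 * (1 / 20) := by
      refine (norm_mul_le _ _).trans ?_
      rw [norm_star]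
      exact mul_le_mul hV1 h (norm_nonneg _) (by norm_num)
    linarith
  have hbu : IsUnit b := by
    have h1 : IsUnit (1 + star V * (b - V)) := index_unit (by
      refine (norm_mul_le _ _).trans_lt ?_
      rw [norm_star]
      nlinarith [norm_nonneg (b - V), norm_nonneg V])
    have h2 : V * (1 + star V * (b - V)) = b := by
      rw [mul_add, ← mul_assoc, Unitary.mul_star_self_of_mem hV]; noncomm_ring
    rw [← h2]
    exact (Unitary.isUnit_coe (U := ⟨V, hV⟩)).mul h1
  have hsa : IsSelfAdjoint (star b * b) := IsSelfAdjoint.star_mul_self b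
  obtain ⟨c, e3, hr, h3, hcomm⟩ := index_inv_sqrt hsa hk
  have hW1 : star (b * c) * (b * c) = 1 := by
    rw [star_mul, hr.star_eq, mul_assoc, ← mul_assoc (star b), ← mul_assoc, e3]
  have hW2 : (b * c) * star (b * c) = 1 := by
    have hcu : IsUnit c := by
      have := index_unit (A := c - 1) (by linarith)
      simpa using this
    obtain ⟨w, hw⟩ := hbu.mul hcu
    rw [← hw] at hW1 ⊢
    have : star (w : H →L[ℂ] H) = ↑w⁻¹ := by
      rw [← mul_one (star (w : H →L[ℂ] H)), ← Units.mul_inv w, ← mul_assoc, hW1, one_mul]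
    rw [this, Units.mul_inv]
  refine ⟨b * c, Unitary.mem_iff.2 ⟨hW1, hW2⟩, ?_, fun y h1 h2 => h1.mul_right (hcomm y (h2.mul_right h1))⟩
  have e : b * c - V = b * (c - 1) + (b - V) := by noncomm_ring
  rw [e]
  refine (norm_add_le _ _).trans ?_
  have : ‖b * (c - 1)‖ ≤ 21 / 20 * (1 / 10) :=
    (norm_mul_le _ _).trans (mul_le_mul hb h3 (norm_nonneg _) (by norm_num))
  linarith

theorem obstruct {V p₀ p b : H →L[ℂ] H} (hV : V ∈ unitary (H →L[ℂ] H)) (hp₀ : ‖p₀‖ ≤ 1)
    (h0 : ∀ N : H →L[ℂ] H, IsStarNormal N → ‖N - (1 + (V - 1) * p₀)‖ < 1 → False)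
    (hp : IsSelfAdjoint p) (hc : Commute p b) (h1 : ‖p - p₀‖ ≤ 1 / 20) (h2 : ‖b - V‖ ≤ 1 / 20) :
    False := by
  obtain ⟨W, hW, hWV, hcomm⟩ := polar_near hV h2
  have hc' : Commute p (star b) := by
    have := hc.star_star
    rwa [hp.star_eq] at this
  have c1 : Commute p W := hcomm p hc hc'
  have c2 : Commute p (star W) := commute_star_of_unitary hW c1
  have c3 : Commute (star W) W := by
    rw [Commute, SemiconjBy, Unitary.star_mul_self_of_mem hW, Unitary.mul_star_self_of_mem hW]
  refine h0 (1 + (W - 1) * p) ⟨?_⟩ ?_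
  · rw [star_add, star_one, star_mul, hp.star_eq, star_sub, star_one]
    refine (Commute.one_left _).add_left ((Commute.one_right _).add_right ?_)
    have d1 : Commute p (W - 1) := c1.sub_right (Commute.one_right _)
    have d2 : Commute (star W - 1) (W - 1) :=
      (c3.sub_right (Commute.one_right _)).sub_left (Commute.one_left _)
    have d3 : Commute (star W - 1) p := c2.symm.sub_left (Commute.one_left _)
    exact (d1.mul_right (Commute.refl p)).mul_left (d2.mul_right d3)
  · have e : 1 + (W - 1) * p - (1 + (V - 1) * p₀) = (W - V) * p + (V - 1) * (p - p₀) := by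
      noncomm_ring
    rw [e]
    have a0 : ‖p‖ ≤ 21 / 20 := by
      have := norm_add_le (p - p₀) p₀
      rw [sub_add_cancel] at this
      linarith
    have a1 : ‖(W - V) * p‖ ≤ 3 / 10 * (21 / 20) :=
      (norm_mul_le _ _).trans (mul_le_mul hWV a0 (norm_nonneg _) (by norm_num))
    have a2 : ‖V - 1‖ ≤ 2 := by
      have := norm_sub_le V 1
      have h1 : ‖(1 : H →L[ℂ] H)‖ ≤ 1 := ContinuousLinearMap.norm_id_le
      linarith [unitary_norm_le hV]
    have a3 : ‖(V - 1) * (p - p₀)‖ ≤ 2 * (1 / 20) :=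
      (norm_mul_le _ _).trans (mul_le_mul a2 h1 (norm_nonneg _) (by norm_num))
    linarith [norm_add_le ((W - V) * p) ((V - 1) * (p - p₀))]

/-- The shift example: `1 + (V - 1) X E` is a compact perturbation of a proper isometry. -/
theorem shift_no_normal {r : ℤ → H →L[ℂ] H} (hr : Res r) {V E : H →L[ℂ] H}
    (hV : V ∈ unitary (H →L[ℂ] H)) (hVr : ∀ n, V * r n = r (n + 1) * V)
    (hE : IsStarProjection E) (hEr : ∀ n, Commute E (r n)) (hEV : Commute E V)
    (hK : ∀ n, IsCompactOperator ⇑(r n * E)) {ξ : H} (hξ : ξ ≠ 0) (hξ1 : r 1 ξ = ξ)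
    (hξ2 : E ξ = ξ) {x : ℤ → ℝ} (hx : ∀ n, |x n| ≤ 1) (hx0 : ∀ n, n ≤ 0 → x n = 0) {k : ℤ}
    (hx1 : ∀ n, k ≤ n → x n = 1) {N : H →L[ℂ] H} (hN : IsStarNormal N)
    (h : ‖N - (1 + (V - 1) * (dg r (fun n => (x n : ℂ)) * E))‖ < 1) : False := by
  classical
  set c₀ : ℤ → ℂ := fun n => if 1 ≤ n then 1 else 0 with hc₀
  have hc0 : ∀ n, ‖c₀ n‖ ≤ 1 := fun n => by
    simp only [hc₀]; split_ifs <;> simp
  have hxc : ∀ n, ‖(x n : ℂ)‖ ≤ 1 := fun n => by simpa using hx n
  set P := dg r c₀ with hP
  set X := dg r (fun n => (x n : ℂ)) with hX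
  have hPr : ∀ n, P * r n = c₀ n • r n := hr.dg_mul hc0
  have hXr : ∀ n, X * r n = (x n : ℂ) • r n := hr.dg_mul hxc
  have hPs : star P = P := by
    rw [hP, hr.star_dg hc0]
    congr 1
    funext n
    simp only [hc₀]; split_ifs <;> simp
  have hPP : P * P = P := by
    refine hr.ext fun n => ?_
    rw [mul_assoc, hPr, mul_smul_comm, hPr, smul_smul]
    congr 1
    simp only [hc₀]; split_ifs <;> simp
  have hEP : Commute E P := hr.commute_dg hc0 hEr
  have hPVP : P * V * P = V * P := by
    refine hr.ext fun n => ?_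
    rw [mul_assoc, hPr, mul_smul_comm, mul_assoc V, hPr, mul_smul_comm, mul_assoc, hVr,
      ← mul_assoc, hPr, smul_mul_assoc, smul_smul]
    congr 1
    simp only [hc₀]
    by_cases h1 : 1 ≤ n
    · rw [if_pos h1, if_pos (by omega), mul_one]
    · rw [if_neg h1, zero_mul]
  have hEE : E * E = E := hE.isIdempotentElem.eq
  have hEs : star E = E := hE.isSelfAdjoint.star_eq
  set Q := P * E with hQ
  have hQs : star Q = Q := by rw [hQ, star_mul, hPs, hEs, hEP.eq]
  have hQQ : Q * Q = Q := by
    rw [hQ, mul_assoc, ← mul_assoc E, hEP.eq, mul_assoc, hEE, ← mul_assoc, hPP]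
  have hQVQ : Q * V * Q = V * Q := by
    have : Q * V * Q = P * V * P * (E * E) := by
      rw [hQ, mul_assoc P E, hEV.eq, mul_assoc, mul_assoc V, ← mul_assoc E, hEP.eq]
      noncomm_ring
    rw [this, hPVP, hEE, hQ, mul_assoc]
  have hQVQ' : Q * star V * Q = Q * star V := by
    have := congrArg star hQVQ
    rwa [star_mul (Q * V), star_mul Q V, star_mul V Q, hQs, ← mul_assoc] at this
  have hVV : star V * V = 1 := Unitary.star_mul_self_of_mem hV
  have hY : X - P = ∑ n ∈ Finset.Ico 1 k, ((x n : ℂ) - 1) • r n := by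
    refine hr.ext fun m => ?_
    rw [sub_mul, hXr, hPr, Finset.sum_mul, ← sub_smul]
    by_cases hm : m ∈ Finset.Ico 1 k
    · rw [Finset.sum_eq_single_of_mem m hm (fun n _ hn => by
        rw [smul_mul_assoc, hr.orth n m hn, smul_zero]), smul_mul_assoc, hr.mul_self]
      simp only [hc₀, if_pos (Finset.mem_Ico.1 hm).1]
    · rw [Finset.sum_eq_zero (fun n hn => by
        rw [smul_mul_assoc, hr.orth n m (fun e => hm (e ▸ hn)), smul_zero])]
      have : (x m : ℂ) - c₀ m = 0 := by
        simp only [hc₀]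
        by_cases h1 : 1 ≤ m
        · rw [if_pos h1, hx1 m (by rw [Finset.mem_Ico] at hm; omega)]; simp
        · rw [if_neg h1, hx0 m (by omega)]; simp
      rw [this, zero_smul]
  have hY1 : (X - P) * E = ∑ n ∈ Finset.Ico 1 k, ((x n : ℂ) - 1) • (r n * E) := by
    rw [hY, Finset.sum_mul]
    exact Finset.sum_congr rfl fun n _ => smul_mul_assoc _ _ _
  have hY2 : star ((X - P) * E) = ∑ n ∈ Finset.Ico 1 k, star ((x n : ℂ) - 1) • (r n * E) := by
    rw [hY1, star_sum]
    refine Finset.sum_congr rfl fun n _ => ?_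
    rw [star_smul, star_mul, hEs, hr.star_eq, (hEr n).eq]
  refine index_false (S := 1 + (V - 1) * Q) (K := (V - 1) * ((X - P) * E)) (N := N) ?_ hξ ?_ ?_ ?_
    hN ?_
  · rw [star_add, star_one, star_mul, hQs, star_sub, star_one]
    have : (1 + Q * (star V - 1)) * (1 + (V - 1) * Q) =
        1 + V * Q - Q + Q * star V - Q + Q * (star V * V) * Q - Q * V * Q - Q * star V * Q +
          Q * Q := by noncomm_ring
    rw [this, hVV, mul_one, hQVQ, hQVQ', hQQ]
    abel
  · rw [star_add, star_one, star_mul, hQs, star_sub, star_one]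
    have a1 : Q ξ = ξ := by
      show P (E ξ) = ξ
      rw [hξ2]
      conv_lhs => rw [← hξ1]
      show (P * r 1) ξ = ξ
      rw [hPr]
      simp [hc₀, hξ1]
    have a2 : Q * star V * r 1 = 0 := by
      have b1 : star V * r 1 = r 0 * star V := by
        have := congrArg star (hVr 0)
        rw [star_mul, star_mul, hr.star_eq, hr.star_eq, zero_add] at this
        exact this.symm
      rw [mul_assoc, b1, hQ, ← hEP.eq, ← mul_assoc, mul_assoc E, hPr]
      simp [hc₀]
    have a3 : Q (star V ξ) = 0 := by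
      conv_lhs => rw [← hξ1]
      show (Q * star V * r 1) ξ = 0
      rw [a2]; rfl
    show ξ + Q (star V ξ - ξ) = 0
    rw [map_sub, a1, a3]; simp
  · rw [hY1]
    exact index_cmp_left (index_cmp_sum _ _ hK) _
  · rw [star_mul, hY2]
    exact index_cmp_right (index_cmp_sum _ _ hK) _
  · have : 1 + (V - 1) * Q + (V - 1) * ((X - P) * E) = 1 + (V - 1) * (X * E) := by
      rw [hQ]; noncomm_ring
    rw [this]
    exact h

end Crest.Agent.R078X
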