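import Crest.Agent.R078X.Res
import Crest.Prelude.Def_GroupVNA

/-! Row 78 (X): the concrete model, and the phase function. -/

set_option autoImplicit false

open scoped InnerProductSpace

namespace Crest.Agent.R078X

variable {H : Type*} [NormedAddCommGroup H] [InnerProductSpace ℂ H] [CompleteSpace H]

section ModelAux

open Crest.OpAlg

/-- Multiplication by the indicator function of `s`. -/
noncomputable def model_ind {G : Type} (s : Set G) : ltwo G →L[ℂ] ltwo G :=
  LinearMap.mkContinuous
    { toFun := fun ξ => ⟨s.indicator ξ, (lp.memℓp ξ).mono' fun x => norm_indicator_le_norm_self _ x⟩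
      map_add' := fun ξ η => by
        ext x
        change s.indicator (⇑(ξ + η)) x = s.indicator ξ x + s.indicator η x
        by_cases h : x ∈ s <;> simp [h]
      map_smul' := fun c ξ => by
        ext x
        change s.indicator (⇑(c • ξ)) x = c • s.indicator ξ x
        by_cases h : x ∈ s <;> simp [h] } 1
    fun ξ => by
      rw [one_mul]
      exact lp.norm_mono (by norm_num) fun x => norm_indicator_le_norm_self _ x

theorem model_ind_apply {G : Type} (s : Set G) (ξ : ltwo G) (x : G) :
    model_ind s ξ x = s.indicator ξ x := rfl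

theorem model_ind_proj {G : Type} (s : Set G) : IsStarProjection (model_ind s) := by
  refine ⟨?_, ?_⟩
  · ext ξ x
    simp only [ContinuousLinearMap.mul_apply, model_ind_apply]
    by_cases h : x ∈ s <;> simp [h, model_ind_apply]
  · rw [ContinuousLinearMap.isSelfAdjoint_iff_isSymmetric]
    intro ξ η
    simp only [ContinuousLinearMap.coe_coe, lp.inner_eq_tsum, model_ind_apply]
    refine tsum_congr fun x => ?_
    by_cases h : x ∈ s <;> simp [h]

theorem model_res {G Γ : Type} (φ : G → Γ) : Res fun y : Γ => model_ind {x | φ x = y} := by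
  classical
  refine ⟨fun y => model_ind_proj _, fun y z hyz => ?_, fun ξ => ?_⟩
  · ext ξ x
    simp only [ContinuousLinearMap.mul_apply, model_ind_apply]
    by_cases h : φ x = y
    · have : φ x ≠ z := fun h' => hyz (h.symm.trans h')
      simp [h, model_ind_apply, Set.indicator, hyz]
    · simp [h]
  · have h1 := lp.hasSum_single (p := 2) (by norm_num) ξ
    refine HasSum.sigma (f := fun p : Σ y : Γ, {x // φ x = y} =>
      (lp.single 2 (p.2 : G) (ξ p.2) : ltwo G)) ?_ fun y => ?_
    · exact (Equiv.sigmaFiberEquiv φ).hasSum_iff.2 h1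
    · have h2 := h1.mapL (model_ind {x | φ x = y})
      have h3 : (fun x => model_ind {x | φ x = y} (lp.single 2 x (ξ x))) =
          Set.indicator {x | φ x = y} fun x => (lp.single 2 x (ξ x) : ltwo G) := by
        funext x
        ext z
        rw [model_ind_apply]
        by_cases hx : φ x = y
        · rw [Set.indicator_of_mem (s := {x | φ x = y}) (a := x) hx]
          by_cases hz : φ z = y
          · rw [Set.indicator_of_mem (s := {x | φ x = y}) (a := z) hz]
          · rw [Set.indicator_of_notMem (s := {x | φ x = y}) (a := z) hz,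
              lp.single_apply_ne _ _ _ (fun h : z = x => hz (h ▸ hx))]
        · rw [Set.indicator_of_notMem (s := {x | φ x = y}) (a := x) hx]
          by_cases hz : φ z = y
          · rw [Set.indicator_of_mem (s := {x | φ x = y}) (a := z) hz,
              lp.single_apply_ne _ _ _ (fun h : z = x => hx (h ▸ hz))]
            rfl
          · rw [Set.indicator_of_notMem (s := {x | φ x = y}) (a := z) hz]
            rfl
      rw [h3] at h2
      exact hasSum_subtype_iff_indicator.2 h2

/-- Reindexing as a bounded operator. -/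
noncomputable def model_re {G : Type} (e : Equiv.Perm G) : ltwo G →L[ℂ] ltwo G :=
  ((ltwoReindex e : ltwo G ≃ₗᵢ[ℂ] ltwo G) : ltwo G →L[ℂ] ltwo G)

theorem model_re_apply {G : Type} (e : Equiv.Perm G) (ξ : ltwo G) (h : G) :
    model_re e ξ h = ξ (e h) := rfl

theorem model_star_re {G : Type} (e : Equiv.Perm G) : star (model_re e) = model_re e.symm := by
  rw [model_re, LinearIsometryEquiv.star_eq_symm]
  ext ξ h; rfl

theorem model_re_ind {G : Type} (e : Equiv.Perm G) (s : Set G) :
    model_re e * model_ind s = model_ind (e ⁻¹' s) * model_re e := by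
  ext ξ x
  simp only [ContinuousLinearMap.mul_apply, model_re_apply, model_ind_apply]
  by_cases h : e x ∈ s
  · rw [Set.indicator_of_mem h, Set.indicator_of_mem (show x ∈ e ⁻¹' s from h), model_re_apply]
  · rw [Set.indicator_of_notMem h, Set.indicator_of_notMem (show x ∉ e ⁻¹' s from h)]

theorem model_re_re {G : Type} {e e' : Equiv.Perm G} (h : ∀ x, e (e' x) = e' (e x)) :
    Commute (model_re e) (model_re e') := by
  ext ξ x
  simp only [ContinuousLinearMap.mul_apply, model_re_apply, h]

theorem model_re_ind_comm {G : Type} {e : Equiv.Perm G} {s : Set G} (h : e ⁻¹' s = s) :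
    Commute (model_re e) (model_ind s) := by
  have := model_re_ind e s
  rwa [h] at this

theorem model_ind_ind {G : Type} (s t : Set G) : Commute (model_ind s) (model_ind t) := by
  ext ξ x
  simp only [ContinuousLinearMap.mul_apply, model_ind_apply]
  by_cases h : x ∈ s <;> by_cases h' : x ∈ t <;> simp [h, h', model_ind_apply]

/-- The leg attached to a retraction `φ` of `G` onto a direct factor. -/
noncomputable def model_leg {G Γ : Type} [Group G] [Group Γ] (ι : Γ →* G) (φ : G →* Γ)
    (h1 : ∀ g, φ (ι g) = g) (h2 : ∀ g x, φ x = 1 → (ι g)⁻¹ * x * ι g = x) : Leg Γ (ltwo G) where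
  f y := model_ind {x | φ x = y}
  lam :=
    { toFun := fun g => model_re (Equiv.mulLeft (ι g)⁻¹)
      map_one' := by ext ξ x; simp [model_re_apply]
      map_mul' := fun g h => by ext ξ x; simp [model_re_apply, mul_assoc] }
  rho :=
    { toFun := fun g => model_re (Equiv.mulRight (ι g))
      map_one' := by ext ξ x; simp [model_re_apply]
      map_mul' := fun g h => by ext ξ x; simp [model_re_apply, mul_assoc] }
  res := model_res φ
  star_lam g := by
    simp only [MonoidHom.coe_mk, OneHom.coe_mk, model_star_re, Equiv.mulLeft_symm, map_inv]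
  star_rho g := by
    simp only [MonoidHom.coe_mk, OneHom.coe_mk, model_star_re, Equiv.mulRight_symm, map_inv]
  lam_f g y := by
    simp only [MonoidHom.coe_mk, OneHom.coe_mk, model_re_ind]
    congr 2
    ext x
    simp [h1, inv_mul_eq_iff_eq_mul]
  rho_f g y := by
    simp only [MonoidHom.coe_mk, OneHom.coe_mk, model_re_ind]
    congr 2
    ext x
    simp [h1, eq_mul_inv_iff_mul_eq]
  lam_rho g h := model_re_re fun x => by simp [mul_assoc]
  fix g := by
    ext ξ x
    simp only [MonoidHom.coe_mk, OneHom.coe_mk, ContinuousLinearMap.mul_apply, model_re_apply,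
      model_ind_apply, Equiv.coe_mulLeft, Equiv.coe_mulRight]
    by_cases h : φ x = 1
    · rw [h2 g x h]
    · rw [Set.indicator_of_notMem (s := {x | φ x = 1}) (a := x) h, Set.indicator_of_notMem]
      simpa [h1, mul_assoc, inv_mul_eq_iff_eq_mul] using h

theorem model_indep {G Γ Γ' : Type} [Group G] [Group Γ] [Group Γ'] {ι : Γ →* G} {φ : G →* Γ}
    {h1 : ∀ g, φ (ι g) = g} {h2 : ∀ g x, φ x = 1 → (ι g)⁻¹ * x * ι g = x}
    {ι' : Γ' →* G} {φ' : G →* Γ'}
    {h1' : ∀ g, φ' (ι' g) = g} {h2' : ∀ g x, φ' x = 1 → (ι' g)⁻¹ * x * ι' g = x}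
    (ha : ∀ g, φ (ι' g) = 1) (hb : ∀ g, φ' (ι g) = 1) :
    (model_leg ι φ h1 h2).Indep (model_leg ι' φ' h1' h2') := by
  have hc : ∀ g g', ι g * ι' g' = ι' g' * ι g := by
    intro g g'
    have := h2 g (ι' g') (ha g')
    rw [mul_assoc, inv_mul_eq_iff_eq_mul] at this
    exact this.symm
  have hc' : ∀ g g', (ι g)⁻¹ * (ι' g')⁻¹ = (ι' g')⁻¹ * (ι g)⁻¹ := by
    intro g g'
    rw [← mul_inv_rev, ← mul_inv_rev, hc]
  refine ⟨fun y => ⟨fun z => model_ind_ind _ _, fun g => ?_, fun g => ?_⟩,
    fun g => ⟨fun z => ?_, fun g' => ?_, fun g' => ?_⟩,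
    fun g => ⟨fun z => ?_, fun g' => ?_, fun g' => ?_⟩⟩
  · exact (model_re_ind_comm (by ext x; simp [ha])).symm
  · exact (model_re_ind_comm (by ext x; simp [ha])).symm
  · exact model_re_ind_comm (by ext x; simp [hb])
  · exact model_re_re fun x => by
      simp only [Equiv.coe_mulLeft]
      rw [← mul_assoc, ← mul_assoc, hc']
  · exact model_re_re fun x => by simp [mul_assoc]
  · exact model_re_ind_comm (by ext x; simp [hb])
  · exact model_re_re fun x => by simp [mul_assoc]
  · exact model_re_re fun x => by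
      simp only [Equiv.coe_mulRight]
      rw [mul_assoc, mul_assoc, hc]

theorem model_separable (G : Type) [Countable G] : TopologicalSpace.SeparableSpace (ltwo G) := by
  classical
  rw [← TopologicalSpace.isSeparable_univ_iff]
  have h1 : TopologicalSpace.IsSeparable
      (Set.range fun x : G => (lp.single 2 x (1 : ℂ) : ltwo G)) :=
    (Set.countable_range _).isSeparable
  refine (h1.span (R := ℂ)).closure.mono fun ξ _ => ?_
  have h2 := lp.hasSum_single (p := 2) (by norm_num) ξ
  refine mem_closure_of_tendsto h2 (Filter.Eventually.of_forall fun s => ?_)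
  refine Submodule.sum_mem _ fun x _ => ?_
  have : (lp.single 2 x (ξ x) : ltwo G) = ξ x • lp.single 2 x (1 : ℂ) := by
    rw [← lp.single_smul, smul_eq_mul, mul_one]
  rw [this]
  exact Submodule.smul_mem _ _ (Submodule.subset_span ⟨x, rfl⟩)

end ModelAux

theorem exists_model (κ Γ : Type) [Fintype κ] [DecidableEq κ] [Group Γ] [Countable Γ] :
    ∃ (H : Type) (_ : NormedAddCommGroup H) (_ : InnerProductSpace ℂ H) (_ : CompleteSpace H)
      (_ : TopologicalSpace.SeparableSpace H), Nonempty (Model κ Γ H) := by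
  classical
  let G := (κ → Γ) × Multiplicative ℤ
  let ι : κ → Γ →* G := fun i =>
    (MonoidHom.inl _ _).comp (MonoidHom.mulSingle (fun _ : κ => Γ) i)
  let φ : κ → G →* Γ := fun i => (Pi.evalMonoidHom (fun _ : κ => Γ) i).comp (MonoidHom.fst _ _)
  have hι : ∀ i g, ι i g = (Pi.mulSingle i g, 1) := fun _ _ => rfl
  have hφ : ∀ i (x : G), φ i x = x.1 i := fun _ _ => rfl
  have h1 : ∀ i g, φ i (ι i g) = g := fun i g => by rw [hι, hφ]; simp
  have h2 : ∀ i g x, φ i x = 1 → (ι i g)⁻¹ * x * ι i g = x := by
    intro i g x hx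
    rw [hφ] at hx
    rw [hι]
    refine Prod.ext ?_ ?_
    · funext j
      change (Pi.mulSingle i g : κ → Γ)⁻¹ j * x.1 j * (Pi.mulSingle i g : κ → Γ) j = x.1 j
      by_cases hj : j = i
      · subst hj; simp [hx]
      · simp [hj]
    · change (1 : Multiplicative ℤ)⁻¹ * x.2 * 1 = x.2
      simp
  let ιZ : Multiplicative ℤ →* G := MonoidHom.inr _ _
  let φZ : G →* Multiplicative ℤ := MonoidHom.snd _ _
  have h1Z : ∀ g, φZ (ιZ g) = g := fun _ => rfl
  have h2Z : ∀ g x, φZ x = 1 → (ιZ g)⁻¹ * x * ιZ g = x := by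
    intro g x _
    refine Prod.ext ?_ ?_
    · change (1 : κ → Γ)⁻¹ * x.1 * 1 = x.1
      simp
    · change g⁻¹ * x.2 * g = x.2
      rw [mul_comm g⁻¹, inv_mul_cancel_right]
  refine ⟨Crest.OpAlg.ltwo G, inferInstance, inferInstance, inferInstance, model_separable G, ⟨
    { L := fun i => model_leg (ι i) (φ i) (h1 i) (h2 i)
      Z := model_leg ιZ φZ h1Z h2Z
      indep := fun i j hij => model_indep (fun g => ?_) (fun g => ?_)
      indepZ := fun i => model_indep (fun g => rfl) (fun g => rfl)
      dl := fun n => lp.single 2 ((1, Multiplicative.ofAdd n) : G) (1 : ℂ)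
      norm_dl := fun n => by rw [lp.norm_single (by norm_num), norm_one]
      f_dl := fun i n => ?_
      r_dl := fun n => ?_
      rank := fun n ξ ha hb => ?_ }⟩⟩
  · rw [hι, hφ]; simp [hij]
  · rw [hι, hφ]; simp [hij.symm]
  · ext x
    change Set.indicator {x | φ i x = 1} _ x = _
    by_cases hx : φ i x = 1
    · rw [Set.indicator_of_mem (s := {x | φ i x = 1}) (a := x) hx]
    · rw [Set.indicator_of_notMem (s := {x | φ i x = 1}) (a := x) hx, lp.single_apply_ne]
      rintro rfl
      exact hx rfl
  · ext x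
    change Set.indicator {x | φZ x = Multiplicative.ofAdd n} _ x = _
    by_cases hx : φZ x = Multiplicative.ofAdd n
    · rw [Set.indicator_of_mem (s := {x | φZ x = Multiplicative.ofAdd n}) (a := x) hx]
    · rw [Set.indicator_of_notMem (s := {x | φZ x = Multiplicative.ofAdd n}) (a := x) hx,
        lp.single_apply_ne]
      rintro rfl
      exact hx rfl
  · rw [lp.inner_single_left]
    ext x
    rw [lp.coeFn_smul, Pi.smul_apply]
    by_cases hx : x = ((1, Multiplicative.ofAdd n) : G)
    · rw [hx, lp.single_apply_self]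
      simp
    · rw [lp.single_apply_ne _ _ _ hx, smul_zero]
      by_cases hz : φZ x = Multiplicative.ofAdd n
      · have : ∃ i, φ i x ≠ 1 := by
          by_contra hcon
          push Not at hcon
          exact hx (Prod.ext (funext hcon) hz)
        obtain ⟨i, hi⟩ := this
        rw [← ha i]
        exact Set.indicator_of_notMem (s := {x | φ i x = 1}) (a := x) hi _
      · rw [← hb]
        exact Set.indicator_of_notMem (s := {x | φZ x = Multiplicative.ofAdd n}) (a := x) hz _

theorem exists_phase {k : ℕ} (hk : 0 < k) : ∃ u, Phase k u := by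
  have hk' : (0 : ℝ) < k := by exact_mod_cast hk
  let θ : ℤ → ℝ := fun n => Real.pi / 2 * (1 - max 0 (min 1 ((n : ℝ) / k)))
  refine ⟨fun n => Complex.exp (Complex.I * (θ n : ℝ)), fun n => Complex.norm_exp_I_mul_ofReal _,
    fun n hn => ?_, fun n hn => ?_, fun n => ?_⟩
  · have h1 : (n : ℝ) / k ≤ 0 := div_nonpos_of_nonpos_of_nonneg (by exact_mod_cast hn) hk'.le
    have h2 : θ n = Real.pi / 2 := by
      simp only [θ]
      rw [max_eq_left ((min_le_right _ _).trans h1)]; ring
    simp only [h2]
    rw [mul_comm]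
    push_cast
    exact Complex.exp_pi_div_two_mul_I
  · have h1 : 1 ≤ (n : ℝ) / k := by
      rw [le_div_iff₀ hk', one_mul]; exact_mod_cast hn
    have h2 : θ n = 0 := by
      simp only [θ]
      rw [min_eq_left h1, max_eq_right zero_le_one]; ring
    simp [h2]
  · have h1 : Complex.exp (Complex.I * (θ (n + 1) : ℝ)) - Complex.exp (Complex.I * (θ n : ℝ)) =
        Complex.exp (Complex.I * (θ n : ℝ)) *
          (Complex.exp (Complex.I * ((θ (n + 1) - θ n : ℝ) : ℂ)) - 1) := by
      rw [mul_sub, ← Complex.exp_add, mul_one]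
      congr 2
      push_cast
      ring
    rw [h1, norm_mul, Complex.norm_exp_I_mul_ofReal, one_mul]
    refine Real.norm_exp_I_mul_ofReal_sub_one_le.trans ?_
    have h2 : |max 0 (min 1 ((n : ℝ) / k)) - max 0 (min 1 (((n + 1 : ℤ) : ℝ) / k))| ≤ 1 / k := by
      refine (abs_max_sub_max_le_max _ _ _ _).trans (max_le (by simp) ?_)
      refine (abs_min_sub_min_le_max _ _ _ _).trans (max_le (by simp) ?_)
      have : (n : ℝ) / k - ((n + 1 : ℤ) : ℝ) / k = -(1 / k) := by push_cast; ring
      rw [this, abs_neg, abs_of_pos (by positivity)]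
    have h3 : θ (n + 1) - θ n = Real.pi / 2 *
        (max 0 (min 1 ((n : ℝ) / k)) - max 0 (min 1 (((n + 1 : ℤ) : ℝ) / k))) := by
      simp only [θ]; ring
    rw [h3, Real.norm_eq_abs, abs_mul, abs_of_pos (by positivity : 0 < Real.pi / 2)]
    calc Real.pi / 2 * _ ≤ 2 * (1 / k) :=
          mul_le_mul (by linarith [Real.pi_le_four]) h2 (abs_nonneg _) (by norm_num)
      _ = 2 / k := by ring

end Crest.Agent.R078X
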