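import Crest.Agent.R078X.Tree

/-! Row 78 (X): the near inclusion of S0104. -/

set_option autoImplicit false

open scoped InnerProductSpace

namespace Crest.Agent.R078X

variable {H : Type*} [NormedAddCommGroup H] [InnerProductSpace ℂ H] [CompleteSpace H]

theorem near_push {W a b : H →L[ℂ] H} (hW : W ∈ unitary (H →L[ℂ] H)) (h : Commute a b) :
    Commute (W * a * star W) (W * b * star W) := by
  have key : ∀ a b : H →L[ℂ] H, W * a * star W * (W * b * star W) = W * (a * b) * star W := by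
    intro a b
    calc W * a * star W * (W * b * star W) = W * a * (star W * W) * b * star W := by
          simp only [mul_assoc]
      _ = W * (a * b) * star W := by rw [hW.1, mul_one, mul_assoc W]
  change _ * _ = _ * _
  rw [key, key, h.eq]

theorem near_cancel {W : H →L[ℂ] H} (hW : W ∈ unitary (H →L[ℂ] H)) (a : H →L[ℂ] H) :
    W * (star W * a * W) * star W = a := by
  calc W * (star W * a * W) * star W = (W * star W) * a * (W * star W) := by simp only [mul_assoc]
    _ = a := by rw [hW.2, one_mul, mul_one]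

theorem near_cancel' {W : H →L[ℂ] H} (hW : W ∈ unitary (H →L[ℂ] H)) (a : H →L[ℂ] H) :
    star W * (W * a * star W) * W = a := by
  calc star W * (W * a * star W) * W = (star W * W) * a * (star W * W) := by simp only [mul_assoc]
    _ = a := by rw [hW.1, one_mul, mul_one]

theorem near_pull {W a b : H →L[ℂ] H} (hW : W ∈ unitary (H →L[ℂ] H)) (h : Commute a b) :
    Commute (star W * a * W) (star W * b * W) := by
  have := near_push (Unitary.star_mem hW) h
  rwa [star_star] at this

theorem near_fix {W b : H →L[ℂ] H} (hW : W ∈ unitary (H →L[ℂ] H)) (h : Commute b W) :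
    W * b * star W = b := by
  rw [← h.eq, mul_assoc, hW.2, mul_one]

theorem near_fix' {W b : H →L[ℂ] H} (hW : W ∈ unitary (H →L[ℂ] H)) (h : Commute b W) :
    star W * b * W = b := by
  rw [mul_assoc, h.eq, ← mul_assoc, hW.1, one_mul]

theorem near_scalar_unitary {c : ℂ} (hc : ‖c‖ = 1) :
    c • (1 : H →L[ℂ] H) ∈ unitary (H →L[ℂ] H) := by
  have h1 : star c * c = 1 := by
    rw [Complex.star_def, Complex.conj_mul', hc]
    simp
  refine ⟨?_, ?_⟩
  · rw [star_smul, star_one, smul_mul_smul_comm, h1, one_mul, one_smul]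
  · rw [star_smul, star_one, smul_mul_smul_comm, mul_comm, h1, one_mul, one_smul]

theorem near_tree_comm {σ : Type*} {T : Leg (FreeGroup σ) H} {U y : H →L[ℂ] H} {w : ℝ}
    {α : FreeGroup σ →* (H →L[ℂ] H)} (h : IsTree T ((1 / 2 : ℂ) • U) w α)
    (hU : U ∈ unitary (H →L[ℂ] H)) (hy : T.Com y) (hyU : Commute y U) (g : FreeGroup σ) :
    Commute y (α g) := by
  refine h.commute (hy.f 1) hy.lam (hyU.smul_right _) ?_ g
  rw [star_smul]
  exact (commute_star_of_unitary hU hyU).smul_right _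

theorem near_tree_lip {σ : Type*} {T : Leg (FreeGroup σ) H} {U U' y : H →L[ℂ] H} {w d : ℝ}
    {α α' : FreeGroup σ →* (H →L[ℂ] H)} (h : IsTree T ((1 / 2 : ℂ) • U) w α)
    (h' : IsTree T ((1 / 2 : ℂ) • U') w α') (hy : T.Com y) (h1 : ‖U * y - y * U'‖ ≤ d)
    (h2 : ‖star U * y - y * star U'‖ ≤ d) (g : FreeGroup σ) :
    ‖α g * y - y * α' g‖ ≤ 10 * d := by
  have hd : 0 ≤ d := (norm_nonneg _).trans h1
  have hn : ‖(1 / 2 : ℂ)‖ = 1 / 2 := by simp
  have := h.lip h' (hy.f 1) hy.lam (d := d / 2) (by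
      rw [smul_mul_assoc, mul_smul_comm, ← smul_sub, norm_smul, hn]
      linarith)
    (by
      rw [star_smul, star_smul, smul_mul_assoc, mul_smul_comm, ← smul_sub, norm_smul, norm_star, hn]
      linarith)
    (by rw [sub_self, abs_zero, zero_mul]; linarith) g
  linarith

/-- The ramp. -/
noncomputable def nearC (m : ℕ) (j n : ℤ) : ℝ := max 0 (min 1 (((n : ℝ) - j) / m))

theorem nearC_norm_le (m : ℕ) (j n : ℤ) : ‖(nearC m j n : ℂ)‖ ≤ 1 := by
  rw [Complex.norm_real, Real.norm_eq_abs, nearC, abs_of_nonneg (le_max_left _ _)]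
  exact max_le zero_le_one (min_le_left _ _)

theorem nearC_step {m : ℕ} (hm : 0 < m) (j n : ℤ) :
    ‖(nearC m j n : ℂ) - nearC m j (n + 1)‖ ≤ 1 / (m : ℝ) := by
  have hm' : (0 : ℝ) < m := by exact_mod_cast hm
  rw [← Complex.ofReal_sub, Complex.norm_real, Real.norm_eq_abs, nearC, nearC]
  refine (abs_max_sub_max_le_max _ _ _ _).trans (max_le (by simp) ?_)
  refine (abs_min_sub_min_le_max _ _ _ _).trans (max_le (by simp) ?_)
  rw [← sub_div, abs_div, abs_of_pos hm']
  push_cast
  rw [show (n : ℝ) - j - (n + 1 - j) = -1 by ring, abs_neg, abs_one]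

theorem nearC_sum {m : ℕ} (hm : 0 < m) (k : ℕ) (n : ℤ) :
    ∑ j ∈ Finset.range k, ‖(if (j : ℤ) < n then (1 : ℂ) else 0) - nearC m j n‖ ≤ m := by
  have hm' : (0 : ℝ) < m := by exact_mod_cast hm
  have h1 : ∀ j ∈ Finset.range k, ‖(if (j : ℤ) < n then (1 : ℂ) else 0) - nearC m j n‖ ≤
      if (j : ℤ) ∈ Finset.Ico (n - m) n then (1 : ℝ) else 0 := by
    intro j _
    by_cases h : (j : ℤ) < n
    · rw [if_pos h]
      by_cases h' : n - m ≤ j
      · rw [if_pos (Finset.mem_Ico.2 ⟨h', h⟩), ← Complex.ofReal_one, ← Complex.ofReal_sub,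
          Complex.norm_real, Real.norm_eq_abs, abs_le, nearC]
        have a1 := le_max_left (0 : ℝ) (min 1 (((n : ℝ) - (j : ℤ)) / m))
        have a2 : max (0 : ℝ) (min 1 (((n : ℝ) - (j : ℤ)) / m)) ≤ 1 :=
          max_le zero_le_one (min_le_left _ _)
        constructor <;> linarith
      · have a1 : ((j : ℤ) : ℝ) + m ≤ n := by exact_mod_cast (by omega : (j : ℤ) + m ≤ n)
        have a2 : nearC m j n = 1 := by
          rw [nearC, min_eq_left, max_eq_right zero_le_one]
          rw [le_div_iff₀ hm']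
          linarith
        rw [a2, if_neg fun hh => h' (Finset.mem_Ico.1 hh).1]
        simp
    · have a1 : (n : ℝ) ≤ (j : ℤ) := by exact_mod_cast not_lt.1 h
      have a2 : nearC m j n = 0 :=
        max_eq_left ((min_le_right _ _).trans (div_nonpos_of_nonpos_of_nonneg (by linarith) hm'.le))
      rw [a2, if_neg h, if_neg fun hh => h (Finset.mem_Ico.1 hh).2]
      simp
  refine (Finset.sum_le_sum h1).trans ?_
  rw [Finset.sum_boole]
  have h2 : ((Finset.range k).filter fun j : ℕ => (j : ℤ) ∈ Finset.Ico (n - m) n).card ≤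
      (Finset.Ico (n - m) n).card :=
    Finset.card_le_card_of_injOn (fun j : ℕ => (j : ℤ))
      (fun j hj => Finset.mem_coe.2 (Finset.mem_filter.1 (Finset.mem_coe.1 hj)).2)
      fun _ _ _ _ h => Int.natCast_inj.1 h
  rw [Int.card_Ico, show n - (n - m) = m by ring, Int.toNat_natCast] at h2
  exact_mod_cast h2

theorem near_telescope {A : Type*} [AddCommGroup A] [Module ℂ A] (F : ℤ → A) (k : ℕ)
    (h0 : ∀ n, n ≤ 0 → F n = F 0) (hk : ∀ n, (k : ℤ) ≤ n → F n = F k) (n : ℤ) :
    F n = F 0 + ∑ j ∈ Finset.range k,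
      (if (j : ℤ) < n then (1 : ℂ) else 0) • (F ((j : ℤ) + 1) - F j) := by
  have h1 : F n = F (min n.toNat k : ℕ) := by
    rcases le_total n 0 with h | h
    · rw [h0 n h, Int.toNat_of_nonpos h]
      simp
    · rcases le_total n k with h' | h'
      · congr 1
        omega
      · rw [hk n h']
        congr 1
        omega
  have h2 : (Finset.range k).filter (fun j : ℕ => (j : ℤ) < n) = Finset.range (min n.toNat k) := by
    ext j
    simp only [Finset.mem_filter, Finset.mem_range]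
    omega
  simp only [ite_smul, one_smul, zero_smul]
  rw [← Finset.sum_filter, h2]
  have h3 := Finset.sum_range_sub (fun j : ℕ => F j) (min n.toNat k)
  push_cast at h3 h1 ⊢
  rw [h3, h1]
  abel

theorem near_V_dg {κ Γ : Type*} [Group Γ] (M : Model κ Γ H) {c : ℤ → ℂ} (hc : ∀ n, ‖c n‖ ≤ 1)
    {d : ℝ} (hd : ∀ n, ‖c n - c (n + 1)‖ ≤ d) :
    ‖M.V * dg M.r c - dg M.r c * M.V‖ ≤ d ∧
      ‖star M.V * dg M.r c - dg M.r c * star M.V‖ ≤ d := by
  have hV := M.V_unitary
  have hd0 : 0 ≤ d := (norm_nonneg _).trans (hd 0)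
  have h1 : M.V * dg M.r c - dg M.r c * M.V = M.V * dg M.r fun n => c n - c (n + 1) := by
    refine M.res_r.ext fun n => ?_
    rw [sub_mul, mul_assoc, mul_assoc, mul_assoc, M.res_r.dg_mul hc, M.res_r.dg_mul hd,
      M.V_r n, ← mul_assoc, M.res_r.dg_mul hc, mul_smul_comm, mul_smul_comm, smul_mul_assoc,
      M.V_r n, sub_smul]
  have h2 : ‖M.V * dg M.r c - dg M.r c * M.V‖ ≤ d := by
    rw [h1]
    refine (norm_mul_le _ _).trans ?_
    have := mul_le_mul (unitary_norm_le hV) (M.res_r.norm_dg_le hd0 hd) (norm_nonneg _) zero_le_one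
    rwa [one_mul] at this
  refine ⟨h2, ?_⟩
  have h3 : dg M.r c * star M.V - star M.V * dg M.r c =
      star M.V * (M.V * dg M.r c - dg M.r c * M.V) * star M.V := by
    calc _ = (star M.V * M.V) * dg M.r c * star M.V - star M.V * dg M.r c * (M.V * star M.V) := by
          rw [hV.1, hV.2, one_mul, mul_one]
      _ = _ := by simp only [mul_sub, sub_mul, mul_assoc]
  rw [norm_sub_rev, h3]
  have hs := unitary_norm_le (Unitary.star_mem hV)
  calc _ ≤ ‖star M.V‖ * ‖M.V * dg M.r c - dg M.r c * M.V‖ * ‖star M.V‖ := norm_mul₃_le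
    _ ≤ 1 * d * 1 := by gcongr
    _ = d := by ring

theorem near_incl {σ : Type*} (M : Model (Fin 4) (FreeGroup σ) H) {m : ℕ} (hm : 0 < m)
    {u : ℤ → ℂ} (hu : Phase (m ^ 2) u) {α β : FreeGroup σ →* (H →L[ℂ] H)}
    (hα : IsTree (M.L 1) ((1 / 2 : ℂ) • dg M.r u) (√3 / 2) α)
    (hβ : IsTree (M.L 3) ((1 / 2 : ℂ) • M.V) (√3 / 2) β) {x : H →L[ℂ] H}
    (hx : ∀ y : H →L[ℂ] H, (∀ g, Commute y ((M.L 0).lam g * α g)) →
      (∀ g, Commute y ((M.L 2).rho g)) → Commute y x) (hx1 : ‖x‖ ≤ 1) :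
    ∃ y : H →L[ℂ] H, (∀ g, Commute y ((M.L 0).rho g)) ∧
      (∀ g, Commute y ((M.L 2).lam g * β g)) ∧ ‖x - y‖ ≤ 440 / (m : ℝ) := by
  have hm' : (0 : ℝ) < m := by exact_mod_cast hm
  have hr := M.res_r
  have hu1 : ∀ n, ‖u n‖ ≤ 1 := fun n => (hu.norm_eq n).le
  have hU : dg M.r u ∈ unitary (H →L[ℂ] H) := hr.dg_unitary hu.norm_eq
  have hV := M.V_unitary
  have hun : ∀ n, u n • (1 : H →L[ℂ] H) ∈ unitary (H →L[ℂ] H) := fun n =>
    near_scalar_unitary (hu.norm_eq n)
  choose γ hγ using fun n => exists_tree (treePar_unitary (T := M.L 1) (hun n)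
    ((Commute.one_left _).smul_left _) fun _ => (Commute.one_left _).smul_left _)
  -- commutation facts
  have i01 := M.indep 0 1 (by decide)
  have i02 := M.indep 0 2 (by decide)
  have i03 := M.indep 0 3 (by decide)
  have i13 := M.indep 1 3 (by decide)
  have i20 := M.indep 2 0 (by decide)
  have i21 := M.indep 2 1 (by decide)
  have i23 := M.indep 2 3 (by decide)
  have hrL : ∀ i n, (M.L i).Com (M.r n) := fun i n => (M.indepZ i).symm.f _
  have cα : ∀ {y : H →L[ℂ] H}, (M.L 1).Com y → (∀ n, Commute y (M.r n)) → ∀ g, Commute y (α g) :=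
    fun h1 h2 => near_tree_comm hα hU h1 (hr.commute_dg hu1 h2)
  have cγ : ∀ {y : H →L[ℂ] H}, (M.L 1).Com y → ∀ n g, Commute y (γ n g) :=
    fun h1 n => near_tree_comm (hγ n) (hun n) h1 ((Commute.one_right _).smul_right _)
  have cβ : ∀ {y : H →L[ℂ] H}, (M.L 3).Com y → M.Z.Com y → ∀ g, Commute y (β g) :=
    fun h1 h2 => near_tree_comm hβ hV h1 (h2.lam _)
  have fα : ∀ g z, Commute (α g) ((M.L 0).f z) := fun g z =>
    (cα (i01.f z) (fun _ => ((M.indepZ 0).f z).f _) g).symm
  have fγ : ∀ n g z, Commute (γ n g) ((M.L 0).f z) := fun n g z => (cγ (i01.f z) n g).symm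
  have fβ : ∀ g z, Commute (β g) ((M.L 2).f z) := fun g z =>
    (cβ (i23.f z) ((M.indepZ 2).f z) g).symm
  have bα := (M.L 0).blk_rep hα.star_eq fα
  have bγ := fun n => (M.L 0).blk_rep (hγ n).star_eq (fγ n)
  have bβ := (M.L 2).blk_rep hβ.star_eq fβ
  obtain ⟨hW, eW⟩ := (M.L 0).fell hα.star_eq fα fun g h =>
    (cα (i01.lam h) (fun _ => ((M.indepZ 0).lam h).f _) g).symm
  have hWn := fun n => (M.L 0).fell (hγ n).star_eq (fγ n) fun g h => (cγ (i01.lam h) n g).symm
  obtain ⟨hW2, eW2⟩ := (M.L 2).fell hβ.star_eq fβ fun g h =>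
    (cβ (i23.lam h) ((M.indepZ 2).lam h) g).symm
  set W := bsum (M.L 0).f α with hWdef
  set W2 := bsum (M.L 2).f β with hW2def
  set Wn : ℤ → H →L[ℂ] H := fun n => bsum (M.L 0).f (γ n) with hWndef
  set a := star W * x * W with hadef
  have ha : ∀ y : H →L[ℂ] H, (∀ g, Commute y ((M.L 0).lam g)) →
      (∀ g, Commute y ((M.L 2).rho g)) → Commute y a := by
    intro y h1 h2
    have h3 := hx (W * y * star W) (fun g => eW g ▸ near_push hW (h1 g)) fun g => by
      have h4 : Commute ((M.L 2).rho g) W := (M.L 0).res.commute_bsum bα (i20.rho g).f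
        (cα (i21.rho g) fun _ => ((M.indepZ 2).rho g).f _)
      exact near_fix hW h4 ▸ near_push hW (h2 g)
    have h5 := near_pull hW h3
    rwa [near_cancel' hW] at h5
  set F : ℤ → H →L[ℂ] H := fun n => Wn n * a * star (Wn n) with hFdef
  have hF : ∀ n (q : H →L[ℂ] H), (∀ g, Commute q ((M.L 0).lam g * γ n g)) →
      (∀ g, Commute q ((M.L 2).rho g)) → Commute q (F n) := by
    intro n q h1 h2
    have hw : Wn n ∈ unitary (H →L[ℂ] H) := (hWn n).1
    have h3 := ha (star (Wn n) * q * Wn n) (fun g => by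
      have h4 := near_pull hw (h1 g)
      rwa [← (hWn n).2 g, near_cancel' hw] at h4) fun g => by
      have h4 : Commute ((M.L 2).rho g) (Wn n) := (M.L 0).res.commute_bsum (bγ n) (i20.rho g).f
        (cγ (i21.rho g) n)
      exact near_fix' hw h4 ▸ near_pull hw (h2 g)
    have h5 := near_push hw h3
    rwa [near_cancel hw] at h5
  have hFr : ∀ n j, Commute (M.r j) (F n) := fun n j =>
    hF n _ (fun g => ((hrL 0 j).lam g).mul_right (cγ (hrL 1 j) n g)) (hrL 2 j).rho
  have hxr : ∀ n, x * M.r n = F n * M.r n := by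
    intro n
    have h1 : W * M.r n = M.r n * Wn n := by
      refine sub_eq_zero.1 (norm_le_zero_iff.1
        ((M.L 0).res.norm_bsum_sub bα (bγ n) (hrL 0 n).f le_rfl fun g => ?_))
      have := near_tree_lip hα (hγ n) (hrL 1 n) (d := 0)
        (by rw [hr.dg_mul hu1, mul_smul_comm, mul_one, sub_self, norm_zero])
        (by
          rw [hr.star_dg hu1, hr.dg_mul (C := 1) (fun i => by rw [norm_star]; exact hu1 i),
            star_smul, star_one, mul_smul_comm, mul_one, sub_self, norm_zero]) g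
      rwa [mul_zero] at this
    have h2 : Commute (M.r n) W := (M.L 0).res.commute_bsum bα (hrL 0 n).f
      (cα (hrL 1 n) (hr.commute n))
    have h3 : Commute (M.r n) (Wn n) := (M.L 0).res.commute_bsum (bγ n) (hrL 0 n).f
      (cγ (hrL 1 n) n)
    have h4 : star W * M.r n = star (Wn n) * M.r n := by
      have := congrArg star (h2.eq.trans h1)
      rwa [star_mul, star_mul, hr.star_eq] at this
    have h5 : Commute (M.r n) (a * star (Wn n)) :=
      (ha _ (hrL 0 n).lam (hrL 2 n).rho).mul_right (commute_star_of_unitary (hWn n).1 h3)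
    calc x * M.r n = W * a * star W * M.r n := by rw [hadef, near_cancel hW]
      _ = W * (a * star (Wn n) * M.r n) := by simp only [mul_assoc, h4]
      _ = M.r n * F n := by rw [← h5.eq, ← mul_assoc, h1]; simp only [hFdef, mul_assoc]
      _ = F n * M.r n := (hFr n n).eq
  have ha1 : ‖a‖ ≤ 1 := by
    have h1 := unitary_norm_le hW
    have h2 := unitary_norm_le (Unitary.star_mem hW)
    calc ‖a‖ ≤ ‖star W‖ * ‖x‖ * ‖W‖ := norm_mul₃_le
      _ ≤ 1 * 1 * 1 := by gcongr
      _ = 1 := by ring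
  have hFl : ∀ n n', ‖F n - F n'‖ ≤ 20 * ‖u n - u n'‖ := by
    intro n n'
    have hone : ‖(1 : H →L[ℂ] H)‖ ≤ 1 := unitary_norm_le (one_mem _)
    have h1 : ‖Wn n * 1 - 1 * Wn n'‖ ≤ 10 * ‖u n - u n'‖ := by
      refine (M.L 0).res.norm_bsum_sub (bγ n) (bγ n') (fun _ => Commute.one_left _)
        (by positivity) fun g => near_tree_lip (hγ n) (hγ n')
          ⟨fun _ => Commute.one_left _, fun _ => Commute.one_left _, fun _ => Commute.one_left _⟩
          ?_ ?_ g
      · rw [mul_one, one_mul, ← sub_smul, norm_smul]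
        exact mul_le_of_le_one_right (norm_nonneg _) hone
      · rw [mul_one, one_mul, ← star_sub, norm_star, ← sub_smul, norm_smul]
        exact mul_le_of_le_one_right (norm_nonneg _) hone
    rw [mul_one, one_mul] at h1
    calc ‖F n - F n'‖ ≤ 2 * ‖Wn n - Wn n'‖ * ‖a‖ := norm_conj_sub (hWn n).1 (hWn n').1
      _ ≤ 2 * (10 * ‖u n - u n'‖) * 1 := by gcongr
      _ = _ := by ring
  have hFeq : ∀ n n', u n = u n' → F n = F n' := fun n n' h => by
    have := hFl n n'
    rw [h, sub_self, norm_zero, mul_zero] at this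
    exact sub_eq_zero.1 (norm_le_zero_iff.1 this)
  have hFs : ∀ n, ‖F (n + 1) - F n‖ ≤ 40 / (m : ℝ) ^ 2 := fun n => by
    have h1 := hu.step n
    push_cast at h1
    calc _ ≤ 20 * ‖u (n + 1) - u n‖ := hFl _ _
      _ ≤ 20 * (2 / (m : ℝ) ^ 2) := by gcongr
      _ = _ := by ring
  set ψ : ℤ → H →L[ℂ] H := fun j => dg M.r fun n => (nearC m j n : ℂ) with hψdef
  have cψ : ∀ {y : H →L[ℂ] H}, (∀ n, Commute y (M.r n)) → ∀ j, Commute y (ψ j) :=
    fun h j => hr.commute_dg (nearC_norm_le m j) h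
  have hψL : ∀ i j, (M.L i).Com (ψ j) := fun i j =>
    ⟨fun z => (cψ (fun n => ((hrL i n).f z).symm) j).symm,
      fun z => (cψ (fun n => ((hrL i n).lam z).symm) j).symm,
      fun z => (cψ (fun n => ((hrL i n).rho z).symm) j).symm⟩
  have hψ : ∀ j, ‖W2 * ψ j * star W2 - ψ j‖ ≤ 10 * (1 / (m : ℝ)) := by
    intro j
    obtain ⟨h1, h2⟩ := near_V_dg M (nearC_norm_le m j) (nearC_step hm j)
    have h3 : ‖W2 * ψ j - ψ j * W2‖ ≤ 10 * (1 / (m : ℝ)) :=
      (M.L 2).res.norm_bsum_sub bβ bβ (hψL 2 j).f (by positivity)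
        (near_tree_lip hβ hβ (hψL 3 j) h1 h2)
    have h4 : W2 * ψ j * star W2 - ψ j = (W2 * ψ j - ψ j * W2) * star W2 := by
      rw [sub_mul, mul_assoc (ψ j), hW2.2, mul_one]
    rw [h4]
    exact (norm_mul_le _ _).trans ((mul_le_of_le_one_right (norm_nonneg _)
      (unitary_norm_le (Unitary.star_mem hW2))).trans h3)
  refine ⟨F 0 + ∑ j ∈ Finset.range (m ^ 2), (F ((j : ℤ) + 1) - F j) * (W2 * ψ j * star W2),
    fun g => ?_, fun g => ?_, ?_⟩
  · have h1 : ∀ n, Commute ((M.L 0).rho g) (F n) := fun n =>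
      hF n _ (fun h => ((M.L 0).lam_rho h g).symm.mul_right (cγ (i01.rho g) n h)) (i02.rho g).rho
    have h2 : Commute ((M.L 0).rho g) W2 := (M.L 2).res.commute_bsum bβ (i02.rho g).f
      (cβ (i03.rho g) ((M.indepZ 0).rho g))
    refine ((h1 0).add_right (Commute.sum_right _ _ _ fun j _ => ?_)).symm
    exact ((h1 _).sub_right (h1 _)).mul_right
      ((h2.mul_right ((hψL 0 j).rho g).symm).mul_right (commute_star_of_unitary hW2 h2))
  · have hb : (M.L 1).Com (β g) :=
      ⟨fun z => (cβ (i13.f z) ((M.indepZ 1).f z) g).symm,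
        fun z => (cβ (i13.lam z) ((M.indepZ 1).lam z) g).symm,
        fun z => (cβ (i13.rho z) ((M.indepZ 1).rho z) g).symm⟩
    have h1 : ∀ n, Commute ((M.L 2).lam g * β g) (F n) := fun n =>
      hF n _ (fun h => (((i20.lam g).lam h).mul_right (cγ (i21.lam g) n h)).mul_left
          ((cβ (i03.lam h) ((M.indepZ 0).lam h) g).symm.mul_right (cγ hb n h)))
        fun h => ((M.L 2).lam_rho g h).mul_left (cβ (i23.rho h) ((M.indepZ 2).rho h) g).symm
    refine ((h1 0).add_right (Commute.sum_right _ _ _ fun j _ => ?_)).symm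
    refine ((h1 _).sub_right (h1 _)).mul_right ?_
    rw [← eW2 g]
    exact near_push hW2 ((hψL 2 j).lam g).symm
  · set y₀ := F 0 + ∑ j ∈ Finset.range (m ^ 2), (F ((j : ℤ) + 1) - F j) * ψ j with hy₀
    have h1 : ‖x - y₀‖ ≤ m * (40 / (m : ℝ) ^ 2) := by
      refine hr.norm_le (fun n => ?_) (by positivity) fun n => ?_
      · refine (Commute.sub_right (hx _ (fun g => ((hrL 0 n).lam g).mul_right
          (cα (hrL 1 n) (hr.commute n) g)) (hrL 2 n).rho) ?_).symm
        exact (hFr 0 n).add_right (Commute.sum_right _ _ _ fun j _ =>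
          ((hFr _ n).sub_right (hFr _ n)).mul_right (cψ (hr.commute n) j))
      · have h2 := near_telescope F (m ^ 2)
          (fun n hn => hFeq _ _ (by rw [hu.left n hn, hu.left 0 le_rfl]))
          (fun n hn => hFeq _ _ (by rw [hu.right n hn, hu.right _ le_rfl])) n
        have h3 : (x - y₀) * M.r n = ∑ j ∈ Finset.range (m ^ 2),
            ((if (j : ℤ) < n then (1 : ℂ) else 0) - nearC m j n) •
              ((F ((j : ℤ) + 1) - F j) * M.r n) := by
          rw [sub_mul, hxr, h2, hy₀, add_mul, add_mul, add_sub_add_left_eq_sub, Finset.sum_mul,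
            Finset.sum_mul, ← Finset.sum_sub_distrib]
          refine Finset.sum_congr rfl fun j _ => ?_
          rw [mul_assoc, hr.dg_mul (nearC_norm_le m j), smul_mul_assoc, mul_smul_comm, sub_smul]
        rw [h3]
        refine (norm_sum_le _ _).trans ?_
        calc _ ≤ ∑ j ∈ Finset.range (m ^ 2),
              ‖(if (j : ℤ) < n then (1 : ℂ) else 0) - nearC m j n‖ * (40 / (m : ℝ) ^ 2) := by
              refine Finset.sum_le_sum fun j _ => ?_
              rw [norm_smul]
              refine mul_le_mul_of_nonneg_left ((norm_mul_le _ _).trans ?_) (norm_nonneg _)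
              exact (mul_le_of_le_one_right (norm_nonneg _) (hr.norm_le_one n)).trans (hFs j)
          _ ≤ m * (40 / (m : ℝ) ^ 2) := by
              rw [← Finset.sum_mul]
              exact mul_le_mul_of_nonneg_right (nearC_sum hm _ n) (by positivity)
    have h2 : ‖F 0 + ∑ j ∈ Finset.range (m ^ 2), (F ((j : ℤ) + 1) - F j) * (W2 * ψ j * star W2) -
        y₀‖ ≤ (m ^ 2 : ℕ) * (40 / (m : ℝ) ^ 2 * (10 * (1 / (m : ℝ)))) := by
      rw [hy₀, add_sub_add_left_eq_sub, ← Finset.sum_sub_distrib]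
      refine (norm_sum_le _ _).trans ((Finset.sum_le_card_nsmul _ _
        (40 / (m : ℝ) ^ 2 * (10 * (1 / (m : ℝ)))) fun j _ => ?_).trans ?_)
      · rw [← mul_sub]
        exact (norm_mul_le _ _).trans (mul_le_mul (hFs j) (hψ j) (norm_nonneg _) (by positivity))
      · rw [Finset.card_range, nsmul_eq_mul]
    refine (norm_sub_le_norm_sub_add_norm_sub _ y₀ _).trans ?_
    rw [norm_sub_rev y₀]
    refine (add_le_add h1 h2).trans (le_of_eq ?_)
    push_cast
    field_simp
    norm_num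

end Crest.Agent.R078X
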