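import Crest.Agent.R078X.Alg
import Crest.Agent.R078X.Slice
import Crest.Agent.R078X.Tree

/-! Row 78 (X): the two algebras of S0105 are not conjugate. -/

set_option autoImplicit false

open scoped InnerProductSpace

namespace Crest.Agent.R078X

variable {H : Type*} [NormedAddCommGroup H] [InnerProductSpace ℂ H] [CompleteSpace H]

theorem IsTree.good {σ : Type*} {M : Model (Fin 2) (FreeGroup σ) H} {t w : ℝ}
    {π : FreeGroup σ →* (H →L[ℂ] H)} (h : IsTree (M.L 1) ((t : ℂ) • (1 : H →L[ℂ] H)) w π) :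
    Good M π :=
  ⟨h.star_eq, h.mem (StarAlgebra.subset_adjoin ℂ _ (Or.inr rfl))
    (fun g => StarAlgebra.subset_adjoin ℂ _ (Or.inl ⟨g, rfl⟩)) (SMulMemClass.smul_mem _ (one_mem _))⟩

section Aux

variable {Γ : Type*} [Group Γ] {M : Model (Fin 2) Γ H} {π : Γ →* (H →L[ℂ] H)}

theorem nonconj_iff (h : Good M π) (y : H →L[ℂ] H) :
    (∀ a ∈ At M π, Commute y a) ↔ ∀ e ∈ Eo M, Commute y e := by
  have := Set.ext_iff.1 (centralizer_At h) y
  simp only [Set.mem_centralizer_iff, SetLike.mem_coe] at this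
  exact ⟨fun k e he => (this.1 (fun a ha => (k a ha).symm) e he).symm,
    fun k e he => (this.2 (fun a ha => (k a ha).symm) e he).symm⟩

theorem nonconj_gens {y : H →L[ℂ] H} (h : ∀ e ∈ Eo M, Commute y e) :
    (∀ g, Commute y ((M.L 0).lam g)) ∧ (∀ g, Commute y ((M.L 1).lam g)) ∧
      (∀ x, Commute y ((M.L 1).f x)) ∧ ∀ n, Commute y (M.r n) := by
  have h2 : ∀ g, Commute y ((M.L 1).lam g) := fun g =>
    h _ (StarAlgebra.subset_adjoin ℂ _ (Or.inl (Or.inl (Or.inr ⟨g, rfl⟩))))
  exact ⟨fun g => h _ (StarAlgebra.subset_adjoin ℂ _ (Or.inl (Or.inl (Or.inl ⟨g, rfl⟩)))), h2,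
    (M.L 1).commute_f (h _ (StarAlgebra.subset_adjoin ℂ _ (Or.inl (Or.inr rfl)))) h2,
    fun n => h _ (StarAlgebra.subset_adjoin ℂ _ (Or.inr ⟨n, rfl⟩))⟩

theorem nonconj_rho (M : Model (Fin 2) Γ H) (g : Γ) : ∀ e ∈ Eo M, Commute ((M.L 0).rho g) e :=
  fun _ he => commute_Eo (fun h => ((M.L 0).lam_rho h g).symm)
    (((M.indep 0 1 (by decide)).rho g).lam) (((M.indep 0 1 (by decide)).rho g).f 1)
    (fun _ => ((M.indepZ 0).rho g).f _) he

theorem nonconj_r (M : Model (Fin 2) Γ H) (n : ℤ) : ∀ e ∈ Eo M, Commute (M.r n) e :=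
  fun _ he => commute_Eo (fun h => (((M.indepZ 0).lam h).f _).symm)
    (fun h => (((M.indepZ 1).lam h).f _).symm) (((M.indepZ 1).f 1).f _).symm
    (fun m => M.res_r.commute n m) he

theorem nonconj_conj {u a b : H →L[ℂ] H} (hu : star u * u = 1) (h : Commute a b) :
    Commute (u * a * star u) (u * b * star u) := by
  have e : ∀ a b : H →L[ℂ] H, u * a * star u * (u * b * star u) = u * (a * b) * star u :=
    fun a b => by
      simp only [mul_assoc]
      rw [← mul_assoc (star u) u, hu, one_mul]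
  rw [Commute, SemiconjBy, e, e, h.eq]

theorem nonconj_cancel {u : H →L[ℂ] H} (hu : star u * u = 1) (a : H →L[ℂ] H) :
    star u * (u * a * star u) * u = a := by
  simp only [mul_assoc]
  rw [hu, mul_one, ← mul_assoc, hu, one_mul]

theorem nonconj_norm {u v a : H →L[ℂ] H} (hu : ‖u‖ ≤ 1) (hv : ‖v‖ ≤ 1) : ‖u * a * v‖ ≤ ‖a‖ :=
  (norm_mul_le _ _).trans ((mul_le_of_le_one_right (norm_nonneg _) hv).trans
    ((norm_mul_le _ _).trans (mul_le_of_le_one_left (norm_nonneg _) hu)))

theorem nonconj_Do {W : H →L[ℂ] H} (hW : W ∈ unitary (H →L[ℂ] H))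
    (h : ∀ g, W * (M.L 1).lam g * star W = (M.L 1).lam g * (M.L 0).lam g) {c : H →L[ℂ] H}
    (hc : c ∈ Do M (M.L 1).lam) :
    ∀ z, (∀ g, Commute z ((M.L 1).lam g)) → Commute (star W * c * W) z := by
  induction hc using StarAlgebra.adjoin_induction with
  | mem c hc =>
    obtain ⟨g, rfl⟩ := hc
    intro z hz
    show Commute (star W * ((M.L 0).lam g * (M.L 1).lam g) * W) z
    rw [(((M.indep 0 1 (by decide)).lam g).lam g).eq, ← h, nonconj_cancel hW.1]
    exact (hz g).symm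
  | algebraMap r =>
    intro z _
    rw [mul_assoc, Algebra.commutes, ← mul_assoc, hW.1, one_mul]
    exact Algebra.commute_algebraMap_left r z
  | add a b _ _ ha hb =>
    intro z hz
    rw [mul_add, add_mul]
    exact (ha z hz).add_left (hb z hz)
  | mul a b _ _ ha hb =>
    intro z hz
    have e : star W * (a * b) * W = star W * a * W * (star W * b * W) := by
      simp only [mul_assoc]
      rw [← mul_assoc W (star W), hW.2, one_mul]
    rw [e]
    exact (ha z hz).mul_left (hb z hz)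
  | star a _ ha =>
    intro z hz
    have := (ha (star z) fun g => by
      have := (hz g⁻¹).star_star
      rwa [(M.L 1).star_lam, inv_inv] at this).star_star
    simpa only [star_mul, star_star, mul_assoc] using this

end Aux

/-- The upper bound. -/
theorem nonconj_upper {σ : Type*} [Fintype σ] (M : Model (Fin 2) (FreeGroup σ) H)
    {x y r k : σ → H →L[ℂ] H} (hx : ∀ s, x s ∈ At M (M.L 1).lam)
    (hy : ∀ s, ∀ e ∈ Eo M, Commute (y s) e) (hy1 : ∀ s, ‖y s‖ ≤ 1) (hr : Row r) (hk : Col k)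
    (hrk : ∀ s, x s = r s + k s) {η : ℝ} (hη : 0 < η) :
    ∃ n, ‖(∑ s, x s * y s) * M.r n‖ ≤ 2 * √(Fintype.card σ : ℝ) + 2 * (Fintype.card σ * η) := by
  classical
  choose c hc j hj hcj using fun s => At_approx (good_lam M) (hx s) hη
  choose S hS using fun s => (hj s).2
  obtain ⟨n, hn⟩ := Infinite.exists_notMem_finset (Finset.univ.biUnion S)
  have hjn : ∀ s, j s * M.r n = 0 := fun s =>
    hS s n fun h => hn (Finset.mem_biUnion.2 ⟨s, Finset.mem_univ _, h⟩)
  have hxc : ∀ s, ‖(x s - c s) * M.r n‖ ≤ η := fun s => by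
    have e : (x s - c s) * M.r n = (x s - (c s + j s)) * M.r n := by
      rw [← sub_sub, sub_mul _ (j s), hjn, sub_zero]
    rw [e]
    exact (norm_mul_le _ _).trans ((mul_le_of_le_one_right (norm_nonneg _)
      (M.res_r.norm_le_one n)).trans (hcj s).le)
  have i01 := M.indep 0 1 (by decide)
  have hb := (M.L 1).blk_rep (M.L 0).star_lam fun g => (i01.lam g).f
  obtain ⟨hW, hW'⟩ := (M.L 1).fell (M.L 0).star_lam (fun g => (i01.lam g).f)
    fun g => (i01.lam g).lam
  have hcW : ∀ z, (∀ e ∈ Eo M, Commute z e) → Commute z (bsum (M.L 1).f (M.L 0).lam) :=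
    fun z hz => (M.L 1).res.commute_bsum hb (nonconj_gens hz).2.2.1 (nonconj_gens hz).1
  generalize bsum (M.L 1).f (M.L 0).lam = W at hW hW' hcW
  have n1 := unitary_norm_le hW
  have n2 : ‖star W‖ ≤ 1 := by rwa [norm_star]
  have hrW := hcW _ (nonconj_r M n)
  have key := slice_bound M n (c := fun s => star W * c s * W) (y := y)
    (fun s x => nonconj_Do hW hW' (hc s) _ (i01.f x).lam)
    (fun s g => nonconj_Do hW hW' (hc s) _ (i01.lam g).lam)
    (fun s => nonconj_Do hW hW' (hc s) _ (nonconj_gens (nonconj_r M n)).2.1)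
    (fun s => (nonconj_gens (hy s)).2.2.1) (fun s => (nonconj_gens (hy s)).2.1)
    (fun s => (nonconj_gens (hy s)).2.2.2 n) hy1 (hr.conj n2 n1) (hk.conj n2 n1) (η := η)
    fun s => by
      have e : (star W * c s * W - star W * r s * W - star W * k s * W) * M.r n =
          star W * (-((x s - c s) * M.r n)) * W := by
        rw [mul_assoc (star W) (-_), neg_mul, mul_assoc (x s - c s), hrW.eq, hrk]
        noncomm_ring
      rw [e]
      exact (nonconj_norm n2 n1).trans ((norm_neg _).trans_le (hxc s))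
  have e1 : (∑ s, c s * y s) * M.r n = W * ((∑ s, star W * c s * W * y s) * M.r n) * star W := by
    simp only [Finset.sum_mul, Finset.mul_sum]
    refine Finset.sum_congr rfl fun s _ => ?_
    simp only [mul_assoc]
    rw [← mul_assoc W (star W), hW.2, one_mul, ← mul_assoc W (y s), ← (hcW _ (hy s)).eq,
      mul_assoc (y s), ← mul_assoc W (M.r n), ← hrW.eq, mul_assoc (M.r n), hW.2, mul_one]
  have e2 : (∑ s, x s * y s) * M.r n =
      (∑ s, c s * y s) * M.r n + ∑ s, (x s - c s) * M.r n * y s := by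
    simp only [Finset.sum_mul, ← Finset.sum_add_distrib]
    refine Finset.sum_congr rfl fun s _ => ?_
    rw [mul_assoc (x s - c s), ← ((nonconj_gens (hy s)).2.2.2 n).eq]
    noncomm_ring
  have k1 : ‖∑ s, (x s - c s) * M.r n * y s‖ ≤ Fintype.card σ * η := by
    refine (norm_sum_le_of_le _ fun s _ => (norm_mul_le _ _).trans
      ((mul_le_of_le_one_right (norm_nonneg _) (hy1 s)).trans (hxc s))).trans ?_
    rw [Finset.sum_const, Finset.card_univ, nsmul_eq_mul]
  refine ⟨n, ?_⟩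
  rw [e2, e1]
  linarith [norm_add_le (W * ((∑ s, star W * c s * W * y s) * M.r n) * star W)
    (∑ s, (x s - c s) * M.r n * y s),
    nonconj_norm (a := (∑ s, star W * c s * W * y s) * M.r n) n1 n2]

/-- The lower bound. -/
theorem nonconj_lower {σ : Type*} [Fintype σ] (M : Model (Fin 2) (FreeGroup σ) H) {t w : ℝ}
    {π : FreeGroup σ →* (H →L[ℂ] H)} (h : IsTree (M.L 1) ((t : ℂ) • (1 : H →L[ℂ] H)) w π)
    (hd : 4 < Fintype.card σ) {q : H →L[ℂ] H} (hq0 : q ≠ 0) (hqq : q * q = q)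
    (hq : ∀ e ∈ Eo M, Commute q e) (hq' : ∀ g, Commute q ((M.L 0).rho g)) :
    t * Fintype.card σ ≤ ‖(∑ s, (M.L 0).lam (FreeGroup.of s) * π (FreeGroup.of s) *
      (M.L 0).rho (FreeGroup.of s)) * q‖ := by
  obtain ⟨c1, c2, c3, -⟩ := nonconj_gens hq
  have c4 := commute_f_of_gap (M.L 0) hd c1 hq'
  have i01 := M.indep 0 1 (by decide)
  have hne : q * ((M.L 0).f 1 * (M.L 1).f 1) ≠ 0 := fun h0 => hq0 <| by
    refine (M.L 0).res.ext fun x => (M.L 1).res.ext fun y => ?_
    have e1 : q * (M.L 0).f 1 * (M.L 1).f y = 0 := by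
      rw [(M.L 1).f_eq y, ← mul_assoc, ← mul_assoc,
        ((c2 y).mul_left ((i01.f 1).lam y)).eq, mul_assoc ((M.L 1).lam y), mul_assoc q, h0]
      simp
    rw [(M.L 0).f_eq x, ← mul_assoc, ← mul_assoc, (c1 x).eq, mul_assoc _ ((M.L 0).lam x⁻¹),
      ((i01.lam x⁻¹).f y).eq, ← mul_assoc, mul_assoc ((M.L 0).lam x), mul_assoc ((M.L 0).lam x), e1]
    simp
  set ξ := q * ((M.L 0).f 1 * (M.L 1).f 1) with hξ
  have f1 : q * ξ = ξ := by rw [hξ, ← mul_assoc, hqq]
  have f2 : (M.L 0).f 1 * ξ = ξ := by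
    rw [hξ, ← mul_assoc, ← c4.eq, mul_assoc, ← mul_assoc ((M.L 0).f 1), (M.L 0).res.mul_self]
  have f3 : (M.L 1).f 1 * ξ = ξ := by
    rw [hξ, ((c3 1).symm.mul_right (((i01.f 1).f 1).symm.mul_right (Commute.refl _))).eq,
      mul_assoc, mul_assoc, (M.L 1).res.mul_self]
  have e : (M.L 1).f 1 * ((∑ s, (M.L 0).lam (FreeGroup.of s) * π (FreeGroup.of s) *
      (M.L 0).rho (FreeGroup.of s)) * q) * ξ = ((t * Fintype.card σ : ℝ) : ℂ) • ξ := by
    rw [mul_assoc, mul_assoc, f1, Finset.sum_mul, Finset.mul_sum,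
      Finset.sum_congr rfl (g := fun _ => (t : ℂ) • ξ) fun s _ => ?_]
    · rw [Finset.sum_const, Finset.card_univ, ← Nat.cast_smul_eq_nsmul ℂ, smul_smul]
      push_cast
      rw [mul_comm]
    · rw [← ((h.good.com (FreeGroup.of s)).lam _).eq, mul_assoc (π _), mul_assoc (π _)]
      conv_lhs => rw [← f2, ← mul_assoc _ ((M.L 0).f 1), (M.L 0).fix, f2, ← f3, ← mul_assoc,
        ← mul_assoc, h.diag, smul_mul_assoc, one_mul, smul_mul_assoc, f3]
  have k := congrArg norm e
  rw [norm_smul, Complex.norm_real] at k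
  have k2 := (norm_mul_le _ _).trans (mul_le_mul_of_nonneg_right ((norm_mul_le _ _).trans
    (mul_le_of_le_one_left (norm_nonneg _) ((M.L 1).res.norm_le_one 1))) (norm_nonneg ξ))
    |>.trans_eq' k
  exact (le_abs_self _).trans (le_of_mul_le_mul_right k2 (norm_pos_iff.2 hne))

theorem not_conj {σ : Type*} [Fintype σ] (M : Model (Fin 2) (FreeGroup σ) H) {t w : ℝ}
    {π : FreeGroup σ →* (H →L[ℂ] H)} (h : IsTree (M.L 1) ((t : ℂ) • (1 : H →L[ℂ] H)) w π)
    (ht : 0 < t) (hd : 4 < Fintype.card σ) (hd' : 4 < t ^ 2 * Fintype.card σ) {u : H →L[ℂ] H}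
    (hu : u ∈ unitary (H →L[ℂ] H))
    (hAB : ∀ y : H →L[ℂ] H, y ∈ At M π ↔ ∃ x ∈ At M (M.L 1).lam, y = u * x * star u) :
    False := by
  have hg := h.good
  have n1 := unitary_norm_le hu
  have n2 : ‖star u‖ ≤ 1 := by rwa [norm_star]
  choose x hx hxe using fun s : σ => (hAB _).1 (tau_mem_At π (FreeGroup.of s))
  have hrho : ∀ g, ∀ b ∈ At M π, Commute ((M.L 0).rho g) b := fun g =>
    (nonconj_iff hg _).2 (nonconj_rho M g)
  have hy : ∀ g, ∀ e ∈ Eo M, Commute (star u * (M.L 0).rho g * u) e := fun g =>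
    (nonconj_iff (good_lam M) _).1 fun a ha => by
      have := nonconj_conj (u := star u) (by rw [star_star]; exact hu.2)
        (hrho g _ ((hAB _).2 ⟨a, ha, rfl⟩))
      rwa [star_star, nonconj_cancel hu.1] at this
  obtain ⟨r, k, hr, hk, hrk⟩ := pp_lam (M.L 0) (T := fun s => π (FreeGroup.of s))
    (fun s => (hg.com _).f) fun s => rep_norm_le hg.star_eq _
  have key : ∀ η : ℝ, 0 < η →
      t * Fintype.card σ ≤ 2 * √(Fintype.card σ : ℝ) + 2 * (Fintype.card σ * η) := fun η hη => by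
    obtain ⟨n, hn⟩ := nonconj_upper M hx (fun s => hy (FreeGroup.of s))
      (fun s => (nonconj_norm n2 n1).trans (rep_norm_le (M.L 0).star_rho _)) (hr.conj n2 n1)
      (hk.conj n2 n1) (fun s => by
        rw [← add_mul, ← mul_add, ← hrk, hxe, nonconj_cancel hu.1]) hη
    have h1 := nonconj_lower M h hd (q := u * M.r n * star u) (fun h0 => ?_) ?_
      ((nonconj_iff hg _).1 fun b hb => ?_)
      fun g => (hrho g _ ((hAB _).2 ⟨_, r_mem_At _ n, rfl⟩)).symm
    · refine h1.trans (le_trans (le_of_eq ?_) ((nonconj_norm n1 n2).trans hn))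
      congr 1
      simp only [Finset.sum_mul, Finset.mul_sum, hxe, mul_assoc]
    · have h2 := nonconj_cancel hu.1 (M.r n)
      rw [h0, mul_zero, zero_mul] at h2
      have h3 := M.norm_dl n
      rw [← M.r_apply_dl n, ← h2] at h3
      simp at h3
    · simp only [mul_assoc]
      rw [← mul_assoc (star u) u, hu.1, one_mul, ← mul_assoc (M.r n), M.res_r.mul_self]
    · obtain ⟨a, ha, rfl⟩ := (hAB b).1 hb
      exact nonconj_conj hu.1 ((nonconj_iff (good_lam M) _).2 (nonconj_r M n) a ha)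
  have hd0 : (0 : ℝ) < Fintype.card σ := by exact_mod_cast (by omega : 0 < Fintype.card σ)
  generalize (Fintype.card σ : ℝ) = d at key hd' hd0
  have h1 : t * d ≤ 2 * √d := le_of_forall_pos_le_add fun ε hε => by
    have := key (ε / (2 * d)) (by positivity)
    rwa [show 2 * (d * (ε / (2 * d))) = ε by field_simp] at this
  have h2 := mul_self_le_mul_self (by positivity) h1
  have h3 := Real.mul_self_sqrt hd0.le
  nlinarith

end Crest.Agent.R078X
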