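import Crest.Agent.R078X.Avg
import Crest.Agent.R078X.Index

/-! Row 78 (X): the obstruction of S0104. -/

set_option autoImplicit false

open scoped InnerProductSpace

namespace Crest.Agent.R078X

variable {H : Type*} [NormedAddCommGroup H] [InnerProductSpace ℂ H] [CompleteSpace H]

theorem obs_avg {σ : Type*} [Fintype σ] (hd : 1600 ^ 2 ≤ Fintype.card σ) {m m' : σ → H →L[ℂ] H}
    {y : H →L[ℂ] H} (h1 : ∀ s, ‖m s - m' s‖ ≤ 2 / 1000)
    (h2 : ‖(∑ s, m' s) - (Fintype.card σ : ℂ) • y‖ ≤ 8 * √(Fintype.card σ : ℝ)) :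
    ‖((Fintype.card σ : ℂ))⁻¹ • (∑ s, m s) - y‖ ≤ 7 / 1000 := by
  have hd' : (1600 : ℝ) ^ 2 ≤ Fintype.card σ := by exact_mod_cast hd
  have hd0 : (0 : ℝ) < Fintype.card σ := by linarith [show (0 : ℝ) < 1600 ^ 2 by norm_num]
  have hdC : (Fintype.card σ : ℂ) ≠ 0 := by exact_mod_cast hd0.ne'
  have hs : (1600 : ℝ) ≤ √(Fintype.card σ : ℝ) := Real.le_sqrt_of_sq_le hd'
  have hss : √(Fintype.card σ : ℝ) * √(Fintype.card σ : ℝ) = Fintype.card σ :=
    Real.mul_self_sqrt hd0.le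
  have e : ((Fintype.card σ : ℂ))⁻¹ • (∑ s, m s) - y =
      ((Fintype.card σ : ℂ))⁻¹ • ((∑ s, (m s - m' s)) +
        ((∑ s, m' s) - (Fintype.card σ : ℂ) • y)) := by
    rw [Finset.sum_sub_distrib, sub_add_sub_cancel, smul_sub, smul_smul, inv_mul_cancel₀ hdC,
      one_smul]
  have h3 : ‖∑ s, (m s - m' s)‖ ≤ Fintype.card σ * (2 / 1000) := by
    refine (norm_sum_le _ _).trans ?_
    refine (Finset.sum_le_card_nsmul _ _ _ fun s _ => h1 s).trans ?_
    simp
  rw [e, norm_smul, norm_inv, Complex.norm_natCast, inv_mul_le_iff₀ hd0]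
  refine (norm_add_le _ _).trans ?_
  nlinarith

theorem obs_conj {v m : H →L[ℂ] H} (hv : v ∈ unitary (H →L[ℂ] H)) (hv1 : ‖v - 1‖ ≤ 1 / 1000)
    (hm : ‖m‖ ≤ 1) : ‖v * m * star v - m‖ ≤ 2 / 1000 := by
  have h := norm_conj_sub (x := m) hv (one_mem _)
  simp only [star_one, one_mul, mul_one] at h
  refine h.trans ?_
  have := norm_nonneg (v - 1)
  have := norm_nonneg m
  nlinarith

theorem obs_norm_mul {a b : H →L[ℂ] H} (ha : ‖a‖ ≤ 1) (hb : ‖b‖ ≤ 1) : ‖a * b‖ ≤ 1 :=
  (norm_mul_le _ _).trans (mul_le_one₀ ha (norm_nonneg _) hb)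

theorem obs_unitary {V E : H →L[ℂ] H} (hV : V ∈ unitary (H →L[ℂ] H)) (hE : IsStarProjection E)
    (hc : Commute E V) : V * E + 1 - E ∈ unitary (H →L[ℂ] H) := by
  have h1 : star V * V = 1 := (Unitary.mem_iff.1 hV).1
  have h2 : V * star V = 1 := (Unitary.mem_iff.1 hV).2
  have hE1 : E * E = E := hE.isIdempotentElem.eq
  have hE2 : star E = E := hE.isSelfAdjoint.star_eq
  have hc' : Commute E (star V) := commute_star_of_unitary hV hc
  have a1 : E * (V * E) = V * E := by rw [← mul_assoc, hc.eq, mul_assoc, hE1]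
  have a2 : E * star V * E = E * star V := by rw [mul_assoc, ← hc'.eq, ← mul_assoc, hE1]
  have a3 : E * star V * (V * E) = E := by
    rw [mul_assoc, ← mul_assoc (star V), h1, one_mul, hE1]
  have a4 : V * E * (E * star V) = E := by
    rw [mul_assoc, ← mul_assoc E, hE1, ← mul_assoc, ← hc.eq, mul_assoc, h2, mul_one]
  have a5 : V * E * E = V * E := by rw [mul_assoc, hE1]
  have a6 : E * (E * star V) = E * star V := by rw [← mul_assoc, hE1]
  rw [Unitary.mem_iff]
  simp only [star_sub, star_add, star_mul, star_one, hE2]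
  constructor
  · simp only [mul_sub, sub_mul, mul_add, add_mul, mul_one, one_mul, a1, a2, a3, hE1]
    abel
  · simp only [mul_sub, sub_mul, mul_add, add_mul, mul_one, one_mul, a4, a5, a6, hE1]
    abel

theorem obs_near {V E x : H →L[ℂ] H} (hV : V ∈ unitary (H →L[ℂ] H)) (hE : IsStarProjection E)
    (hx : ‖x - ((1 / 2 : ℂ) • V) * E‖ ≤ 7 / 1000) :
    ‖((2 : ℂ) • x + 1 - star ((2 : ℂ) • x) * ((2 : ℂ) • x)) - (V * E + 1 - E)‖ ≤ 1 / 20 := by
  have h1 : star V * V = 1 := (Unitary.mem_iff.1 hV).1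
  have hE1 : E * E = E := hE.isIdempotentElem.eq
  have hE2 : star E = E := hE.isSelfAdjoint.star_eq
  have hb : ‖(2 : ℂ) • x - V * E‖ ≤ 14 / 1000 := by
    have e : (2 : ℂ) • x - V * E = (2 : ℂ) • (x - ((1 / 2 : ℂ) • V) * E) := by
      rw [smul_sub, smul_mul_assoc, smul_smul]
      norm_num
    rw [e, norm_smul]
    simp only [Complex.norm_ofNat]
    linarith
  generalize (2 : ℂ) • x = b at *
  have hW : ‖V * E‖ ≤ 1 := obs_norm_mul (unitary_norm_le hV) hE.norm_le
  have hWW : star (V * E) * (V * E) = E := by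
    rw [star_mul, hE2, mul_assoc, ← mul_assoc (star V), h1, one_mul, hE1]
  generalize V * E = W at *
  have hbn : ‖b‖ ≤ 1 + 14 / 1000 := by
    have := norm_add_le W (b - W)
    rw [add_sub_cancel] at this
    linarith
  have e : b + 1 - star b * b - (W + 1 - E) =
      (b - W) - (star (b - W) * b + star W * (b - W)) := by
    rw [← hWW, star_sub, sub_mul, mul_sub]
    abel
  have h2 : ‖star (b - W) * b‖ ≤ 14 / 1000 * (1 + 14 / 1000) := by
    refine (norm_mul_le _ _).trans ?_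
    rw [norm_star]
    exact mul_le_mul hb hbn (norm_nonneg _) (by norm_num)
  have h3 : ‖star W * (b - W)‖ ≤ 1 * (14 / 1000) := by
    refine (norm_mul_le _ _).trans ?_
    rw [norm_star]
    exact mul_le_mul hW hb (norm_nonneg _) (by norm_num)
  rw [e]
  refine (norm_sub_le _ _).trans ?_
  have := norm_add_le (star (b - W) * b) (star W * (b - W))
  linarith

theorem obs_compact {κ Γ : Type*} [Group Γ] (M : Model κ Γ H) (n : ℤ) {A : H →L[ℂ] H}
    (h1 : ∀ i, (M.L i).f 1 * A = A) (h2 : M.r n * A = A) : IsCompactOperator ⇑A := by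
  have h := (isCompactOperator_of_locallyCompactSpace_dom
    ((innerSL ℂ (M.dl n)).comp A)).clm_comp (ContinuousLinearMap.toSpanSingleton ℂ (M.dl n))
  have e : ⇑(ContinuousLinearMap.toSpanSingleton ℂ (M.dl n)) ∘
      ⇑((innerSL ℂ (M.dl n)).comp A) = ⇑A := by
    funext ζ
    have := M.rank n (A ζ) (fun i => congrArg (fun T : H →L[ℂ] H => T ζ) (h1 i))
      (congrArg (fun T : H →L[ℂ] H => T ζ) h2)
    simpa using this.symm
  rw [e] at h
  exact h

theorem obs_conj_commute {v a b : H →L[ℂ] H} (hv : v ∈ unitary (H →L[ℂ] H)) (h : Commute a b) :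
    Commute (v * a * star v) (v * b * star v) := by
  have h1 : star v * v = 1 := (Unitary.mem_iff.1 hv).1
  have e : ∀ a b : H →L[ℂ] H, v * a * star v * (v * b * star v) = v * (a * b) * star v := by
    intro a b
    calc _ = v * a * (star v * v) * b * star v := by simp only [mul_assoc]
      _ = _ := by rw [h1]; simp only [mul_assoc, one_mul]
  unfold Commute SemiconjBy
  rw [e, e, h.eq]

theorem no_small_unitary {σ : Type*} [Fintype σ] (hd : 1600 ^ 2 ≤ Fintype.card σ)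
    (M : Model (Fin 4) (FreeGroup σ) H) {k : ℕ} {u : ℤ → ℂ} (hu : Phase k u)
    {α β : FreeGroup σ →* (H →L[ℂ] H)}
    (hα : IsTree (M.L 1) ((1 / 2 : ℂ) • dg M.r u) (√3 / 2) α)
    (hβ : IsTree (M.L 3) ((1 / 2 : ℂ) • M.V) (√3 / 2) β) {v : H →L[ℂ] H}
    (hv : v ∈ unitary (H →L[ℂ] H)) (hv1 : ‖v - 1‖ ≤ 1 / 1000)
    (h12 : ∀ g h, Commute (v * ((M.L 0).lam g * α g) * star v) ((M.L 2).lam h * β h))
    (h21 : ∀ g h, Commute (v * (M.L 2).rho g * star v) ((M.L 0).rho h)) : False := by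
  have hr := M.res_r
  have hu1 : ∀ n, ‖u n‖ ≤ 1 := fun n => (hu.norm_eq n).le
  have hU : dg M.r u ∈ unitary (H →L[ℂ] H) := hr.dg_unitary hu.norm_eq
  have hV := M.V_unitary
  -- operators commuting with the `ℤ`-leg
  have cU : ∀ {y : H →L[ℂ] H}, M.Z.Com y → Commute y ((1 / 2 : ℂ) • dg M.r u) ∧
      Commute y (star ((1 / 2 : ℂ) • dg M.r u)) := by
    intro y hy
    have h1 : Commute y (dg M.r u) := hr.commute_dg hu1 fun n => hy.f _
    rw [star_smul]
    exact ⟨h1.smul_right _, (commute_star_of_unitary hU h1).smul_right _⟩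
  have cV : ∀ {y : H →L[ℂ] H}, M.Z.Com y → Commute y ((1 / 2 : ℂ) • M.V) ∧
      Commute y (star ((1 / 2 : ℂ) • M.V)) := by
    intro y hy
    have h1 : Commute y M.V := hy.lam _
    rw [star_smul]
    exact ⟨h1.smul_right _, (commute_star_of_unitary hV h1).smul_right _⟩
  have cα : ∀ {y : H →L[ℂ] H}, (M.L 1).Com y → M.Z.Com y → ∀ g, Commute y (α g) :=
    fun h1 h2 g => hα.commute (h1.f _) h1.lam (cU h2).1 (cU h2).2 g
  have cβ : ∀ {y : H →L[ℂ] H}, (M.L 3).Com y → M.Z.Com y → ∀ g, Commute y (β g) :=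
    fun h1 h2 g => hβ.commute (h1.f _) h1.lam (cV h2).1 (cV h2).2 g
  have i01 := M.indep 0 1 (by decide)
  have i02 := M.indep 0 2 (by decide)
  have i03 := M.indep 0 3 (by decide)
  have i20 := M.indep 2 0 (by decide)
  have i21 := M.indep 2 1 (by decide)
  have i23 := M.indep 2 3 (by decide)
  have avg1 := avg_tree i01 hα ⟨fun x => (cU ((M.indepZ 0).f x)).1.symm,
    fun x => (cU ((M.indepZ 0).lam x)).1.symm, fun x => (cU ((M.indepZ 0).rho x)).1.symm⟩
  have avg2 := avg_tree i23 hβ ⟨fun x => (cV ((M.indepZ 2).f x)).1.symm,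
    fun x => (cV ((M.indepZ 2).lam x)).1.symm, fun x => (cV ((M.indepZ 2).rho x)).1.symm⟩
  have nl : ∀ i g, ‖(M.L i).lam g‖ ≤ 1 := fun i g => rep_norm_le (M.L i).star_lam g
  have nr : ∀ i g, ‖(M.L i).rho g‖ ≤ 1 := fun i g => rep_norm_le (M.L i).star_rho g
  have nα : ∀ g, ‖α g‖ ≤ 1 := fun g => rep_norm_le hα.star_eq g
  have nβ : ∀ g, ‖β g‖ ≤ 1 := fun g => rep_norm_le hβ.star_eq g
  have hx1 := obs_avg hd (m := fun s => v * ((M.L 0).lam (FreeGroup.of s) * α (FreeGroup.of s)) *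
      star v * (M.L 0).rho (FreeGroup.of s)) (fun s => by
    rw [mul_assoc ((M.L 0).lam _), (cα (i01.rho _) ((M.indepZ 0).rho _) _).eq,
      ← mul_assoc ((M.L 0).lam _), ← sub_mul]
    refine (norm_mul_le _ _).trans ?_
    have h1 := obs_conj hv hv1 (obs_norm_mul (nl 0 (FreeGroup.of s)) (nα (FreeGroup.of s)))
    exact (mul_le_of_le_one_right (norm_nonneg _) (nr 0 _)).trans h1) avg1
  have hx2 := obs_avg hd (m := fun s => v * (M.L 2).rho (FreeGroup.of s) * star v *
      ((M.L 2).lam (FreeGroup.of s) * β (FreeGroup.of s))) (fun s => by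
    rw [((M.L 2).lam_rho _ _).eq, mul_assoc ((M.L 2).rho _), ← sub_mul]
    refine (norm_mul_le _ _).trans ?_
    have h1 := obs_conj hv hv1 (nr 2 (FreeGroup.of s))
    exact (mul_le_of_le_one_right (norm_nonneg _)
      (obs_norm_mul (nl 2 (FreeGroup.of s)) (nβ (FreeGroup.of s)))).trans h1) avg2
  set x1 := ((Fintype.card σ : ℂ))⁻¹ • ∑ s, v * ((M.L 0).lam (FreeGroup.of s) *
    α (FreeGroup.of s)) * star v * (M.L 0).rho (FreeGroup.of s) with hx1d
  set x2 := ((Fintype.card σ : ℂ))⁻¹ • ∑ s, v * (M.L 2).rho (FreeGroup.of s) * star v *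
      ((M.L 2).lam (FreeGroup.of s) * β (FreeGroup.of s)) with hx2d
  -- commutation
  have cA : ∀ g, Commute (v * ((M.L 0).lam g * α g) * star v) x2 := by
    intro g
    refine (Commute.sum_right _ _ _ fun s _ => Commute.mul_right ?_ (h12 _ _)).smul_right _
    exact obs_conj_commute hv (((i20.rho _).lam _).mul_right
      (cα (i21.rho _) ((M.indepZ 2).rho _) _)).symm
  have cR : ∀ g, Commute ((M.L 0).rho g) x2 := by
    intro g
    refine (Commute.sum_right _ _ _ fun s _ => Commute.mul_right (h21 _ _).symm ?_).smul_right _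
    exact ((i02.rho _).lam _).mul_right (cβ (i03.rho _) ((M.indepZ 0).rho _) _)
  have c1 : Commute x1 x2 :=
    (Commute.sum_left _ _ _ fun s _ => (cA _).mul_left (cR _)).smul_left _
  have c2 : Commute (star x1) x2 := by
    rw [hx1d, star_smul, star_sum]
    refine (Commute.sum_left _ _ _ fun s _ => ?_).smul_left _
    rw [star_mul, (M.L 0).star_rho]
    refine (cR _).mul_left ?_
    have e : star (v * ((M.L 0).lam (FreeGroup.of s) * α (FreeGroup.of s)) * star v) =
        v * ((M.L 0).lam (FreeGroup.of s)⁻¹ * α (FreeGroup.of s)⁻¹) * star v := by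
      rw [star_mul, star_star, star_mul, star_mul, (M.L 0).star_lam, hα.star_eq,
        (cα (i01.lam _) ((M.indepZ 0).lam _) _).eq, mul_assoc v]
    rw [e]
    exact cA _
  have hp : IsSelfAdjoint (x1 + star x1) := IsSelfAdjoint.add_star_self x1
  have c3 : Commute (x1 + star x1) ((2 : ℂ) • x2) := (c1.add_left c2).smul_right _
  have c4 : Commute (x1 + star x1) (star ((2 : ℂ) • x2)) := by
    have := c3.star_star
    rwa [hp.star_eq] at this
  have hc : Commute (x1 + star x1)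
      ((2 : ℂ) • x2 + 1 - star ((2 : ℂ) • x2) * ((2 : ℂ) • x2)) :=
    (c3.add_right (Commute.one_right _)).sub_right (c4.mul_right c3)
  -- the projections
  have pf : ∀ i, IsStarProjection ((M.L i).f 1) := fun i => (M.L i).res.proj 1
  have cf : ∀ i j, Commute ((M.L i).f 1) ((M.L j).f 1) := fun i j => by
    by_cases hij : i = j
    · rw [hij]
    · exact ((M.indep i j hij).f 1).f 1
  have fr : ∀ i n, Commute ((M.L i).f 1) (M.r n) := fun i n => ((M.indepZ i).f 1).f _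
  have fV : ∀ i, Commute ((M.L i).f 1) M.V := fun i => ((M.indepZ i).f 1).lam _
  have pE1 : IsStarProjection ((M.L 0).f 1 * (M.L 1).f 1) := (pf 0).mul (pf 1) (cf 0 1)
  have pE2 : IsStarProjection ((M.L 2).f 1 * (M.L 3).f 1) := (pf 2).mul (pf 3) (cf 2 3)
  have E1r : ∀ n, Commute ((M.L 0).f 1 * (M.L 1).f 1) (M.r n) := fun n =>
    (fr 0 n).mul_left (fr 1 n)
  have E2r : ∀ n, Commute ((M.L 2).f 1 * (M.L 3).f 1) (M.r n) := fun n =>
    (fr 2 n).mul_left (fr 3 n)
  have E1V : Commute ((M.L 0).f 1 * (M.L 1).f 1) M.V := (fV 0).mul_left (fV 1)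
  have E2V : Commute ((M.L 2).f 1 * (M.L 3).f 1) M.V := (fV 2).mul_left (fV 3)
  have E12 : Commute ((M.L 0).f 1 * (M.L 1).f 1) ((M.L 2).f 1 * (M.L 3).f 1) :=
    ((cf 0 2).mul_right (cf 0 3)).mul_left ((cf 1 2).mul_right (cf 1 3))
  have fE : ∀ i : Fin 4, (M.L i).f 1 * ((M.L 0).f 1 * (M.L 1).f 1 * ((M.L 2).f 1 * (M.L 3).f 1)) =
      (M.L 0).f 1 * (M.L 1).f 1 * ((M.L 2).f 1 * (M.L 3).f 1) := by
    intro i
    have id : ∀ j, (M.L j).f 1 * (M.L j).f 1 = (M.L j).f 1 := fun j => (pf j).isIdempotentElem.eq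
    fin_cases i
    · simp only [Fin.zero_eta, ← mul_assoc, id]
    · simp only [Fin.mk_one, ← mul_assoc]
      rw [(cf 1 0).eq, mul_assoc ((M.L 0).f 1), id]
    · simp only [Fin.reduceFinMk]
      rw [← mul_assoc, ((cf 2 0).mul_right (cf 2 1)).eq, mul_assoc, ← mul_assoc ((M.L 2).f 1), id]
    · simp only [Fin.reduceFinMk]
      rw [← mul_assoc, ((cf 3 0).mul_right (cf 3 1)).eq, mul_assoc, ← mul_assoc ((M.L 3).f 1),
        (cf 3 2).eq, mul_assoc ((M.L 2).f 1), id]
  have hEdl : ((M.L 0).f 1 * (M.L 1).f 1 * ((M.L 2).f 1 * (M.L 3).f 1)) (M.dl 1) = M.dl 1 := by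
    simp only [mul_apply_eq_comp, M.f_dl]
  have hK : ∀ n, IsCompactOperator
      ⇑(M.r n * ((M.L 0).f 1 * (M.L 1).f 1 * ((M.L 2).f 1 * (M.L 3).f 1))) := fun n =>
    obs_compact M n (fun i => by rw [← mul_assoc, (fr i n).eq, mul_assoc, fE])
      (by rw [← mul_assoc, hr.mul_self])
  generalize (M.L 0).f 1 * (M.L 1).f 1 = E1 at *
  generalize (M.L 2).f 1 * (M.L 3).f 1 = E2 at *
  have hre : ∀ n, |(u n).re| ≤ 1 := fun n => (Complex.abs_re_le_norm _).trans (hu1 n)
  have hre' : ∀ n, ‖(((u n).re : ℝ) : ℂ)‖ ≤ 1 := fun n => by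
    rw [Complex.norm_real]; exact hre n
  have hX : dg M.r (fun n => (((u n).re : ℝ) : ℂ)) =
      (1 / 2 : ℂ) • dg M.r u + star ((1 / 2 : ℂ) • dg M.r u) := by
    refine hr.ext fun n => ?_
    rw [hr.dg_mul hre', star_smul, hr.star_dg hu1, add_mul, smul_mul_assoc, smul_mul_assoc,
      hr.dg_mul hu1, hr.dg_mul (c := fun i => star (u i)) (C := 1) (fun i => by
        rw [norm_star]; exact hu1 i), smul_smul, smul_smul, ← add_smul]
    congr 1
    rw [Complex.re_eq_add_conj]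
    simp only [one_div, star_inv₀, star_ofNat, RCLike.star_def]
    ring
  have hXE1 : Commute E1 (dg M.r (fun n => (((u n).re : ℝ) : ℂ))) := hr.commute_dg hre' E1r
  have hXE2 : Commute E2 (dg M.r (fun n => (((u n).re : ℝ) : ℂ))) := hr.commute_dg hre' E2r
  have hUE1 : Commute E1 (star ((1 / 2 : ℂ) • dg M.r u)) := by
    rw [star_smul]
    exact (commute_star_of_unitary hU (hr.commute_dg hu1 E1r)).smul_right _
  refine obstruct (p₀ := dg M.r (fun n => (((u n).re : ℝ) : ℂ)) * E1) (obs_unitary hV pE2 E2V)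
    (obs_norm_mul (hr.norm_dg_le zero_le_one hre') pE1.norm_le) (fun N hN h => ?_) hp hc ?_
    (obs_near hV pE2 hx2)
  · refine shift_no_normal hr hV M.V_r (pE1.mul pE2 E12) (fun n => (E1r n).mul_left (E2r n))
      (E1V.mul_left E2V) hK (ξ := M.dl 1) (fun h0 => ?_) (M.r_apply_dl 1) hEdl hre
      (fun n hn => by rw [hu.left n hn, Complex.I_re]) (k := k)
      (fun n hn => by rw [hu.right n hn, Complex.one_re]) hN ?_
    · have := M.norm_dl 1
      rw [h0, norm_zero] at this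
      exact zero_ne_one this
    · have e : (M.V * E2 + 1 - E2 - 1) * (dg M.r (fun n => (((u n).re : ℝ) : ℂ)) * E1) =
          (M.V - 1) * (dg M.r (fun n => (((u n).re : ℝ) : ℂ)) * (E1 * E2)) := by
        have e1 : M.V * E2 + 1 - E2 - 1 = (M.V - 1) * E2 := by
          rw [sub_mul, one_mul]; abel
        rw [e1, mul_assoc, ← mul_assoc E2, hXE2.eq, mul_assoc, E12.eq]
      rwa [e] at h
  · have e : x1 + star x1 - dg M.r (fun n => (((u n).re : ℝ) : ℂ)) * E1 =
        (x1 - (1 / 2 : ℂ) • dg M.r u * E1) + star (x1 - (1 / 2 : ℂ) • dg M.r u * E1) := by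
      rw [hX, star_sub, star_mul, pE1.isSelfAdjoint.star_eq, hUE1.eq, add_mul]
      abel
    rw [e]
    refine (norm_add_le _ _).trans ?_
    rw [norm_star]
    linarith

end Crest.Agent.R078X
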