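import Crest.Agent.R078X.Res

/-! Row 78 (X): row and column contractions, ping-pong in the free group. -/

set_option autoImplicit false
set_option linter.unusedSectionVars false

open scoped InnerProductSpace

namespace Crest.Agent.R078X

variable {H : Type*} [NormedAddCommGroup H] [InnerProductSpace ℂ H] [CompleteSpace H]

theorem pp_apply_le {u : H →L[ℂ] H} (hu : ‖u‖ ≤ 1) (ξ : H) : ‖u ξ‖ ≤ ‖ξ‖ :=
  (u.le_opNorm ξ).trans (mul_le_of_le_one_left (norm_nonneg ξ) hu)

theorem pp_norm_one : ‖(1 : H →L[ℂ] H)‖ ≤ 1 := ContinuousLinearMap.norm_id_le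

theorem pp_norm_mul {u v : H →L[ℂ] H} (hu : ‖u‖ ≤ 1) (hv : ‖v‖ ≤ 1) : ‖u * v‖ ≤ 1 :=
  (norm_mul_le u v).trans (mul_le_one₀ hu (norm_nonneg v) hv)

section RowCol

variable {σ : Type*} [Fintype σ]

theorem pp_col_norm {k y : σ → H →L[ℂ] H} (hk : Col k) (hy : ∀ s, ‖y s‖ ≤ 1) :
    ‖∑ s, y s * k s‖ ≤ √(Fintype.card σ : ℝ) := by
  refine ContinuousLinearMap.opNorm_le_bound _ (Real.sqrt_nonneg _) fun ξ => ?_
  have h1 : ‖(∑ s, y s * k s) ξ‖ ≤ ∑ s, ‖k s ξ‖ := by
    rw [_root_.sum_apply]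
    exact norm_sum_le_of_le _ fun s _ => pp_apply_le (hy s) _
  refine h1.trans ?_
  have h2 : (∑ s, ‖k s ξ‖) ^ 2 ≤ (Fintype.card σ : ℝ) * ∑ s, ‖k s ξ‖ ^ 2 := by
    simpa using sq_sum_le_card_mul_sum_sq (s := Finset.univ) (f := fun s => ‖k s ξ‖)
  have h3 : (∑ s, ‖k s ξ‖) ^ 2 ≤ (√(Fintype.card σ : ℝ) * ‖ξ‖) ^ 2 := by
    rw [mul_pow, Real.sq_sqrt (Nat.cast_nonneg _)]
    exact h2.trans (mul_le_mul_of_nonneg_left (hk ξ) (Nat.cast_nonneg _))
  exact (abs_le_of_sq_le_sq' h3 (by positivity)).2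

theorem pp_col_conj {k u : σ → H →L[ℂ] H} (hk : Col k) {v : H →L[ℂ] H} (hu : ∀ s, ‖u s‖ ≤ 1)
    (hv : ‖v‖ ≤ 1) : Col fun s => u s * k s * v := by
  intro ξ
  have h1 : ∑ s, ‖(u s * k s * v) ξ‖ ^ 2 ≤ ∑ s, ‖k s (v ξ)‖ ^ 2 :=
    Finset.sum_le_sum fun s _ => pow_le_pow_left₀ (norm_nonneg _) (pp_apply_le (hu s) _) 2
  exact h1.trans ((hk _).trans (pow_le_pow_left₀ (norm_nonneg _) (pp_apply_le hv _) 2))

theorem pp_row_conj {r v : σ → H →L[ℂ] H} (hr : Row r) {u : H →L[ℂ] H} (hu : ‖u‖ ≤ 1)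
    (hv : ∀ s, ‖v s‖ ≤ 1) : Row fun s => u * r s * v s := by
  have h : Col fun s => star (v s) * star (r s) * star u :=
    pp_col_conj (k := fun s => star (r s)) hr (fun s => by rw [norm_star]; exact hv s)
      (by rw [norm_star]; exact hu)
  intro η
  simpa only [star_mul, mul_assoc] using h η

theorem Row.norm_sum_le {r y : σ → H →L[ℂ] H} (hr : Row r) (hy : ∀ s, ‖y s‖ ≤ 1) :
    ‖∑ s, r s * y s‖ ≤ √(Fintype.card σ : ℝ) := by
  rw [← norm_star, star_sum]
  simp only [star_mul]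
  exact pp_col_norm (k := fun s => star (r s)) hr fun s => by rw [norm_star]; exact hy s

theorem Col.norm_sum_le {k y : σ → H →L[ℂ] H} (hk : Col k) (hy : ∀ s, ‖y s‖ ≤ 1) :
    ‖∑ s, y s * k s‖ ≤ √(Fintype.card σ : ℝ) :=
  pp_col_norm hk hy

theorem Row.conj {r : σ → H →L[ℂ] H} (hr : Row r) {u v : H →L[ℂ] H} (hu : ‖u‖ ≤ 1)
    (hv : ‖v‖ ≤ 1) : Row fun s => u * r s * v :=
  pp_row_conj hr hu fun _ => hv

theorem Col.conj {k : σ → H →L[ℂ] H} (hk : Col k) {u v : H →L[ℂ] H} (hu : ‖u‖ ≤ 1)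
    (hv : ‖v‖ ≤ 1) : Col fun s => u * k s * v :=
  pp_col_conj hk (fun _ => hu) hv

theorem pp_norm_sum_add {r k A : σ → H →L[ℂ] H} (hr : Row r) (hk : Col k)
    (h : ∀ s, A s = r s + k s) : ‖∑ s, A s‖ ≤ 2 * √(Fintype.card σ : ℝ) := by
  have h1 := hr.norm_sum_le (y := fun _ => 1) fun _ => pp_norm_one
  have h2 := hk.norm_sum_le (y := fun _ => 1) fun _ => pp_norm_one
  simp only [mul_one, one_mul] at h1 h2
  simp only [h, Finset.sum_add_distrib]
  linarith [norm_add_le (∑ s, r s) (∑ s, k s)]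

end RowCol

section Proj

variable {ι : Type*} {f : ι → H →L[ℂ] H}

open Classical in
/-- The projection on the positions in `S`. -/
noncomputable def ppP (f : ι → H →L[ℂ] H) (S : Set ι) : H →L[ℂ] H :=
  dg f fun x => if x ∈ S then 1 else 0

open Classical in
theorem pp_bdd (S : Set ι) (x : ι) : ‖(if x ∈ S then 1 else 0 : ℂ)‖ ≤ 1 := by
  split_ifs <;> simp

theorem ppP_mul_of_mem (hf : Res f) {S : Set ι} {x : ι} (h : x ∈ S) : ppP f S * f x = f x := by
  rw [ppP, hf.dg_mul (pp_bdd S), if_pos h, one_smul]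

theorem ppP_mul_of_notMem (hf : Res f) {S : Set ι} {x : ι} (h : x ∉ S) : ppP f S * f x = 0 := by
  rw [ppP, hf.dg_mul (pp_bdd S), if_neg h, zero_smul]

theorem mul_ppP_of_mem (hf : Res f) {S : Set ι} {x : ι} (h : x ∈ S) : f x * ppP f S = f x := by
  rw [ppP, hf.mul_dg (pp_bdd S), if_pos h, one_smul]

theorem mul_ppP_of_notMem (hf : Res f) {S : Set ι} {x : ι} (h : x ∉ S) : f x * ppP f S = 0 := by
  rw [ppP, hf.mul_dg (pp_bdd S), if_neg h, zero_smul]

theorem ppP_norm (hf : Res f) (S : Set ι) : ‖ppP f S‖ ≤ 1 :=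
  hf.norm_dg_le zero_le_one (pp_bdd S)

theorem ppP_star (hf : Res f) (S : Set ι) : star (ppP f S) = ppP f S := by
  rw [ppP, hf.star_dg (pp_bdd S)]
  congr 1
  funext x
  split_ifs <;> simp

theorem ppP_split (hf : Res f) (Y S : Set ι) : ppP f Y = ppP f (Y \ S) + ppP f (Y ∩ S) := by
  refine hf.ext fun x => ?_
  rw [add_mul]
  by_cases hY : x ∈ Y
  · by_cases hS : x ∈ S
    · rw [ppP_mul_of_mem hf hY, ppP_mul_of_notMem hf (fun h => h.2 hS),
        ppP_mul_of_mem hf (show x ∈ Y ∩ S from ⟨hY, hS⟩), zero_add]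
    · rw [ppP_mul_of_mem hf hY, ppP_mul_of_mem hf (show x ∈ Y \ S from ⟨hY, hS⟩),
        ppP_mul_of_notMem hf (fun h => hS h.2), add_zero]
  · rw [ppP_mul_of_notMem hf hY, ppP_mul_of_notMem hf (fun h => hY h.1),
      ppP_mul_of_notMem hf (fun h => hY h.1), add_zero]

theorem ppP_univ (hf : Res f) : ppP f Set.univ = 1 :=
  hf.ext fun x => by rw [ppP_mul_of_mem hf (Set.mem_univ x), one_mul]

theorem ppP_compl (hf : Res f) (i : ι) : ppP f {i}ᶜ = 1 - f i := by
  refine hf.ext fun x => ?_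
  by_cases h : x = i
  · subst h
    rw [ppP_mul_of_notMem hf (by simp), sub_mul, one_mul, hf.mul_self, sub_self]
  · rw [ppP_mul_of_mem hf (by simpa using h), sub_mul, one_mul, hf.orth i x (Ne.symm h), sub_zero]

theorem ppP_col {σ : Type*} [Fintype σ] (hf : Res f) {S : σ → Set ι}
    (hS : ∀ s t x, x ∈ S s → x ∈ S t → s = t) : Col fun s => ppP f (S s) := by
  classical
  intro ξ
  have h1 : HasSum (fun x => ∑ s, ‖f x (ppP f (S s) ξ)‖ ^ 2) (∑ s, ‖ppP f (S s) ξ‖ ^ 2) :=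
    hasSum_sum fun s _ => hf.hasSum_sq _
  refine hasSum_le (fun x => ?_) h1 (hf.hasSum_sq ξ)
  by_cases hx : ∃ s, x ∈ S s
  · obtain ⟨s, hs⟩ := hx
    rw [Finset.sum_eq_single s]
    · rw [← mul_apply_eq_comp, mul_ppP_of_mem hf hs]
    · intro t _ hts
      rw [← mul_apply_eq_comp, mul_ppP_of_notMem hf fun h => hts (hS t s x h hs)]
      simp
    · simp
  · rw [Finset.sum_eq_zero]
    · positivity
    · intro t _
      rw [← mul_apply_eq_comp, mul_ppP_of_notMem hf fun h => hx ⟨t, h⟩]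
      simp

/-- The abstract ping-pong decomposition. -/
theorem pp_general {σ : Type*} [Fintype σ] (hf : Res f) {A : σ → H →L[ℂ] H} {φ : σ → ι → ι}
    (hA : ∀ s x, A s * f x = f (φ s x) * A s) (hn : ∀ s, ‖A s‖ ≤ 1) (Y : Set ι)
    {Sp Sm : σ → Set ι} (hp : ∀ s t x, x ∈ Sp s → x ∈ Sp t → s = t)
    (hm : ∀ s t x, x ∈ Sm s → x ∈ Sm t → s = t)
    (hφ : ∀ s x, x ∈ Y → x ∉ Sm s → φ s x ∈ Sp s) :
    ∃ r k : σ → H →L[ℂ] H, Row r ∧ Col k ∧ ∀ s, A s * ppP f Y = r s + k s := by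
  refine ⟨fun s => A s * ppP f (Y \ Sm s), fun s => A s * ppP f (Y ∩ Sm s), ?_, ?_, fun s => ?_⟩
  · have h1 : Row fun s => ppP f (Sp s) := by
      intro η
      simpa only [ppP_star hf] using ppP_col hf hp η
    have h2 := pp_row_conj h1 pp_norm_one (v := fun s => A s * ppP f (Y \ Sm s))
      fun s => pp_norm_mul (hn s) (ppP_norm hf _)
    have h3 : ∀ s, 1 * ppP f (Sp s) * (A s * ppP f (Y \ Sm s)) = A s * ppP f (Y \ Sm s) := by
      intro s
      refine hf.ext fun x => ?_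
      rw [one_mul, mul_assoc, mul_assoc]
      by_cases hx : x ∈ Y \ Sm s
      · rw [ppP_mul_of_mem hf hx, hA, ← mul_assoc, ppP_mul_of_mem hf (hφ s x hx.1 hx.2)]
      · rw [ppP_mul_of_notMem hf hx, mul_zero, mul_zero]
    simpa only [h3] using h2
  · have h1 := pp_col_conj (ppP_col hf (S := fun s => Y ∩ Sm s)
      fun s t x hs ht => hm s t x hs.2 ht.2) hn pp_norm_one
    simpa only [mul_one] using h1
  · rw [ppP_split hf Y (Sm s), mul_add]

end Proj

section Free

variable {σ : Type*} [DecidableEq σ]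

theorem pp_disj (b : Bool) (s t : σ) (x : FreeGroup σ) (hs : x ∈ FreeGroup.startsWith (s, b))
    (ht : x ∈ FreeGroup.startsWith (t, b)) : s = t := by
  have h1 : x.toWord[0]? = some (s, b) := hs
  have h2 : x.toWord[0]? = some (t, b) := ht
  rw [h1] at h2
  simpa using h2

theorem pp_of_mul (s : σ) (x : FreeGroup σ) (hx : x ∉ FreeGroup.startsWith (s, false)) :
    FreeGroup.of s * x ∈ FreeGroup.startsWith (s, true) :=
  FreeGroup.startsWith_mk_mul (w := (s, true)) x hx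

theorem pp_mul_mk {a w : σ × Bool} {y : FreeGroup σ} (hy : y ∈ FreeGroup.startsWith a)
    (hne : y ≠ FreeGroup.mk [a]) : y * FreeGroup.mk [w] ∈ FreeGroup.startsWith a := by
  have h1 : y.toWord[0]? = some a := hy
  have hr : FreeGroup.IsReduced y.toWord := FreeGroup.isReduced_toWord
  have hmk : FreeGroup.mk y.toWord = y := FreeGroup.mk_toWord
  generalize y.toWord = l at h1 hr hmk
  subst hmk
  obtain ⟨l', rfl⟩ : ∃ l', l = a :: l' := by
    cases l with
    | nil => simp at h1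
    | cons b l' => exact ⟨l', by simpa using h1⟩
  rcases List.eq_nil_or_concat l' with rfl | ⟨l'', c, rfl⟩
  · exact absurd rfl hne
  rw [List.concat_eq_append] at hr ⊢
  change (FreeGroup.toWord _)[0]? = some a
  by_cases hc : c.1 = w.1 → c.2 = w.2
  · have h2 : FreeGroup.IsReduced (a :: l'' ++ [c] ++ [w]) :=
      FreeGroup.IsReduced.append_overlap hr
        (FreeGroup.isReduced_cons_cons.2 ⟨hc, FreeGroup.IsReduced.singleton⟩) (by simp)
    rw [FreeGroup.mul_mk, FreeGroup.toWord_mk, ← List.cons_append, h2.reduce_eq]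
    simp
  · have h2 : FreeGroup.IsReduced (a :: l'') := hr.infix ⟨[], [c], by simp⟩
    have h3 : FreeGroup.mk [w] = (FreeGroup.mk [c])⁻¹ := by
      obtain ⟨c1, c2⟩ := c
      obtain ⟨w1, w2⟩ := w
      rw [FreeGroup.inv_mk]
      simp only [Classical.not_imp] at hc
      obtain ⟨rfl, hc⟩ := hc
      cases c2 <;> cases w2 <;> simp_all [FreeGroup.invRev]
    rw [← List.cons_append, ← FreeGroup.mul_mk, h3, mul_inv_cancel_right, FreeGroup.toWord_mk,
      h2.reduce_eq]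
    simp

theorem pp_conj_mem (s : σ) (x : FreeGroup σ) (h1 : x ≠ 1)
    (hx : x ∉ FreeGroup.startsWith (s, false)) :
    FreeGroup.of s * (x * (FreeGroup.of s)⁻¹) ∈ FreeGroup.startsWith (s, true) := by
  rw [← mul_assoc]
  refine pp_mul_mk (w := (s, false)) (pp_of_mul s x hx) fun h => h1 ?_
  have h2 : FreeGroup.of s * x = FreeGroup.of s := h
  simpa using h2

end Free

variable {σ : Type*} [Fintype σ] (L : Leg (FreeGroup σ) H)

/-- Ping-pong for the left regular representation. -/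
theorem pp_lam {T : σ → H →L[ℂ] H} (hT : ∀ s x, Commute (T s) (L.f x)) (hn : ∀ s, ‖T s‖ ≤ 1) :
    ∃ r k : σ → H →L[ℂ] H, Row r ∧ Col k ∧
      ∀ s, L.lam (FreeGroup.of s) * T s = r s + k s := by
  classical
  have h := pp_general L.res (A := fun s => L.lam (FreeGroup.of s) * T s)
    (φ := fun s x => FreeGroup.of s * x)
    (fun s x => by rw [mul_assoc, (hT s x).eq, ← mul_assoc, L.lam_f, mul_assoc])
    (fun s => pp_norm_mul (rep_norm_le L.star_lam _) (hn s)) Set.univ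
    (pp_disj true) (pp_disj false) fun s x _ hx => pp_of_mul s x hx
  simpa only [ppP_univ L.res, mul_one] using h

/-- Ping-pong for the conjugation action on the complement of the identity. -/
theorem pp_conj : ∃ r k : σ → H →L[ℂ] H, Row r ∧ Col k ∧
    ∀ s, L.lam (FreeGroup.of s) * L.rho (FreeGroup.of s) * (1 - L.f 1) = r s + k s := by
  classical
  have h := pp_general L.res (A := fun s => L.lam (FreeGroup.of s) * L.rho (FreeGroup.of s))
    (φ := fun s x => FreeGroup.of s * (x * (FreeGroup.of s)⁻¹))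
    (fun s x => by rw [mul_assoc, L.rho_f, ← mul_assoc, L.lam_f, mul_assoc])
    (fun s => pp_norm_mul (rep_norm_le L.star_lam _) (rep_norm_le L.star_rho _)) {1}ᶜ
    (pp_disj true) (pp_disj false) fun s x h1 hx => pp_conj_mem s x h1 hx
  simpa only [ppP_compl L.res] using h

theorem norm_sum_lam {T : σ → H →L[ℂ] H} (hT : ∀ s x, Commute (T s) (L.f x))
    (hn : ∀ s, ‖T s‖ ≤ 1) :
    ‖∑ s, L.lam (FreeGroup.of s) * T s‖ ≤ 2 * √(Fintype.card σ : ℝ) := by
  obtain ⟨r, k, hr, hk, h⟩ := pp_lam L hT hn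
  exact pp_norm_sum_add hr hk h

theorem norm_sum_conj :
    ‖(∑ s, L.lam (FreeGroup.of s) * L.rho (FreeGroup.of s)) - (Fintype.card σ : ℂ) • L.f 1‖ ≤
      2 * √(Fintype.card σ : ℝ) := by
  obtain ⟨r, k, hr, hk, h⟩ := pp_conj L
  have h1 := pp_norm_sum_add hr hk h
  simp only [mul_sub, mul_one, L.fix, Finset.sum_sub_distrib, Finset.sum_const,
    Finset.card_univ] at h1
  rwa [Nat.cast_smul_eq_nsmul]

theorem row_lam_f : Row fun s : σ => L.lam (FreeGroup.of s) * L.f 1 := by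
  classical
  intro η
  have h1 : ∀ s : σ, ‖star (L.lam (FreeGroup.of s) * L.f 1) η‖ = ‖L.f (FreeGroup.of s) η‖ := by
    intro s
    rw [star_mul, L.res.star_eq, L.star_lam, L.norm_f_lam, inv_inv]
  simp only [h1]
  have h2 := L.res.sum_sq_le (Finset.univ.image (FreeGroup.of : σ → FreeGroup σ)) η
  rwa [Finset.sum_image fun a _ b _ h => FreeGroup.of_injective h] at h2

/-- Spectral gap: an operator commuting with `λ` and `ρ` commutes with the projection on `δ_e`. -/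
theorem commute_f_of_gap (hd : 4 < Fintype.card σ) {w : H →L[ℂ] H}
    (h1 : ∀ g, Commute w (L.lam g)) (h2 : ∀ g, Commute w (L.rho g)) : Commute w (L.f 1) := by
  have hn := norm_sum_conj L
  obtain ⟨h, hh⟩ : ∃ h, h = ∑ s, L.lam (FreeGroup.of s) * L.rho (FreeGroup.of s) := ⟨_, rfl⟩
  obtain ⟨p, hp⟩ : ∃ p, p = L.f 1 := ⟨_, rfl⟩
  have hw : w * h = h * w := by
    rw [hh]; exact (Commute.sum_right _ _ _ fun s _ => (h1 _).mul_right (h2 _)).eq
  have hhp : h * p = (Fintype.card σ : ℂ) • p := by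
    rw [hh, hp, Finset.sum_mul]
    simp only [L.fix, Finset.sum_const, Finset.card_univ, Nat.cast_smul_eq_nsmul]
  have hph : p * h = (Fintype.card σ : ℂ) • p := by
    rw [hh, hp, Finset.mul_sum]
    simp only [L.fix', Finset.sum_const, Finset.card_univ, Nat.cast_smul_eq_nsmul]
  have hpp : p * p = p := by rw [hp]; exact L.res.mul_self 1
  rw [← hh, ← hp] at hn
  rw [← hp]
  have hd' : (4 : ℝ) < Fintype.card σ := by exact_mod_cast hd
  have hgap : 2 * √(Fintype.card σ : ℝ) < Fintype.card σ := by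
    have h3 : 2 < √(Fintype.card σ : ℝ) := Real.lt_sqrt_of_sq_lt (by linarith)
    have h4 := Real.mul_self_sqrt (Nat.cast_nonneg (α := ℝ) (Fintype.card σ))
    nlinarith
  have key : ∀ v : H →L[ℂ] H,
      ‖(Fintype.card σ : ℂ) • v‖ ≤ ‖h - (Fintype.card σ : ℂ) • p‖ * ‖v‖ → v = 0 := by
    intro v hv
    rw [norm_smul, Complex.norm_natCast] at hv
    by_contra hv0
    have h3 : 0 < ‖v‖ := norm_pos_iff.2 hv0
    have h4 := mul_le_mul_of_nonneg_right hn h3.le
    nlinarith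
  have e1 : w * p - p * w * p = 0 := by
    refine key _ ?_
    have h3 : (h - (Fintype.card σ : ℂ) • p) * (w * p - p * w * p) =
        (Fintype.card σ : ℂ) • (w * p - p * w * p) := by
      have a1 : h * (w * p) = (Fintype.card σ : ℂ) • (w * p) := by
        rw [← mul_assoc, ← hw, mul_assoc, hhp, mul_smul_comm]
      have a2 : h * (p * w * p) = (Fintype.card σ : ℂ) • (p * w * p) := by
        rw [← mul_assoc, ← mul_assoc, hhp, smul_mul_assoc, smul_mul_assoc]
      have a3 : p * (w * p - p * w * p) = 0 := by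
        rw [mul_sub, ← mul_assoc, ← mul_assoc, ← mul_assoc, hpp, sub_self]
      rw [sub_mul, smul_mul_assoc, a3, smul_zero, sub_zero, mul_sub, a1, a2, smul_sub]
    rw [← h3]
    exact norm_mul_le _ _
  have e2 : p * w - p * w * p = 0 := by
    refine key _ ?_
    have h3 : (p * w - p * w * p) * (h - (Fintype.card σ : ℂ) • p) =
        (Fintype.card σ : ℂ) • (p * w - p * w * p) := by
      have a1 : p * w * h = (Fintype.card σ : ℂ) • (p * w) := by
        rw [mul_assoc, hw, ← mul_assoc, hph, smul_mul_assoc]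
      have a2 : p * w * p * h = (Fintype.card σ : ℂ) • (p * w * p) := by
        rw [mul_assoc, hph, mul_smul_comm]
      have a3 : (p * w - p * w * p) * p = 0 := by
        rw [sub_mul, mul_assoc (p * w), hpp, sub_self]
      rw [mul_sub, mul_smul_comm, a3, smul_zero, sub_zero, sub_mul, a1, a2, smul_sub]
    rw [← h3, mul_comm ‖h - _‖]
    exact norm_mul_le _ _
  exact (sub_eq_zero.1 e1).trans (sub_eq_zero.1 e2).symm

end Crest.Agent.R078X
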